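import Vale.Agent.Lib.P050.Core3

/-!
# Assembling the analysis and the combinatorial core
-/

open MeasureTheory

set_option linter.unusedSectionVars false

namespace Vale.Agent.Lib.P050

variable {V : Type*} [Fintype V] [DecidableEq V]

section param

lemma mem_pathEdges_iff (M : List V) (e : Sym2 V) :
    e ∈ pathEdges M ↔ ∃ (j : ℕ) (h : j + 1 < M.length), e = s(M[j], M[j + 1]) := by
  induction M with
  | nil => simp
  | cons a t ih =>
    cases t with
    | nil => simp
    | cons b t' =>
      simp only [pathEdges_cons_cons, List.mem_cons]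
      rw [ih]
      constructor
      · rintro (rfl | ⟨j, hj, rfl⟩)
        · exact ⟨0, by simp, by simp⟩
        · exact ⟨j + 1, by simpa using hj, by simp⟩
      · rintro ⟨j, hj, rfl⟩
        cases j with
        | zero => left; simp
        | succ j' =>
          right
          exact ⟨j', by simpa using hj, by simp⟩

/-- Parametrisation of a list cycle by `ZMod`. -/
lemma exists_param {F : Finset (Sym2 V)} {a : V} {l : List V} (h : IsCyc F a l) {k : ℕ}
    (hk : l.length + 1 = 2 * (k + 1)) :
    ∃ c : Zk k → V, Function.Injective c ∧ cycEdges c = cycE a l ∧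
      ∀ w, w ∈ a :: l ↔ ∃ i, c i = w := by
  classical
  have hlen : (a :: l).length = 2 * (k + 1) := by simpa using hk
  have hval : ∀ i : Zk k, i.val < (a :: l).length := fun i => by rw [hlen]; exact val_lt i
  set c : Zk k → V := fun i => (a :: l)[i.val]'(hval i) with hc
  have hinj : Function.Injective c := by
    intro i j hij
    have := (List.Nodup.getElem_inj_iff h.nodup).mp hij
    exact ZMod.val_injective _ this
  refine ⟨c, hinj, ?_, ?_⟩
  · ext e
    rw [mem_cycE, mem_pathEdges_iff]
    simp only [cycEdges, Finset.mem_image, Finset.mem_univ, true_and]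
    have hM : (a :: (l ++ [a])).length = 2 * (k + 1) + 1 := by simp; omega
    have hget : ∀ (j : ℕ) (hj : j < 2 * (k + 1)) (h' : j < (a :: (l ++ [a])).length),
        (a :: (l ++ [a]))[j] = (a :: l)[j]'(by rw [hlen]; exact hj) := by
      intro j hj h'
      have : (a :: (l ++ [a])) = (a :: l) ++ [a] := by simp
      simp only [this]
      rw [List.getElem_append_left]
    have hget2 : ∀ (h' : 2 * (k + 1) < (a :: (l ++ [a])).length),
        (a :: (l ++ [a]))[2 * (k + 1)] = a := by
      intro h'
      have : (a :: (l ++ [a])) = (a :: l) ++ [a] := by simp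
      simp only [this]
      rw [List.getElem_append_right (by rw [hlen])]
      simp [hlen]
    constructor
    · rintro ⟨i, rfl⟩
      have hi := val_lt i
      refine ⟨i.val, by rw [hM]; omega, ?_⟩
      simp only [hc]
      rw [hget i.val hi (by omega)]
      congr 1
      by_cases hj2 : i.val + 1 < 2 * (k + 1)
      · have hv2 : (i + 1).val = i.val + 1 := by
          have : i + 1 = bp k (i.val + 1) := by rw [bp_succ, bp_val]
          rw [this]
          exact val_bp hj2
        simp only [hv2]
        rw [hget (i.val + 1) hj2 (by omega)]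
      · have hj3 : i.val + 1 = 2 * (k + 1) := by omega
        have hv2 : (i + 1).val = 0 := by
          have : i + 1 = 0 := by
            rw [← bp_val i, ← bp_succ, hj3, bp_top]
          rw [this]
          simp
        simp only [hv2, hj3]
        rw [hget2 (by omega)]
        simp
    · rintro ⟨j, hj, rfl⟩
      rw [hM] at hj
      have hj' : j < 2 * (k + 1) := by omega
      refine ⟨bp k j, ?_⟩
      simp only [hc]
      have hvj : (bp k j).val = j := val_bp hj'
      have e1 : (a :: l)[(bp k j).val]'(hval _) = (a :: (l ++ [a]))[j]'(by omega) := by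
        rw [hget j hj' (by omega)]
        simp only [hvj]
      rw [e1]
      congr 1
      by_cases hj2 : j + 1 < 2 * (k + 1)
      · have hv2 : (bp k j + 1).val = j + 1 := by
          rw [← bp_succ]; exact val_bp hj2
        simp only [hv2]
        rw [hget (j + 1) hj2 (by omega)]
      · have hj3 : j + 1 = 2 * (k + 1) := by omega
        have hv2 : (bp k j + 1).val = 0 := by
          rw [← bp_succ, hj3, bp_top]
          simp
        simp only [hv2]
        simp only [hj3]
        rw [hget2 (by omega)]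
        simp
  · intro w
    constructor
    · intro hw
      obtain ⟨j, hj, rfl⟩ := List.getElem_of_mem hw
      rw [hlen] at hj
      refine ⟨bp k j, ?_⟩
      simp only [hc]
      congr 1
      exact val_bp hj
    · rintro ⟨i, rfl⟩
      exact List.getElem_mem _

end param

section main

variable {Ω : Type*} [MeasurableSpace Ω] (μ : Measure Ω) [IsProbabilityMeasure μ]

variable {U : Ω → Ω → ℝ}

/-- Even length of a cycle whose edges lie in a properly two-coloured edge set. -/
lemma cyc_half {E F : Finset (Sym2 V)} (hFE : F ⊆ E) {col : V → Bool}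
    (hcol : ∀ x y, s(x, y) ∈ E → col x ≠ col y) {a : V} {l : List V} (h : IsCyc F a l) :
    ∃ k, 1 ≤ k ∧ l.length + 1 = 2 * (k + 1) := by
  obtain ⟨m, hm⟩ := (h.mono hFE).even hcol
  have hlong := h.long
  exact ⟨m - 1, by omega, by omega⟩

/-- The analysis provides the hypotheses of the core. -/
theorem coreHyp_of_kernel (hU : GoodKernel U) {ε : ℝ} (hε : ∀ a b, |U a b| ≤ ε)
    {E : Finset (Sym2 V)} {Δ : ℕ} (hl : NoLoops E) (hcolE : ∃ c : V → Bool, ∀ x y, s(x, y) ∈ E → c x ≠ c y)
    (hdeg : ∀ v, degE E v ≤ Δ) (hΔ : 1 ≤ Δ) (hε0 : 0 < ε) (hεle : ε ≤ 1 / (100 * (Δ : ℝ)))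
    (h0 : ∫ r, dK μ U r ∂μ = 0) :
    CoreHyp E (tF μ hU) ε (dA μ U) Δ := by
  obtain ⟨col, hcol⟩ := id hcolE
  refine
    { noLoops := hl
      col := hcolE
      deg_le := hdeg
      Δ_pos := hΔ
      ε_pos := hε0
      ε_le := hεle
      A_nonneg := dA_nonneg μ
      t_empty := tF_empty μ hU
      t_mul := fun F₁ F₂ _ _ h => tF_union μ hU h
      t_bound := fun F _ => tF_abs_le μ hU hε F
      t_single := ?_
      t_P2 := fun a b v h1 h2 h3 _ _ => tF_P2 μ hU h1 h2 h3
      t_two := fun F _ a b v w h1 h2 h3 h4 h5 h6 h7 h8 h9 =>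
        tF_two_leaves μ hU hε hε0.le h1 h2 h3 h4 h5 h6 h7 h8 h9
      t_cyc := ?_
      t_ind := ?_
      t_one := ?_ }
  · intro e he
    induction e using Sym2.ind with
    | _ a b => exact tF_single μ hU (hl.ne he) h0
  · intro a l hC
    obtain ⟨k, hk1, hk⟩ := cyc_half (Finset.Subset.refl _) hcol hC
    obtain ⟨c, hc, hE, -⟩ := exists_param hC hk
    rw [← hE]
    exact tF_cycEdges_nonneg μ hU hk1 hc
  · intro F hF a l hC hind
    obtain ⟨k, hk1, hk⟩ := cyc_half hF hcol hC
    obtain ⟨c, hc, hE, hw⟩ := exists_param hC hk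
    rw [hk, ← hE]
    refine tF_induced μ hU hε hε0 hk1 hc (by rw [hE]; exact hC.subset) ?_
    intro e he hin
    rw [hE]
    apply hind e he
    intro w hwe
    rw [hw]
    obtain ⟨i, -, hi⟩ := Finset.mem_image.mp (hin w hwe)
    exact ⟨i, hi⟩
  · intro F hF a v hav hv hla b l hC hind β hβ
    have hFE : F.erase s(a, v) ⊆ E := (Finset.erase_subset _ _).trans hF
    obtain ⟨k, hk1, hk⟩ := cyc_half hFE hcol hC
    obtain ⟨c, hc, hE, hw⟩ := exists_param hC hk
    rw [hk, ← hE]
    refine tF_one_leaf μ hU hε hε0 hk1 hc hav hv hla (by rw [hE]; exact hC.subset) ?_ hβ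
    intro e he hin
    rw [hE]
    apply hind e he
    intro w hwe
    rw [hw]
    obtain ⟨i, -, hi⟩ := Finset.mem_image.mp (hin w hwe)
    exact ⟨i, hi⟩

/-- The local Sidorenko inequality for everywhere bounded kernels. -/
theorem local_bdd (hU : GoodKernel U) {ε : ℝ} (hε : ∀ a b, |U a b| ≤ ε)
    {E : Finset (Sym2 V)} {Δ : ℕ} (hl : NoLoops E) (hcolE : ∃ c : V → Bool, ∀ x y, s(x, y) ∈ E → c x ≠ c y)
    (hdeg : ∀ v, degE E v ≤ Δ) (hΔ : 1 ≤ Δ) (hε0 : 0 < ε) (hεle : ε ≤ 1 / (100 * (Δ : ℝ)))
    (h0 : ∫ r, dK μ U r ∂μ = 0) :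
    1 ≤ ∫ x, ∏ e ∈ E, (1 + evE hU x e) ∂(piM μ V) := by
  have key := core_main (coreHyp_of_kernel μ hU hε hl hcolE hdeg hΔ hε0 hεle h0)
  have e : ∫ x, ∏ e ∈ E, (1 + evE hU x e) ∂(piM μ V) = ∑ F ∈ E.powerset, tF μ hU F := by
    unfold tF
    rw [← integral_finsetSum]
    · congr 1
      ext x
      exact Finset.prod_one_add E
    · intro F _
      exact (prodE_bm hU F).integrable
  rw [e]
  exact key

end main

end Vale.Agent.Lib.P050
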