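import Vale.Agent.Lib.P050.Density

/-!
# Connected edge sets: decomposition and counting

Connected components of edge sets, the splitting of a sum over edge sets into the component of a
vertex and the rest, and an exploration bound for the generating function of connected edge sets
in a graph of bounded degree.
-/

set_option linter.unusedSectionVars false

namespace Vale.Agent.Lib.P050

open Finset

variable {V : Type*} [Fintype V] [DecidableEq V]

/-- Adjacency along an edge set. -/
def AdjF (F : Finset (Sym2 V)) (u w : V) : Prop := s(u, w) ∈ F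

lemma AdjF.symm {F : Finset (Sym2 V)} {u w : V} (h : AdjF F u w) : AdjF F w u := by
  unfold AdjF at *
  rwa [Sym2.eq_swap]

/-- Reachability along an edge set. -/
def Reach (F : Finset (Sym2 V)) : V → V → Prop := Relation.ReflTransGen (AdjF F)

lemma Reach.refl (F : Finset (Sym2 V)) (u : V) : Reach F u u := Relation.ReflTransGen.refl

lemma Reach.symm {F : Finset (Sym2 V)} {u w : V} (h : Reach F u w) : Reach F w u := by
  induction h with
  | refl => exact Reach.refl _ _
  | tail _ h2 ih => exact Relation.ReflTransGen.head (AdjF.symm h2) ih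

lemma Reach.trans {F : Finset (Sym2 V)} {u w z : V} (h : Reach F u w) (h' : Reach F w z) :
    Reach F u z := Relation.ReflTransGen.trans h h'

lemma Reach.tail {F : Finset (Sym2 V)} {u w z : V} (h : Reach F u w) (h' : s(w, z) ∈ F) :
    Reach F u z := Relation.ReflTransGen.tail h h'

lemma Reach.mono {F G : Finset (Sym2 V)} (hFG : F ⊆ G) {u w : V} (h : Reach F u w) :
    Reach G u w := by
  induction h with
  | refl => exact Reach.refl _ _
  | tail _ h2 ih => exact ih.tail (hFG h2)

/-- Connected edge set: any two touched vertices are joined inside the set. -/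
def Conn (F : Finset (Sym2 V)) : Prop := ∀ u ∈ verts F, ∀ w ∈ verts F, Reach F u w

/-- The component of `v` in `F`. -/
noncomputable def comp (F : Finset (Sym2 V)) (v : V) : Finset (Sym2 V) := by
  classical
  exact F.filter fun e => ∃ w ∈ e, Reach F v w

lemma comp_subset (F : Finset (Sym2 V)) (v : V) : comp F v ⊆ F := by
  classical
  exact filter_subset _ _

lemma mem_comp {F : Finset (Sym2 V)} {v : V} {e : Sym2 V} :
    e ∈ comp F v ↔ e ∈ F ∧ ∃ w ∈ e, Reach F v w := by
  classical
  simp [comp]

lemma comp_all_reach {F : Finset (Sym2 V)} {v : V} {e : Sym2 V} (he : e ∈ comp F v) :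
    ∀ w ∈ e, Reach F v w := by
  obtain ⟨heF, z, hz, hr⟩ := mem_comp.mp he
  induction e using Sym2.ind with
  | _ a b =>
    intro w hw
    simp only [Sym2.mem_iff] at hz hw
    rcases hz with rfl | rfl <;> rcases hw with rfl | rfl
    · exact hr
    · exact hr.tail heF
    · exact hr.tail (by rwa [Sym2.eq_swap])
    · exact hr

lemma comp_reach {F : Finset (Sym2 V)} {v w : V} (h : Reach F v w) : Reach (comp F v) v w := by
  induction h with
  | refl => exact Reach.refl _ _
  | tail h1 h2 ih =>
    refine Reach.tail ih ?_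
    exact mem_comp.mpr ⟨h2, _, by simp, h1⟩

lemma comp_conn (F : Finset (Sym2 V)) (v : V) : Conn (comp F v) := by
  intro u hu w hw
  obtain ⟨e, he, hue⟩ := mem_verts.mp hu
  obtain ⟨e', he', hwe⟩ := mem_verts.mp hw
  have h1 := comp_reach (comp_all_reach he u hue)
  have h2 := comp_reach (comp_all_reach he' w hwe)
  exact h1.symm.trans h2

lemma mem_verts_comp {F : Finset (Sym2 V)} {v : V} (h : v ∈ verts F) : v ∈ verts (comp F v) := by
  obtain ⟨e, he, hv⟩ := mem_verts.mp h
  exact mem_verts.mpr ⟨e, mem_comp.mpr ⟨he, v, hv, Reach.refl _ _⟩, hv⟩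

lemma comp_disjoint (F : Finset (Sym2 V)) (v : V) :
    Disjoint (verts (comp F v)) (verts (F \ comp F v)) := by
  rw [Finset.disjoint_left]
  intro u hu hu'
  obtain ⟨e, he, hue⟩ := mem_verts.mp hu
  obtain ⟨e', he', hue'⟩ := mem_verts.mp hu'
  obtain ⟨h1, h2⟩ := mem_sdiff.mp he'
  exact h2 (mem_comp.mpr ⟨h1, u, hue', comp_all_reach he u hue⟩)

/-- Reachability from inside a connected piece stays inside the piece. -/
lemma reach_union_stays {γ G : Finset (Sym2 V)} (hd : Disjoint (verts γ) (verts G)) {v w : V}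
    (hv : v ∈ verts γ) (h : Reach (γ ∪ G) v w) : w ∈ verts γ := by
  induction h with
  | refl => exact hv
  | @tail u z _ h2 ih =>
    have hmem : s(u, z) ∈ γ ∪ G := h2
    rcases mem_union.mp hmem with h | h
    · exact mem_verts.mpr ⟨_, h, by simp⟩
    · exact absurd (mem_verts.mpr ⟨_, h, by simp⟩) (Finset.disjoint_left.mp hd ih)

lemma comp_union {γ G : Finset (Sym2 V)} (hγ : Conn γ) (hd : Disjoint (verts γ) (verts G)) {v : V}
    (hv : v ∈ verts γ) : comp (γ ∪ G) v = γ := by
  ext e
  rw [mem_comp]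
  constructor
  · rintro ⟨he, w, hw, hr⟩
    have hwγ := reach_union_stays hd hv hr
    rcases mem_union.mp he with h | h
    · exact h
    · exact absurd (mem_verts.mpr ⟨e, h, hw⟩) (Finset.disjoint_left.mp hd hwγ)
  · intro he
    obtain ⟨w, hw⟩ : ∃ w, w ∈ e := by
      induction e using Sym2.ind with
      | _ a b => exact ⟨a, by simp⟩
    refine ⟨mem_union_left _ he, w, hw, ?_⟩
    exact (hγ v hv w (mem_verts.mpr ⟨e, he, hw⟩)).mono subset_union_left

/-- Edges of `E` with all endpoints in `S`. -/
def sub (E : Finset (Sym2 V)) (S : Finset V) : Finset (Sym2 V) := E.filter fun e => ∀ w ∈ e, w ∈ S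

lemma mem_sub {E : Finset (Sym2 V)} {S : Finset V} {e : Sym2 V} :
    e ∈ sub E S ↔ e ∈ E ∧ ∀ w ∈ e, w ∈ S := by
  simp [sub]

lemma verts_subset_of_sub {E F : Finset (Sym2 V)} {S : Finset V} (h : F ⊆ sub E S) :
    verts F ⊆ S := by
  intro w hw
  obtain ⟨e, he, hwe⟩ := mem_verts.mp hw
  exact (mem_sub.mp (h he)).2 w hwe

lemma subset_sub_iff {E F : Finset (Sym2 V)} {S : Finset V} :
    F ⊆ sub E S ↔ F ⊆ E ∧ verts F ⊆ S := by
  constructor
  · intro h
    exact ⟨fun e he => (mem_sub.mp (h he)).1, verts_subset_of_sub h⟩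
  · rintro ⟨h1, h2⟩ e he
    exact mem_sub.mpr ⟨h1 he, fun w hw => h2 (mem_verts.mpr ⟨e, he, hw⟩)⟩

/-- Partition function of a family of weights on `S`. -/
noncomputable def Zp (E : Finset (Sym2 V)) (t : Finset (Sym2 V) → ℝ) (S : Finset V) : ℝ :=
  ∑ F ∈ (sub E S).powerset, t F

/-- Connected edge sets in `S` touching `v`. -/
noncomputable def polyAt (E : Finset (Sym2 V)) (S : Finset V) (v : V) :
    Finset (Finset (Sym2 V)) := by
  classical
  exact (sub E S).powerset.filter fun γ => v ∈ verts γ ∧ Conn γ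

lemma mem_polyAt {E : Finset (Sym2 V)} {S : Finset V} {v : V} {γ : Finset (Sym2 V)} :
    γ ∈ polyAt E S v ↔ γ ⊆ sub E S ∧ v ∈ verts γ ∧ Conn γ := by
  classical
  simp [polyAt]

/-- The partition function recursion. -/
theorem Zp_decomp (E : Finset (Sym2 V)) (t : Finset (Sym2 V) → ℝ)
    (ht : ∀ F₁ F₂, F₁ ⊆ E → F₂ ⊆ E → Disjoint (verts F₁) (verts F₂) → t (F₁ ∪ F₂) = t F₁ * t F₂)
    (S : Finset V) (v : V) :
    Zp E t S = Zp E t (S.erase v) + ∑ γ ∈ polyAt E S v, t γ * Zp E t (S \ verts γ) := by
  classical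
  unfold Zp
  rw [← Finset.sum_filter_add_sum_filter_not (sub E S).powerset (fun F => v ∉ verts F)]
  congr 1
  · apply Finset.sum_congr _ (fun _ _ => rfl)
    ext F
    simp only [mem_filter, mem_powerset, subset_sub_iff, subset_erase]
    constructor
    · rintro ⟨⟨h1, h2⟩, h3⟩
      exact ⟨h1, h2, h3⟩
    · rintro ⟨h1, h2, h3⟩
      exact ⟨⟨h1, h2⟩, h3⟩
  · simp_rw [Finset.mul_sum]
    rw [Finset.sum_sigma']
    refine Finset.sum_bij' (fun F _ => ⟨comp F v, F \ comp F v⟩) (fun x _ => x.1 ∪ x.2) ?_ ?_ ?_ ?_ ?_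
    · intro F hF
      simp only [mem_filter, mem_powerset, not_not] at hF
      obtain ⟨hF1, hF2⟩ := hF
      simp only [mem_sigma, mem_polyAt, mem_powerset]
      refine ⟨⟨(comp_subset F v).trans hF1, mem_verts_comp hF2, comp_conn F v⟩, ?_⟩
      rw [subset_sub_iff]
      refine ⟨sdiff_subset.trans (hF1.trans (filter_subset _ _)), ?_⟩
      intro w hw
      refine mem_sdiff.mpr ⟨?_, ?_⟩
      · exact verts_subset_of_sub hF1 (by
          obtain ⟨e, he, hwe⟩ := mem_verts.mp hw
          exact mem_verts.mpr ⟨e, (mem_sdiff.mp he).1, hwe⟩)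
      · intro hc
        exact Finset.disjoint_left.mp (comp_disjoint F v) hc hw
    · rintro ⟨γ, G⟩ hx
      simp only [mem_sigma, mem_polyAt, mem_powerset, subset_sub_iff] at hx
      obtain ⟨⟨hγ', hv, hc⟩, hG, hGv⟩ := hx
      simp only [mem_filter, mem_powerset, not_not]
      refine ⟨?_, ?_⟩
      · rw [subset_sub_iff]
        refine ⟨union_subset hγ'.1 hG, ?_⟩
        intro w hw
        obtain ⟨e, he, hwe⟩ := mem_verts.mp hw
        rcases mem_union.mp he with h | h
        · exact hγ'.2 (mem_verts.mpr ⟨e, h, hwe⟩)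
        · exact (mem_sdiff.mp (hGv (mem_verts.mpr ⟨e, h, hwe⟩))).1
      · obtain ⟨e, he, hwe⟩ := mem_verts.mp hv
        exact mem_verts.mpr ⟨e, mem_union_left _ he, hwe⟩
    · intro F hF
      exact union_sdiff_of_subset (comp_subset F v)
    · rintro ⟨γ, G⟩ hx
      simp only [mem_sigma, mem_polyAt, mem_powerset, subset_sub_iff] at hx
      obtain ⟨⟨hγ, hv, hc⟩, hG, hGv⟩ := hx
      have hd : Disjoint (verts γ) (verts G) := by
        rw [Finset.disjoint_left]
        intro w hw hw'
        exact (mem_sdiff.mp (hGv hw')).2 hw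
      have hdG : Disjoint γ G := by
        rw [Finset.disjoint_left]
        intro e he he'
        obtain ⟨w, hw⟩ : ∃ w, w ∈ e := by
          induction e using Sym2.ind with
          | _ a b => exact ⟨a, by simp⟩
        exact Finset.disjoint_left.mp hd (mem_verts.mpr ⟨e, he, hw⟩) (mem_verts.mpr ⟨e, he', hw⟩)
      simp only [comp_union hc hd hv]
      congr 1
      exact union_sdiff_cancel_left hdG
    · intro F hF
      simp only [mem_filter, mem_powerset, not_not] at hF
      obtain ⟨hF1, hF2⟩ := hF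
      have hFE : F ⊆ E := hF1.trans (filter_subset _ _)
      have := ht (comp F v) (F \ comp F v) ((comp_subset F v).trans hFE)
        (sdiff_subset.trans hFE) (comp_disjoint F v)
      rw [union_sdiff_of_subset (comp_subset F v)] at this
      exact this

end Vale.Agent.Lib.P050
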