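import Vale.Agent.Lib.P050.CycleCombi

/-!
# The combinatorial core: polymer expansion and charging

An abstract weight function `t` on edge sets with the multiplicativity and the estimates provided
by the analysis satisfies `∑ F ⊆ E, t F ≥ 1` when `ε ≤ 1 / (100 Δ)`.
-/

set_option linter.unusedSectionVars false

namespace Vale.Agent.Lib.P050

open Finset

variable {V : Type*} [Fintype V] [DecidableEq V]

/-- Hypotheses of the combinatorial core. -/
structure CoreHyp (E : Finset (Sym2 V)) (t : Finset (Sym2 V) → ℝ) (ε A : ℝ) (Δ : ℕ) : Prop where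
  noLoops : NoLoops E
  col : ∃ c : V → Bool, ∀ x y, s(x, y) ∈ E → c x ≠ c y
  deg_le : ∀ v, degE E v ≤ Δ
  Δ_pos : 1 ≤ Δ
  ε_pos : 0 < ε
  ε_le : ε ≤ 1 / (100 * (Δ : ℝ))
  A_nonneg : 0 ≤ A
  t_empty : t ∅ = 1
  t_mul : ∀ F₁ F₂, F₁ ⊆ E → F₂ ⊆ E → Disjoint (verts F₁) (verts F₂) → t (F₁ ∪ F₂) = t F₁ * t F₂
  t_bound : ∀ F, F ⊆ E → |t F| ≤ ε ^ F.card
  t_single : ∀ e ∈ E, t {e} = 0
  t_P2 : ∀ a b v, a ≠ v → b ≠ v → a ≠ b → s(a, v) ∈ E → s(b, v) ∈ E → t {s(a, v), s(b, v)} = A
  t_two : ∀ F, F ⊆ E → ∀ a b v w, a ≠ v → b ≠ w → a ≠ b → a ≠ w → b ≠ v → s(a, v) ∈ F →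
    s(b, w) ∈ F → (∀ e ∈ F, a ∈ e → e = s(a, v)) → (∀ e ∈ F, b ∈ e → e = s(b, w)) →
    |t F| ≤ ε ^ (F.card - 2) * A
  t_cyc : ∀ a l, IsCyc E a l → 0 ≤ t (cycE a l)
  t_ind : ∀ F, F ⊆ E → ∀ a l, IsCyc F a l → (∀ e ∈ F, (∀ w ∈ e, w ∈ a :: l) → e ∈ cycE a l) →
    |t F| ≤ ε ^ (F.card - (l.length + 1)) * t (cycE a l)
  t_one : ∀ F, F ⊆ E → ∀ a v, a ≠ v → s(a, v) ∈ F → (∀ e ∈ F, a ∈ e → e = s(a, v)) →
    ∀ b l, IsCyc (F.erase s(a, v)) b l →
    (∀ e ∈ F.erase s(a, v), (∀ w ∈ e, w ∈ b :: l) → e ∈ cycE b l) →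
    ∀ β : ℝ, 0 < β → |t F| ≤ (β * A + β⁻¹ * (ε ^ (2 * (F.card - 1) - (l.length + 1)) * t (cycE b l))) / 2

section constants

/-- The constants of the proof. -/
noncomputable def dlt : ℝ := 1 / 300
noncomputable def kap : ℝ := 300 / 299
noncomputable def lam : ℝ := 300 / 301
noncomputable def qq : ℝ := 1 / 30
noncomputable def y0 (Δ : ℕ) : ℝ := 1 / (3 * (Δ : ℝ))

lemma dlt_pos : 0 < dlt := by norm_num [dlt]
lemma kap_pos : 0 < kap := by norm_num [kap]
lemma kap_ge : 1 ≤ kap := by norm_num [kap]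
lemma lam_pos : 0 < lam := by norm_num [lam]
lemma qq_pos : 0 < qq := by norm_num [qq]
lemma qq_le : qq ≤ 1 := by norm_num [qq]
lemma kap_mul : kap * (1 - dlt) = 1 := by norm_num [kap, dlt]
lemma lam_mul : lam * (1 + dlt) = 1 := by norm_num [lam, dlt]

lemma y0_pos {Δ : ℕ} (h : 1 ≤ Δ) : 0 < y0 Δ := by
  have : (0 : ℝ) < Δ := by exact_mod_cast h
  unfold y0
  positivity

lemma eps_scale {ε : ℝ} {Δ : ℕ} (h : 1 ≤ Δ) (hε : ε ≤ 1 / (100 * (Δ : ℝ))) :
    kap ^ 2 * ε ≤ qq * y0 Δ := by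
  have hΔ : (0 : ℝ) < Δ := by exact_mod_cast h
  have h1 : kap ^ 2 * ε ≤ kap ^ 2 * (1 / (100 * (Δ : ℝ))) :=
    mul_le_mul_of_nonneg_left hε (by positivity)
  refine h1.trans ?_
  unfold qq y0 kap
  rw [div_pow, div_mul_div_comm, div_mul_div_comm, div_le_div_iff₀ (by positivity) (by positivity)]
  nlinarith

end constants

variable {E : Finset (Sym2 V)} {t : Finset (Sym2 V) → ℝ} {ε A : ℝ} {Δ : ℕ}

lemma card_verts_le (F : Finset (Sym2 V)) : (verts F).card ≤ 2 * F.card := by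
  unfold verts
  calc _ ≤ ∑ e ∈ F, e.toFinset.card := card_biUnion_le
    _ ≤ ∑ _e ∈ F, 2 := by
        refine sum_le_sum fun e _ => ?_
        induction e using Sym2.ind with
        | _ a b =>
          have : (s(a, b) : Sym2 V).toFinset = {a, b} := by
            ext z
            simp [Sym2.mem_toFinset]
          rw [this]
          exact card_le_two
    _ = 2 * F.card := by simp [mul_comm]

lemma exists_mem_sym2 (e : Sym2 V) : ∃ w, w ∈ e := by
  induction e using Sym2.ind with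
  | _ a b => exact ⟨a, by simp⟩

lemma sub_empty_eq (E : Finset (Sym2 V)) : sub E ∅ = ∅ := by
  ext e
  obtain ⟨w, hw⟩ := exists_mem_sym2 e
  simp only [mem_sub, notMem_empty, iff_false, not_and]
  intro _ h
  exact absurd (h w hw) (by simp)

lemma sub_univ_eq (E : Finset (Sym2 V)) : sub E univ = E := by
  ext e
  simp [mem_sub]

lemma Zp_empty (H : CoreHyp E t ε A Δ) : Zp E t ∅ = 1 := by
  unfold Zp
  rw [sub_empty_eq]
  simp [H.t_empty]

/-- The weight of a polymer is small. -/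
lemma poly_weight (H : CoreHyp E t ε A Δ) {γ : Finset (Sym2 V)} (hγ : γ ⊆ E) (hne : γ.Nonempty) :
    |t γ| * kap ^ (2 * γ.card) ≤ qq ^ 2 * y0 Δ ^ γ.card := by
  have hq := qq_pos
  have hy := y0_pos H.Δ_pos
  have hκ := kap_pos
  by_cases h1 : γ.card = 1
  · obtain ⟨e, rfl⟩ := card_eq_one.mp h1
    rw [H.t_single e (hγ (mem_singleton_self e))]
    simp only [abs_zero, zero_mul]
    positivity
  · have h2 : 2 ≤ γ.card := by
      have := card_pos.mpr hne
      omega
    have h3 : |t γ| * kap ^ (2 * γ.card) ≤ (kap ^ 2 * ε) ^ γ.card := by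
      rw [mul_pow, ← pow_mul, mul_comm]
      exact mul_le_mul_of_nonneg_left (H.t_bound γ hγ) (by positivity)
    refine h3.trans ?_
    have h4 : (kap ^ 2 * ε) ^ γ.card ≤ (qq * y0 Δ) ^ γ.card :=
      pow_le_pow_left₀ (mul_nonneg (by positivity) H.ε_pos.le) (eps_scale H.Δ_pos H.ε_le) _
    refine h4.trans ?_
    rw [mul_pow]
    apply mul_le_mul_of_nonneg_right _ (by positivity)
    exact pow_le_pow_of_le_one hq.le qq_le h2

/-- The total weight of polymers through a vertex. -/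
lemma poly_sum_le (H : CoreHyp E t ε A Δ) (S : Finset V) (v : V) :
    ∑ γ ∈ polyAt E S v, |t γ| * kap ^ (2 * γ.card) ≤ dlt := by
  have hΔ := H.Δ_pos
  have hsub : ∀ γ ∈ polyAt E S v, γ ⊆ E ∧ v ∈ verts γ ∧ Conn γ := by
    intro γ hγ
    obtain ⟨h1, h2, h3⟩ := mem_polyAt.mp hγ
    exact ⟨h1.trans (filter_subset _ _), h2, h3⟩
  calc ∑ γ ∈ polyAt E S v, |t γ| * kap ^ (2 * γ.card)
      ≤ ∑ γ ∈ polyAt E S v, qq ^ 2 * y0 Δ ^ γ.card := by
        refine sum_le_sum fun γ hγ => ?_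
        obtain ⟨h1, h2, -⟩ := hsub γ hγ
        refine poly_weight H h1 ?_
        obtain ⟨e, he, -⟩ := mem_verts.mp h2
        exact ⟨e, he⟩
    _ = qq ^ 2 * ∑ γ ∈ polyAt E S v, y0 Δ ^ γ.card := by rw [mul_sum]
    _ ≤ qq ^ 2 * 3 := by
        apply mul_le_mul_of_nonneg_left _ (by positivity)
        exact conn_sum_vertex E v hΔ H.deg_le _ hsub
    _ = dlt := by norm_num [qq, dlt]

/-- The statement of the ratio bounds at a vertex set. -/
def Good (E : Finset (Sym2 V)) (t : Finset (Sym2 V) → ℝ) (S : Finset V) : Prop :=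
  0 < Zp E t S ∧ ∀ v, (1 - dlt) * Zp E t (S.erase v) ≤ Zp E t S ∧
    Zp E t S ≤ (1 + dlt) * Zp E t (S.erase v)

/-- Chains of removals. -/
lemma chain_bound {T : Finset V} (hT : ∀ T', T' ⊆ T → Good E t T') (R : Finset V) :
    Zp E t (T \ R) ≤ kap ^ R.card * Zp E t T ∧ Zp E t T ≤ (1 + dlt) ^ R.card * Zp E t (T \ R) := by
  induction R using Finset.induction_on with
  | empty => simp
  | insert r R hr ih =>
    have hg := hT (T \ R) sdiff_subset
    have e : T \ insert r R = (T \ R).erase r := by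
      ext x
      simp only [mem_sdiff, mem_insert, not_or, mem_erase]
      tauto
    obtain ⟨h1, h2⟩ := hg.2 r
    rw [e, card_insert_of_notMem hr]
    constructor
    · have h3 : Zp E t ((T \ R).erase r) ≤ kap * Zp E t (T \ R) := by
        have := mul_le_mul_of_nonneg_left h1 kap_pos.le
        rwa [← mul_assoc, kap_mul, one_mul] at this
      calc _ ≤ kap * Zp E t (T \ R) := h3
        _ ≤ kap * (kap ^ R.card * Zp E t T) := mul_le_mul_of_nonneg_left ih.1 kap_pos.le
        _ = _ := by ring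
    · have hpos : (0:ℝ) ≤ (1 + dlt) ^ R.card := pow_nonneg (by have := dlt_pos; linarith) _
      calc _ ≤ (1 + dlt) ^ R.card * Zp E t (T \ R) := ih.2
        _ ≤ (1 + dlt) ^ R.card * ((1 + dlt) * Zp E t ((T \ R).erase r)) :=
            mul_le_mul_of_nonneg_left h2 hpos
        _ = _ := by ring

/-- The correction ratio of a polymer at `v`. -/
noncomputable def rho (E : Finset (Sym2 V)) (t : Finset (Sym2 V) → ℝ) (S : Finset V) (v : V)
    (γ : Finset (Sym2 V)) : ℝ := Zp E t (S \ verts γ) / Zp E t (S.erase v)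

/-- The correction term. -/
noncomputable def xTerm (E : Finset (Sym2 V)) (t : Finset (Sym2 V) → ℝ) (S : Finset V) (v : V) : ℝ :=
  ∑ γ ∈ polyAt E S v, t γ * rho E t S v γ

lemma Zp_eq_mul (H : CoreHyp E t ε A Δ) (S : Finset V) (v : V) (hpos : 0 < Zp E t (S.erase v)) :
    Zp E t S = Zp E t (S.erase v) * (1 + xTerm E t S v) := by
  rw [Zp_decomp E t H.t_mul S v]
  unfold xTerm rho
  rw [mul_add, mul_one, mul_sum]
  congr 1
  refine sum_congr rfl fun γ _ => ?_
  field_simp

/-- Bounds for the correction ratio. -/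
lemma rho_bounds (S : Finset V) (v : V) (hall : ∀ T', T' ⊆ S.erase v → Good E t T')
    {γ : Finset (Sym2 V)} (hv : v ∈ verts γ) :
    rho E t S v γ ≤ kap ^ (2 * γ.card) ∧ lam ^ (2 * γ.card) ≤ rho E t S v γ := by
  have hset : S \ verts γ = (S.erase v) \ verts γ := by
    ext x
    simp only [mem_sdiff, mem_erase]
    constructor
    · rintro ⟨h1, h2⟩
      refine ⟨⟨?_, h1⟩, h2⟩
      rintro rfl
      exact h2 hv
    · rintro ⟨⟨_, h1⟩, h2⟩
      exact ⟨h1, h2⟩
  have hpos : 0 < Zp E t (S.erase v) := (hall _ (Subset.refl _)).1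
  obtain ⟨h1, h2⟩ := chain_bound hall (verts γ)
  have hc := card_verts_le γ
  unfold rho
  rw [hset]
  constructor
  · rw [div_le_iff₀ hpos]
    refine h1.trans ?_
    apply mul_le_mul_of_nonneg_right _ hpos.le
    exact pow_le_pow_right₀ kap_ge hc
  · rw [le_div_iff₀ hpos]
    have hd := dlt_pos
    have h3 : lam ^ (2 * γ.card) * (1 + dlt) ^ (verts γ).card ≤ 1 := by
      have h4 : lam ^ (2 * γ.card) ≤ lam ^ (verts γ).card :=
        pow_le_pow_of_le_one lam_pos.le (by norm_num [lam]) hc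
      calc _ ≤ lam ^ (verts γ).card * (1 + dlt) ^ (verts γ).card :=
            mul_le_mul_of_nonneg_right h4 (pow_nonneg (by linarith) _)
        _ = (lam * (1 + dlt)) ^ (verts γ).card := by rw [mul_pow]
        _ = 1 := by rw [lam_mul, one_pow]
    have h5 : 0 ≤ Zp E t ((S.erase v) \ verts γ) := (hall _ sdiff_subset).1.le
    calc lam ^ (2 * γ.card) * Zp E t (S.erase v)
        ≤ lam ^ (2 * γ.card) * ((1 + dlt) ^ (verts γ).card * Zp E t ((S.erase v) \ verts γ)) :=
          mul_le_mul_of_nonneg_left h2 (pow_nonneg lam_pos.le _)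
      _ = (lam ^ (2 * γ.card) * (1 + dlt) ^ (verts γ).card) * Zp E t ((S.erase v) \ verts γ) := by
          ring
      _ ≤ 1 * Zp E t ((S.erase v) \ verts γ) := mul_le_mul_of_nonneg_right h3 h5
      _ = _ := one_mul _

lemma rho_nonneg (S : Finset V) (v : V) (hall : ∀ T', T' ⊆ S.erase v → Good E t T')
    {γ : Finset (Sym2 V)} (hv : v ∈ verts γ) : 0 ≤ rho E t S v γ :=
  (pow_nonneg lam_pos.le _).trans (rho_bounds S v hall hv).2

lemma abs_xTerm_le (H : CoreHyp E t ε A Δ) (S : Finset V) (v : V)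
    (hall : ∀ T', T' ⊆ S.erase v → Good E t T') : ∑ γ ∈ polyAt E S v, |t γ| * rho E t S v γ ≤ dlt := by
  refine le_trans ?_ (poly_sum_le H S v)
  refine sum_le_sum fun γ hγ => ?_
  obtain ⟨-, h2, -⟩ := mem_polyAt.mp hγ
  exact mul_le_mul_of_nonneg_left (rho_bounds S v hall h2).1 (abs_nonneg _)

lemma abs_xTerm (S : Finset V) (v : V) (hall : ∀ T', T' ⊆ S.erase v → Good E t T') :
    |xTerm E t S v| ≤ ∑ γ ∈ polyAt E S v, |t γ| * rho E t S v γ := by
  unfold xTerm
  refine (abs_sum_le_sum_abs _ _).trans (sum_le_sum fun γ hγ => ?_)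
  obtain ⟨-, h2, -⟩ := mem_polyAt.mp hγ
  rw [abs_mul, abs_of_nonneg (rho_nonneg S v hall h2)]

/-- All vertex sets satisfy the ratio bounds. -/
theorem good_all (H : CoreHyp E t ε A Δ) : ∀ n (S : Finset V), S.card = n → Good E t S := by
  intro n
  induction n using Nat.strong_induction_on with
  | _ n ih =>
    intro S hS
    by_cases hSe : S = ∅
    · subst hSe
      have h1 : Zp E t ∅ = 1 := Zp_empty H
      refine ⟨by rw [h1]; norm_num, fun v => ?_⟩
      simp only [erase_empty, h1, mul_one]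
      have := dlt_pos
      constructor <;> linarith
    · -- sets below an erased vertex are good
      have hgood : ∀ v ∈ S, ∀ T', T' ⊆ S.erase v → Good E t T' := by
        intro v hv T' hT'
        have hlt : T'.card < n := by
          have := card_le_card hT'
          rw [card_erase_of_mem hv] at this
          have hp := card_pos.mpr ⟨v, hv⟩
          omega
        exact ih _ hlt T' rfl
      have hmain : ∀ v ∈ S, Zp E t S = Zp E t (S.erase v) * (1 + xTerm E t S v) ∧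
          |xTerm E t S v| ≤ dlt ∧ 0 < Zp E t (S.erase v) := by
        intro v hv
        have hp : 0 < Zp E t (S.erase v) := (hgood v hv _ (Subset.refl _)).1
        exact ⟨Zp_eq_mul H S v hp, (abs_xTerm S v (hgood v hv)).trans
          (abs_xTerm_le H S v (hgood v hv)), hp⟩
      obtain ⟨v₀, hv₀⟩ := nonempty_iff_ne_empty.mpr hSe
      have hd : dlt ≤ 1 / 2 := by norm_num [dlt]
      have hSpos : 0 < Zp E t S := by
        obtain ⟨h1, h2, h3⟩ := hmain v₀ hv₀
        rw [h1]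
        have := abs_le.mp h2
        exact mul_pos h3 (by linarith)
      refine ⟨hSpos, fun v => ?_⟩
      by_cases hv : v ∈ S
      · obtain ⟨h1, h2, h3⟩ := hmain v hv
        have := abs_le.mp h2
        rw [h1]
        constructor
        · rw [mul_comm]
          exact mul_le_mul_of_nonneg_left (by linarith) h3.le
        · rw [mul_comm]
          exact mul_le_mul_of_nonneg_right (by linarith) h3.le
      · rw [erase_eq_of_notMem hv]
        have := dlt_pos
        constructor <;> nlinarith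

end Vale.Agent.Lib.P050
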