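import Vale.Agent.Lib.P050.Core

/-!
# The combinatorial core, second part: the logarithmic lower bound and the charging argument
-/

set_option linter.unusedSectionVars false

namespace Vale.Agent.Lib.P050

open Finset

variable {V : Type*} [Fintype V] [DecidableEq V]
variable {E : Finset (Sym2 V)} {t : Finset (Sym2 V) → ℝ} {ε A : ℝ} {Δ : ℕ}

/-- Cycle edge sets. -/
def IsCycSet (E γ : Finset (Sym2 V)) : Prop := ∃ a l, IsCyc E a l ∧ γ = cycE a l

/-- The positive atoms: two-edge sets and cycles. -/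
def IsAtom (E γ : Finset (Sym2 V)) : Prop := γ.card = 2 ∨ IsCycSet E γ

open Classical in
/-- The lower bound assigned to a polymer. -/
noncomputable def psi (E : Finset (Sym2 V)) (t : Finset (Sym2 V) → ℝ) (γ : Finset (Sym2 V)) : ℝ :=
  if IsAtom E γ then (1 - 2 * dlt) * lam ^ (2 * γ.card) * t γ
  else -((1 + 2 * dlt) * kap ^ (2 * γ.card) * |t γ|)

/-- Connected nonempty edge sets inside `S`. -/
noncomputable def Polys (E : Finset (Sym2 V)) (S : Finset V) : Finset (Finset (Sym2 V)) := by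
  classical
  exact (sub E S).powerset.filter fun γ => γ.Nonempty ∧ Conn γ

lemma mem_Polys {S : Finset V} {γ : Finset (Sym2 V)} :
    γ ∈ Polys E S ↔ γ ⊆ sub E S ∧ γ.Nonempty ∧ Conn γ := by
  classical
  simp [Polys]

lemma adjacent_edge {γ : Finset (Sym2 V)} (hc : Conn γ) {x y : V} (he : s(x, y) ∈ γ)
    (h2 : 2 ≤ γ.card) : ∃ u ∈ ({x, y} : Finset V), ∃ z, s(u, z) ∈ γ ∧ s(u, z) ≠ s(x, y) := by
  obtain ⟨e', he', hne⟩ := exists_mem_ne (by omega : 1 < γ.card) (s(x, y))
  obtain ⟨z, hz⟩ := exists_mem_sym2 e'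
  have hr := hc x (mem_verts.mpr ⟨_, he, by simp⟩) z (mem_verts.mpr ⟨_, he', hz⟩)
  rcases reach_exit (C := {s(x, y)}) (L := [x, y]) (by
      intro e he x' hx'
      rw [mem_singleton] at he
      subst he
      simpa using hx') (by simp) hr with h | h
  · have hz' : z ∈ ({x, y} : Finset V) := by simpa using h
    obtain ⟨w, rfl⟩ := Sym2.mem_iff_exists.mp hz
    exact ⟨z, hz', w, he', hne⟩
  · obtain ⟨u, z', hu, h1, h2⟩ := h
    refine ⟨u, by simpa using hu, z', h1, by simpa using h2⟩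

lemma two_edges_shape (hl : NoLoops E) {γ : Finset (Sym2 V)} (hγ : γ ⊆ E) (hc : Conn γ)
    (h2 : γ.card = 2) : ∃ a b v, a ≠ v ∧ b ≠ v ∧ a ≠ b ∧ γ = {s(a, v), s(b, v)} := by
  obtain ⟨e, e', hne, rfl⟩ := card_eq_two.mp h2
  induction e using Sym2.ind with
  | _ x y =>
    obtain ⟨u, hu, z, hz, hz'⟩ := adjacent_edge hc (x := x) (y := y) (by simp) (by omega)
    have hze : s(u, z) = e' := by
      simp only [mem_insert, mem_singleton] at hz
      rcases hz with h | h
      · exact absurd h hz'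
      · exact h
    have hux : ∃ w, s(x, y) = s(w, u) := by
      simp only [mem_insert, mem_singleton] at hu
      rcases hu with rfl | rfl
      · exact ⟨y, Sym2.eq_swap⟩
      · exact ⟨x, rfl⟩
    obtain ⟨w, hw⟩ := hux
    refine ⟨w, z, u, ?_, ?_, ?_, ?_⟩
    · apply (hl.mono hγ).ne (x := w) (y := u)
      rw [← hw]; simp
    · have : s(u, z) ∈ E := hγ hz
      exact ((hl.ne this).symm)
    · rintro rfl
      apply hne
      rw [hw, ← hze, Sym2.eq_swap]
    · rw [hw, ← hze, Sym2.eq_swap (a := z)]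

lemma t_atom_nonneg (H : CoreHyp E t ε A Δ) {γ : Finset (Sym2 V)} (hγ : γ ⊆ E) (hc : Conn γ)
    (ha : IsAtom E γ) : 0 ≤ t γ := by
  rcases ha with h2 | ⟨a, l, hC, rfl⟩
  · obtain ⟨a, b, v, h1, h2', h3, rfl⟩ := two_edges_shape H.noLoops hγ hc h2
    rw [H.t_P2 a b v h1 h2' h3 (hγ (by simp)) (hγ (by simp))]
    exact H.A_nonneg
  · exact H.t_cyc a l hC

lemma exp_sub_le {x : ℝ} (hx : |x| ≤ 1 / 2) : Real.exp (x - 2 * x ^ 2) ≤ 1 + x := by
  obtain ⟨h1, h2⟩ := abs_le.mp hx
  have hpos : 0 < 1 + x := by linarith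
  rw [← Real.le_log_iff_exp_le hpos]
  have h3 := Real.one_sub_inv_le_log_of_pos hpos
  refine le_trans ?_ h3
  have h4 : 1 - (1 + x)⁻¹ = x / (1 + x) := by field_simp; ring
  rw [h4, le_div_iff₀ hpos]
  nlinarith [sq_nonneg x]

lemma Polys_empty : Polys E ∅ = ∅ := by
  ext γ
  simp only [mem_Polys, sub_empty_eq, subset_empty, notMem_empty, iff_false, not_and]
  rintro rfl h
  simp at h

/-- Pointwise comparison. -/
lemma psi_le (H : CoreHyp E t ε A Δ) {S : Finset V} {v : V} {γ : Finset (Sym2 V)}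
    (hall : ∀ T', T' ⊆ S.erase v → Good E t T') (hγ : γ ∈ polyAt E S v) :
    psi E t γ ≤ t γ * rho E t S v γ - 2 * dlt * (|t γ| * rho E t S v γ) := by
  classical
  obtain ⟨h1, h2, h3⟩ := mem_polyAt.mp hγ
  have hρ := rho_bounds S v hall h2
  have hρ0 := rho_nonneg S v hall h2
  have hd := dlt_pos
  unfold psi
  split_ifs with hat
  · have hnn := t_atom_nonneg H (h1.trans (filter_subset _ _)) h3 hat
    rw [abs_of_nonneg hnn]
    have h4 : t γ * lam ^ (2 * γ.card) ≤ t γ * rho E t S v γ :=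
      mul_le_mul_of_nonneg_left hρ.2 hnn
    have h5 : (0:ℝ) ≤ 1 - 2 * dlt := by norm_num [dlt]
    have := mul_le_mul_of_nonneg_left h4 h5
    nlinarith
  · have h4 : |t γ| * rho E t S v γ ≤ |t γ| * kap ^ (2 * γ.card) :=
      mul_le_mul_of_nonneg_left hρ.1 (abs_nonneg _)
    have h5 : -(|t γ| * rho E t S v γ) ≤ t γ * rho E t S v γ := by
      have := neg_abs_le (t γ)
      nlinarith
    have h6 : (0:ℝ) ≤ 1 + 2 * dlt := by linarith
    have h7 := mul_le_mul_of_nonneg_left h4 h6
    nlinarith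

/-- The logarithmic lower bound. -/
theorem log_bound (H : CoreHyp E t ε A Δ) (S : Finset V) :
    Real.exp (∑ γ ∈ Polys E S, psi E t γ) ≤ Zp E t S := by
  classical
  induction S using Finset.induction_on with
  | empty =>
    rw [Polys_empty, Zp_empty H]
    simp
  | insert v S hv ih =>
    set S₁ := insert v S with hS₁
    have her : S₁.erase v = S := erase_insert hv
    have hall : ∀ T', T' ⊆ S₁.erase v → Good E t T' := fun T' _ => good_all H _ T' rfl
    have hpos : 0 < Zp E t S := (good_all H _ S rfl).1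
    have hZ := Zp_eq_mul H S₁ v (by rw [her]; exact hpos)
    rw [her] at hZ
    -- splitting the polymers
    have hsplit : Polys E S₁ = Polys E S ∪ polyAt E S₁ v := by
      ext γ
      simp only [mem_union, mem_Polys, mem_polyAt]
      constructor
      · rintro ⟨h1, h2, h3⟩
        by_cases hvγ : v ∈ verts γ
        · exact Or.inr ⟨h1, hvγ, h3⟩
        · refine Or.inl ⟨?_, h2, h3⟩
          rw [subset_sub_iff] at h1 ⊢
          refine ⟨h1.1, fun w hw => ?_⟩
          have := h1.2 hw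
          rcases mem_insert.mp this with rfl | h
          · exact absurd hw hvγ
          · exact h
      · rintro (⟨h1, h2, h3⟩ | ⟨h1, h2, h3⟩)
        · refine ⟨?_, h2, h3⟩
          rw [subset_sub_iff] at h1 ⊢
          exact ⟨h1.1, h1.2.trans (subset_insert _ _)⟩
        · refine ⟨h1, ?_, h3⟩
          obtain ⟨e, he, -⟩ := mem_verts.mp h2
          exact ⟨e, he⟩
    have hdisj : Disjoint (Polys E S) (polyAt E S₁ v) := by
      rw [Finset.disjoint_left]
      intro γ h1 h2
      obtain ⟨h3, -, -⟩ := mem_Polys.mp h1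
      obtain ⟨-, h4, -⟩ := mem_polyAt.mp h2
      exact hv (verts_subset_of_sub h3 h4)
    rw [hsplit, sum_union hdisj, Real.exp_add, hZ]
    set x := xTerm E t S₁ v with hx
    set W := ∑ γ ∈ polyAt E S₁ v, |t γ| * rho E t S₁ v γ with hW
    have hWle : W ≤ dlt := abs_xTerm_le H S₁ v hall
    have hxW : |x| ≤ W := abs_xTerm S₁ v hall
    have hd := dlt_pos
    have hxd : |x| ≤ dlt := hxW.trans hWle
    have hsum : ∑ γ ∈ polyAt E S₁ v, psi E t γ ≤ x - 2 * dlt * W := by
      have : ∑ γ ∈ polyAt E S₁ v, psi E t γ ≤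
          ∑ γ ∈ polyAt E S₁ v, (t γ * rho E t S₁ v γ - 2 * dlt * (|t γ| * rho E t S₁ v γ)) :=
        sum_le_sum fun γ hγ => psi_le H hall hγ
      refine this.trans (le_of_eq ?_)
      rw [sum_sub_distrib, ← mul_sum]
      rfl
    have hsq : x ^ 2 ≤ dlt * W := by
      have h0 : x ^ 2 = |x| * |x| := by rw [← sq_abs, sq]
      rw [h0]
      exact mul_le_mul hxd hxW (abs_nonneg _) hd.le
    have hexp : Real.exp (∑ γ ∈ polyAt E S₁ v, psi E t γ) ≤ 1 + x := by
      refine le_trans (Real.exp_le_exp.mpr ?_) (exp_sub_le (hxd.trans (by norm_num [dlt])))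
      nlinarith
    exact mul_le_mul ih hexp (Real.exp_pos _).le hpos.le

end Vale.Agent.Lib.P050
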