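import Vale.Agent.Lib.P050.Core2

/-!
# The combinatorial core, third part: charging polymers to atoms
-/

set_option linter.unusedSectionVars false

namespace Vale.Agent.Lib.P050

open Finset

variable {V : Type*} [Fintype V] [DecidableEq V]
variable {E : Finset (Sym2 V)} {t : Finset (Sym2 V) → ℝ} {ε A : ℝ} {Δ : ℕ}

/-- Leaf edge of a vertex of degree one. -/
lemma leaf_edge {γ : Finset (Sym2 V)} {a : V} (hd : degE γ a = 1) :
    ∃ v, s(a, v) ∈ γ ∧ ∀ e ∈ γ, a ∈ e → e = s(a, v) := by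
  unfold degE at hd
  obtain ⟨e₀, he₀⟩ := card_eq_one.mp hd
  have h0 : e₀ ∈ γ.filter fun e => a ∈ e := by rw [he₀]; simp
  obtain ⟨h1, h2⟩ := mem_filter.mp h0
  obtain ⟨v, rfl⟩ := Sym2.mem_iff_exists.mp h2
  refine ⟨v, h1, fun e he hae => ?_⟩
  have : e ∈ γ.filter fun e => a ∈ e := mem_filter.mpr ⟨he, hae⟩
  rw [he₀] at this
  simpa using this

/-- A connected set with an edge isolated at both ends is that edge. -/
lemma isolated_edge {γ : Finset (Sym2 V)} (hc : Conn γ) {a b : V} (he : s(a, b) ∈ γ)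
    (ha : ∀ e ∈ γ, a ∈ e → e = s(a, b)) (hb : ∀ e ∈ γ, b ∈ e → e = s(a, b)) : γ.card ≤ 1 := by
  have hsub : γ ⊆ {s(a, b)} := by
    intro e he'
    rw [mem_singleton]
    obtain ⟨z, hz⟩ := exists_mem_sym2 e
    have hr := hc a (mem_verts.mpr ⟨_, he, by simp⟩) z (mem_verts.mpr ⟨_, he', hz⟩)
    rcases reach_exit (C := {s(a, b)}) (L := [a, b]) (by
        intro f hf x' hx'
        rw [mem_singleton] at hf
        subst hf
        simpa using hx') (by simp) hr with h | h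
    · simp only [List.mem_cons, List.not_mem_nil, or_false] at h
      rcases h with rfl | rfl
      · exact ha e he' hz
      · exact hb e he' hz
    · exfalso
      obtain ⟨u, z', hu, h1, h2⟩ := h
      simp only [List.mem_cons, List.not_mem_nil, or_false] at hu
      rcases hu with rfl | rfl
      · exact h2 (mem_singleton.mpr (ha _ h1 (by simp)))
      · exact h2 (mem_singleton.mpr (hb _ h1 (by simp)))
  simpa using card_le_card hsub

/-- The numerical weights. -/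
noncomputable def aw (Δ : ℕ) (f : ℕ) : ℝ := (1 + 2 * dlt) * kap ^ 4 * qq * y0 Δ ^ (f - 2)

noncomputable def bw (Δ : ℕ) (L f : ℕ) : ℝ :=
  (1 + 2 * dlt) * kap ^ (4 + 2 * L) * qq ^ (L / 2) * y0 Δ ^ (f - L)

lemma aw_nonneg (hΔ : 1 ≤ Δ) (f : ℕ) : 0 ≤ aw Δ f := by
  have h1 := y0_pos hΔ
  have h2 := kap_pos
  have h3 := qq_pos
  have h4 := dlt_pos
  unfold aw
  positivity

lemma bw_nonneg (hΔ : 1 ≤ Δ) (L f : ℕ) : 0 ≤ bw Δ L f := by
  have h1 := y0_pos hΔ
  have h2 := kap_pos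
  have h3 := qq_pos
  have h4 := dlt_pos
  unfold bw
  positivity

lemma kap_eps_pow (H : CoreHyp E t ε A Δ) (n : ℕ) :
    (kap ^ 2 * ε) ^ n ≤ qq ^ n * y0 Δ ^ n := by
  rw [← mul_pow]
  exact pow_le_pow_left₀ (mul_nonneg (by positivity) H.ε_pos.le) (eps_scale H.Δ_pos H.ε_le) _

/-- Type I arithmetic. -/
lemma arith_two (H : CoreHyp E t ε A Δ) {f : ℕ} (hf : 3 ≤ f) :
    (1 + 2 * dlt) * kap ^ (2 * f) * (ε ^ (f - 2) * A) ≤ aw Δ f * A := by
  have hA := H.A_nonneg
  have h1 := kap_eps_pow H (f - 2)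
  have hy := y0_pos H.Δ_pos
  have hq := qq_pos
  have h2 : qq ^ (f - 2) ≤ qq := by
    calc qq ^ (f - 2) ≤ qq ^ 1 := pow_le_pow_of_le_one hq.le qq_le (by omega)
      _ = qq := pow_one _
  have h3 : kap ^ (2 * f) * ε ^ (f - 2) = kap ^ 4 * (kap ^ 2 * ε) ^ (f - 2) := by
    rw [mul_pow, ← pow_mul, ← mul_assoc, ← pow_add]
    congr 2
    omega
  have h4 : kap ^ (2 * f) * ε ^ (f - 2) ≤ kap ^ 4 * (qq * y0 Δ ^ (f - 2)) := by
    rw [h3]
    apply mul_le_mul_of_nonneg_left _ (by have := kap_pos; positivity)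
    exact h1.trans (mul_le_mul_of_nonneg_right h2 (by positivity))
  unfold aw
  have h5 : (0:ℝ) ≤ 1 + 2 * dlt := by have := dlt_pos; linarith
  calc (1 + 2 * dlt) * kap ^ (2 * f) * (ε ^ (f - 2) * A)
      = (1 + 2 * dlt) * (kap ^ (2 * f) * ε ^ (f - 2)) * A := by ring
    _ ≤ (1 + 2 * dlt) * (kap ^ 4 * (qq * y0 Δ ^ (f - 2))) * A := by
        apply mul_le_mul_of_nonneg_right _ hA
        exact mul_le_mul_of_nonneg_left h4 h5
    _ = _ := by ring

/-- Type III arithmetic. -/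
lemma arith_ind (H : CoreHyp E t ε A Δ) {f m : ℕ} (hf : 2 * m + m ≤ f) {tc : ℝ} (htc : 0 ≤ tc) :
    (1 + 2 * dlt) * kap ^ (2 * f) * (ε ^ (f - 2 * m) * tc) ≤ bw Δ (2 * m) f * tc := by
  have h1 := kap_eps_pow H (f - 2 * m)
  have hy := y0_pos H.Δ_pos
  have hq := qq_pos
  have hκ := kap_pos
  have hε := H.ε_pos
  have h2 : qq ^ (f - 2 * m) ≤ qq ^ m := pow_le_pow_of_le_one hq.le qq_le (by omega)
  have h3 : kap ^ (2 * f) * ε ^ (f - 2 * m) = kap ^ (2 * (2 * m)) * (kap ^ 2 * ε) ^ (f - 2 * m) := by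
    rw [mul_pow, ← pow_mul, ← mul_assoc, ← pow_add]
    congr 2
    omega
  have h4 : kap ^ (2 * f) * ε ^ (f - 2 * m) ≤ kap ^ (4 + 2 * (2 * m)) * (qq ^ m * y0 Δ ^ (f - 2 * m)) := by
    rw [h3]
    have h5 : kap ^ (2 * (2 * m)) ≤ kap ^ (4 + 2 * (2 * m)) := pow_le_pow_right₀ kap_ge (by omega)
    apply mul_le_mul h5 _ (by positivity) (by positivity)
    exact h1.trans (mul_le_mul_of_nonneg_right h2 (by positivity))
  unfold bw
  have h6 : 2 * m / 2 = m := by omega
  rw [h6]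
  have h5 : (0:ℝ) ≤ 1 + 2 * dlt := by have := dlt_pos; linarith
  calc (1 + 2 * dlt) * kap ^ (2 * f) * (ε ^ (f - 2 * m) * tc)
      = (1 + 2 * dlt) * (kap ^ (2 * f) * ε ^ (f - 2 * m)) * tc := by ring
    _ ≤ (1 + 2 * dlt) * (kap ^ (4 + 2 * (2 * m)) * (qq ^ m * y0 Δ ^ (f - 2 * m))) * tc := by
        apply mul_le_mul_of_nonneg_right _ htc
        exact mul_le_mul_of_nonneg_left h4 h5
    _ = _ := by ring

/-- Type II arithmetic. -/
lemma arith_one (H : CoreHyp E t ε A Δ) {f m : ℕ} (hm : 1 ≤ m) (hf : 2 * m + 1 ≤ f) {tc τ : ℝ}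
    (htc : 0 ≤ tc)
    (hτ : ∀ β : ℝ, 0 < β → τ ≤ (β * A + β⁻¹ * (ε ^ (2 * (f - 1) - 2 * m) * tc)) / 2) :
    (1 + 2 * dlt) * kap ^ (2 * f) * τ ≤ aw Δ f * A + bw Δ (2 * m) f * tc := by
  have hA := H.A_nonneg
  have hy := y0_pos H.Δ_pos
  have hq := qq_pos
  have hκ := kap_pos
  have hd := dlt_pos
  set s := f - 1 - m with hs
  have hsm : m ≤ s := by omega
  have hs1 : 1 ≤ s := by omega
  have hexp : 2 * (f - 1) - 2 * m = 2 * s := by omega
  set β : ℝ := qq ^ s * y0 Δ ^ (f - 2) / kap ^ (2 * f) with hβdef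
  have hβ : 0 < β := by positivity
  have h0 := hτ β hβ
  rw [hexp] at h0
  have hk2 : kap ^ (2 * f) * β = qq ^ s * y0 Δ ^ (f - 2) := by
    rw [hβdef]
    field_simp
  have hk3 : kap ^ (2 * f) * β⁻¹ * (qq ^ s * y0 Δ ^ (f - 2)) = kap ^ (4 * f) := by
    rw [hβdef, inv_div]
    have e4 : 4 * f = 2 * f + 2 * f := by ring
    rw [e4, pow_add]
    field_simp
  -- the estimate for the second term
  have hE : kap ^ (4 * f) * ε ^ (2 * s) ≤ kap ^ (4 + 2 * (2 * m)) * (qq ^ (2 * s) * y0 Δ ^ (2 * s)) := by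
    have h1 := kap_eps_pow H (2 * s)
    have h2 : kap ^ (4 * f) * ε ^ (2 * s) = kap ^ (4 + 2 * (2 * m)) * (kap ^ 2 * ε) ^ (2 * s) := by
      rw [mul_pow, ← pow_mul, ← mul_assoc, ← pow_add]
      congr 2
      omega
    rw [h2]
    exact mul_le_mul_of_nonneg_left h1 (by positivity)
  have hsplitq : qq ^ (2 * s) * y0 Δ ^ (2 * s)
      = (qq ^ s * y0 Δ ^ (f - 2)) * (qq ^ s * y0 Δ ^ (f - 2 * m)) := by
    have e1 : 2 * s = s + s := by ring
    have e2 : 2 * s = (f - 2) + (f - 2 * m) := by omega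
    calc qq ^ (2 * s) * y0 Δ ^ (2 * s) = qq ^ (s + s) * y0 Δ ^ ((f - 2) + (f - 2 * m)) := by
          rw [← e1, ← e2]
      _ = _ := by rw [pow_add, pow_add]; ring
  have hpos : 0 < qq ^ s * y0 Δ ^ (f - 2) := by positivity
  have hsecond : kap ^ (2 * f) * β⁻¹ * ε ^ (2 * s) ≤ kap ^ (4 + 2 * (2 * m)) * (qq ^ s * y0 Δ ^ (f - 2 * m)) := by
    have h3 : (kap ^ (2 * f) * β⁻¹ * ε ^ (2 * s)) * (qq ^ s * y0 Δ ^ (f - 2))
        = kap ^ (4 * f) * ε ^ (2 * s) := by
      calc _ = (kap ^ (2 * f) * β⁻¹ * (qq ^ s * y0 Δ ^ (f - 2))) * ε ^ (2 * s) := by ring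
        _ = _ := by rw [hk3]
    have h4 : (kap ^ (2 * f) * β⁻¹ * ε ^ (2 * s)) * (qq ^ s * y0 Δ ^ (f - 2))
        ≤ (kap ^ (4 + 2 * (2 * m)) * (qq ^ s * y0 Δ ^ (f - 2 * m))) * (qq ^ s * y0 Δ ^ (f - 2)) := by
      rw [h3]
      refine hE.trans (le_of_eq ?_)
      rw [hsplitq]
      ring
    exact le_of_mul_le_mul_right h4 hpos
  have hq1 : qq ^ s ≤ qq := by
    calc qq ^ s ≤ qq ^ 1 := pow_le_pow_of_le_one hq.le qq_le hs1
      _ = qq := pow_one _
  have hqm : qq ^ s ≤ qq ^ m := pow_le_pow_of_le_one hq.le qq_le hsm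
  have hκ4 : 1 ≤ kap ^ 4 := one_le_pow₀ kap_ge
  have h5 : (0:ℝ) ≤ 1 + 2 * dlt := by linarith
  have h6 : (0:ℝ) < kap ^ (2 * f) := by positivity
  have hmain : kap ^ (2 * f) * τ ≤
      (kap ^ 4 * (qq * y0 Δ ^ (f - 2))) * A
        + (kap ^ (4 + 2 * (2 * m)) * (qq ^ m * y0 Δ ^ (f - 2 * m))) * tc := by
    have h7 := mul_le_mul_of_nonneg_left h0 h6.le
    refine h7.trans ?_
    have e : kap ^ (2 * f) * ((β * A + β⁻¹ * (ε ^ (2 * s) * tc)) / 2)
        = (kap ^ (2 * f) * β) * A / 2 + (kap ^ (2 * f) * β⁻¹ * ε ^ (2 * s)) * tc / 2 := by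
      ring
    rw [e, hk2]
    have h8 : (qq ^ s * y0 Δ ^ (f - 2)) * A / 2 ≤ (kap ^ 4 * (qq * y0 Δ ^ (f - 2))) * A := by
      have h9 : qq ^ s * y0 Δ ^ (f - 2) ≤ kap ^ 4 * (qq * y0 Δ ^ (f - 2)) := by
        have h10 : qq * y0 Δ ^ (f - 2) ≤ kap ^ 4 * (qq * y0 Δ ^ (f - 2)) := by
          have : 0 ≤ qq * y0 Δ ^ (f - 2) := by positivity
          nlinarith
        exact (mul_le_mul_of_nonneg_right hq1 (by positivity)).trans h10
      have h11 : 0 ≤ (qq ^ s * y0 Δ ^ (f - 2)) * A := by positivity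
      nlinarith [mul_le_mul_of_nonneg_right h9 hA]
    have h12 : (kap ^ (2 * f) * β⁻¹ * ε ^ (2 * s)) * tc / 2
        ≤ (kap ^ (4 + 2 * (2 * m)) * (qq ^ m * y0 Δ ^ (f - 2 * m))) * tc := by
      have h13 : kap ^ (2 * f) * β⁻¹ * ε ^ (2 * s)
          ≤ kap ^ (4 + 2 * (2 * m)) * (qq ^ m * y0 Δ ^ (f - 2 * m)) := by
        refine hsecond.trans ?_
        apply mul_le_mul_of_nonneg_left _ (by positivity)
        exact mul_le_mul_of_nonneg_right hqm (by positivity)
      have h14 := mul_le_mul_of_nonneg_right h13 htc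
      have h15 : 0 ≤ (kap ^ (2 * f) * β⁻¹ * ε ^ (2 * s)) * tc :=
        mul_nonneg (by have := H.ε_pos; positivity) htc
      linarith
    linarith
  have h16 := mul_le_mul_of_nonneg_left hmain h5
  unfold aw bw
  have h17 : 2 * m / 2 = m := by omega
  rw [h17]
  calc (1 + 2 * dlt) * kap ^ (2 * f) * τ = (1 + 2 * dlt) * (kap ^ (2 * f) * τ) := by ring
    _ ≤ _ := h16
    _ = _ := by ring

/-- The atoms of the two kinds inside a polymer family. -/
noncomputable def atomsP (E : Finset (Sym2 V)) : Finset (Finset (Sym2 V)) := by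
  classical
  exact (Polys E univ).filter fun γ => γ.card = 2

noncomputable def atomsC (E : Finset (Sym2 V)) : Finset (Finset (Sym2 V)) := by
  classical
  exact (Polys E univ).filter fun γ => IsCycSet E γ

noncomputable def others (E : Finset (Sym2 V)) : Finset (Finset (Sym2 V)) := by
  classical
  exact (Polys E univ).filter fun γ => ¬ IsAtom E γ

lemma mem_Polys_univ {γ : Finset (Sym2 V)} : γ ∈ Polys E univ ↔ γ ⊆ E ∧ γ.Nonempty ∧ Conn γ := by
  rw [mem_Polys, sub_univ_eq]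

lemma mem_atomsP {γ : Finset (Sym2 V)} : γ ∈ atomsP E ↔ γ ∈ Polys E univ ∧ γ.card = 2 := by
  classical
  simp [atomsP]

lemma mem_atomsC {γ : Finset (Sym2 V)} : γ ∈ atomsC E ↔ γ ∈ Polys E univ ∧ IsCycSet E γ := by
  classical
  simp [atomsC]

lemma mem_others {γ : Finset (Sym2 V)} : γ ∈ others E ↔ γ ∈ Polys E univ ∧ ¬ IsAtom E γ := by
  classical
  simp [others]

/-- A connected set with at least two edges contains a two-edge connected subset. -/
lemma exists_atomP {γ : Finset (Sym2 V)} (hγ : γ ∈ Polys E univ)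
    (h2 : 2 ≤ γ.card) : ∃ P ∈ atomsP E, P ⊆ γ := by
  obtain ⟨h1, hne, hc⟩ := mem_Polys_univ.mp hγ
  obtain ⟨e, he⟩ := hne
  induction e using Sym2.ind with
  | _ x y =>
    obtain ⟨u, hu, z, hz, hz'⟩ := adjacent_edge hc he h2
    obtain ⟨w, hw⟩ : ∃ w, s(x, y) = s(u, w) := by
      simp only [mem_insert, mem_singleton] at hu
      rcases hu with rfl | rfl
      · exact ⟨y, rfl⟩
      · exact ⟨x, Sym2.eq_swap⟩
    rw [hw] at he hz'
    refine ⟨{s(u, w), s(u, z)}, ?_, ?_⟩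
    · rw [mem_atomsP, mem_Polys_univ]
      have hsubE : ({s(u, w), s(u, z)} : Finset (Sym2 V)) ⊆ E := by
        intro f hf
        simp only [mem_insert, mem_singleton] at hf
        rcases hf with rfl | rfl
        · exact h1 he
        · exact h1 hz
      refine ⟨⟨hsubE, ⟨s(u, w), by simp⟩, ?_⟩, card_pair hz'.symm⟩
      -- connectivity of a pair of adjacent edges
      have hreach : ∀ x' ∈ verts ({s(u, w), s(u, z)} : Finset (Sym2 V)),
          Reach {s(u, w), s(u, z)} u x' := by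
        intro x' hx'
        obtain ⟨f, hf, hxf⟩ := mem_verts.mp hx'
        simp only [mem_insert, mem_singleton] at hf
        rcases hf with rfl | rfl
        · simp only [Sym2.mem_iff] at hxf
          rcases hxf with rfl | rfl
          · exact Reach.refl _ _
          · exact (Reach.refl _ _).tail (by simp)
        · simp only [Sym2.mem_iff] at hxf
          rcases hxf with rfl | rfl
          · exact Reach.refl _ _
          · exact (Reach.refl _ _).tail (by simp)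
      intro p hp q hq
      exact (hreach p hp).symm.trans (hreach q hq)
    · intro f hf
      simp only [mem_insert, mem_singleton] at hf
      rcases hf with rfl | rfl
      · exact he
      · exact hz

lemma card_verts_atomP (H : CoreHyp E t ε A Δ) {P : Finset (Sym2 V)} (hP : P ∈ atomsP E) :
    (verts P).card ≤ 3 := by
  obtain ⟨h1, h2⟩ := mem_atomsP.mp hP
  obtain ⟨h3, -, h5⟩ := mem_Polys_univ.mp h1
  obtain ⟨a, b, v, -, -, -, rfl⟩ := two_edges_shape H.noLoops h3 h5 h2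
  have : verts ({s(a, v), s(b, v)} : Finset (Sym2 V)) ⊆ {a, b, v} := by
    intro x hx
    obtain ⟨f, hf, hxf⟩ := mem_verts.mp hx
    simp only [mem_insert, mem_singleton] at hf ⊢
    rcases hf with rfl | rfl <;> simp only [Sym2.mem_iff] at hxf <;> tauto
  exact (card_le_card this).trans card_le_three

/-- The charging bound for a single non-atom polymer. -/
theorem nonatom_bound (H : CoreHyp E t ε A Δ) {γ : Finset (Sym2 V)} (hγ : γ ∈ others E) :
    (1 + 2 * dlt) * kap ^ (2 * γ.card) * |t γ|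
      ≤ ∑ P ∈ (atomsP E).filter (· ⊆ γ), aw Δ γ.card * A
        + ∑ C ∈ (atomsC E).filter (· ⊆ γ), bw Δ C.card γ.card * t C := by
  classical
  obtain ⟨hγ1, hna⟩ := mem_others.mp hγ
  obtain ⟨hγE, hne, hc⟩ := mem_Polys_univ.mp hγ1
  have hΔ := H.Δ_pos
  have hAnn := H.A_nonneg
  have hloop : NoLoops γ := H.noLoops.mono hγE
  obtain ⟨col, hcol⟩ := H.col
  -- nonnegativity of both sums
  have hR1 : 0 ≤ ∑ P ∈ (atomsP E).filter (· ⊆ γ), aw Δ γ.card * A :=
    sum_nonneg fun _ _ => mul_nonneg (aw_nonneg hΔ _) hAnn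
  have hC0 : ∀ C ∈ atomsC E, 0 ≤ t C := by
    intro C hC
    obtain ⟨-, a, l, hcyc, rfl⟩ := mem_atomsC.mp hC
    exact H.t_cyc a l hcyc
  have hR2 : 0 ≤ ∑ C ∈ (atomsC E).filter (· ⊆ γ), bw Δ C.card γ.card * t C :=
    sum_nonneg fun C hC => mul_nonneg (bw_nonneg hΔ _ _) (hC0 C (mem_filter.mp hC).1)
  -- single edges
  by_cases hf1 : γ.card = 1
  · obtain ⟨e, rfl⟩ := card_eq_one.mp hf1
    rw [H.t_single e (hγE (mem_singleton_self e))]
    simp only [abs_zero, mul_zero]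
    linarith
  have hf2 : γ.card ≠ 2 := fun h => hna (Or.inl h)
  have hf3 : 3 ≤ γ.card := by
    have := card_pos.mpr hne
    omega
  obtain ⟨P₀, hP₀, hP₀γ⟩ := exists_atomP hγ1 (by omega)
  have hR1' : aw Δ γ.card * A ≤ ∑ P ∈ (atomsP E).filter (· ⊆ γ), aw Δ γ.card * A :=
    single_le_sum (f := fun _ => aw Δ γ.card * A)
      (fun _ _ => mul_nonneg (aw_nonneg hΔ _) hAnn) (mem_filter.mpr ⟨hP₀, hP₀γ⟩)
  -- a shortest cycle gives a term of the second sum
  have hcycle_term : ∀ b l, IsCyc γ b l →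
      bw Δ (l.length + 1) γ.card * t (cycE b l)
        ≤ ∑ C ∈ (atomsC E).filter (· ⊆ γ), bw Δ C.card γ.card * t C := by
    intro b l hcyc
    have hmem : cycE b l ∈ (atomsC E).filter (· ⊆ γ) := by
      refine mem_filter.mpr ⟨mem_atomsC.mpr ⟨mem_Polys_univ.mpr ⟨hcyc.subset.trans hγE, ?_, cycE_conn⟩,
        b, l, hcyc.mono hγE, rfl⟩, hcyc.subset⟩
      refine card_pos.mp ?_
      rw [card_cycE hcyc]
      omega
    have := single_le_sum (f := fun C => bw Δ C.card γ.card * t C)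
      (fun C hC => mul_nonneg (bw_nonneg hΔ _ _) (hC0 C (mem_filter.mp hC).1)) hmem
    rwa [card_cycE hcyc] at this
  have hκpos := kap_pos
  have hdpos := dlt_pos
  have hpref : (0:ℝ) ≤ (1 + 2 * dlt) * kap ^ (2 * γ.card) := by positivity
  by_cases h0 : ∃ a ∈ verts γ, degE γ a = 1
  · obtain ⟨a, haγ, hada⟩ := h0
    obtain ⟨v, hv, huniq⟩ := leaf_edge hada
    have hav : a ≠ v := hloop.ne hv
    by_cases h1 : ∃ b ∈ verts γ, b ≠ a ∧ degE γ b = 1
    · -- two leaves
      obtain ⟨b, -, hba, hdb⟩ := h1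
      obtain ⟨w, hw, huniqb⟩ := leaf_edge hdb
      have hbw : b ≠ w := hloop.ne hw
      have hadj : ¬ (a = w ∨ b = v) := by
        intro hor
        have hwb : a = w ∧ b = v := by
          rcases hor with rfl | rfl
          · have h3 := huniq _ hw (by simp)
            rw [Sym2.eq_iff] at h3
            rcases h3 with ⟨h4, _⟩ | ⟨h4, _⟩
            · exact absurd h4 hba
            · exact ⟨rfl, h4⟩
          · have h3 := huniqb _ hv (by simp)
            rw [Sym2.eq_iff] at h3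
            rcases h3 with ⟨h4, _⟩ | ⟨h4, _⟩
            · exact absurd h4.symm hba
            · exact ⟨h4, rfl⟩
        obtain ⟨rfl, rfl⟩ := hwb
        have hle := isolated_edge hc hv huniq (fun e he hbe => by
          rw [huniqb e he hbe, Sym2.eq_swap])
        omega
      rw [not_or] at hadj
      have hb := H.t_two γ hγE a b v w hav hbw (Ne.symm hba) hadj.1 hadj.2 hv hw huniq huniqb
      have h2 := mul_le_mul_of_nonneg_left hb hpref
      have h3 := arith_two H hf3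
      linarith
    · -- exactly one leaf
      push Not at h1
      have hd1 : ∀ x ∈ verts γ, x ≠ a → degE γ x ≠ 1 := fun x hx hxa => h1 x hx hxa
      obtain ⟨b, l, hcyc, hmin⟩ := exists_min_cyc (exists_cyc_of_one_leaf hloop haγ hd1)
      have haL : a ∉ b :: l := by
        intro hmem
        obtain ⟨e₁, he₁, e₂, he₂, hne', h1', h2'⟩ := hcyc.two_edges hmem
        have h3 := huniq e₁ (hcyc.subset he₁) h1'
        have h4 := huniq e₂ (hcyc.subset he₂) h2'
        exact hne' (h3.trans h4.symm)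
      have hCnot : ∀ e ∈ cycE b l, e ≠ s(a, v) := by
        rintro e he rfl
        exact haL (cycE_verts he (by simp))
      have hcyc' : IsCyc (γ.erase s(a, v)) b l :=
        ⟨hcyc.nodup, hcyc.long, fun e he => mem_erase.mpr
          ⟨hCnot e (mem_cycE.mpr he), hcyc.edges e he⟩⟩
      have hind : ∀ e ∈ γ.erase s(a, v), (∀ w ∈ e, w ∈ b :: l) → e ∈ cycE b l :=
        fun e he hin => no_chord hloop hcyc hmin (mem_erase.mp he).2 hin
      obtain ⟨m, hm⟩ := (hcyc.mono hγE).even hcol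
      have hLm : l.length + 1 = 2 * m := by omega
      have hlong := hcyc.long
      have hm1 : 1 ≤ m := by omega
      have hfL : 2 * m + 1 ≤ γ.card := by
        have h4 := card_le_card hcyc'.subset
        rw [card_cycE hcyc, card_erase_of_mem hv, hLm] at h4
        omega
      have htc : 0 ≤ t (cycE b l) := H.t_cyc b l (hcyc.mono hγE)
      have hτ : ∀ β : ℝ, 0 < β → |t γ| ≤
          (β * A + β⁻¹ * (ε ^ (2 * (γ.card - 1) - 2 * m) * t (cycE b l))) / 2 := by
        intro β hβ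
        have := H.t_one γ hγE a v hav hv huniq b l hcyc' hind β hβ
        rwa [hLm] at this
      have hmain := arith_one H hm1 hfL htc hτ
      have hterm := hcycle_term b l hcyc
      rw [hLm] at hterm
      linarith
  · -- no leaf
    push Not at h0
    obtain ⟨b, l, hcyc, hmin⟩ := exists_min_cyc (exists_cyc_of_no_leaf hloop hne h0)
    have hind : ∀ e ∈ γ, (∀ w ∈ e, w ∈ b :: l) → e ∈ cycE b l :=
      fun e he hin => no_chord hloop hcyc hmin he hin
    obtain ⟨m, hm⟩ := (hcyc.mono hγE).even hcol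
    have hLm : l.length + 1 = 2 * m := by omega
    have hγC : γ ≠ cycE b l := by
      intro h
      exact hna (Or.inr ⟨b, l, hcyc.mono hγE, h⟩)
    have hear := ear_lemma hloop hc h0 hcyc hmin hγC
    have hsd : (γ \ cycE b l).card = γ.card - 2 * m := by
      rw [card_sdiff_of_subset hcyc.subset, card_cycE hcyc, hLm]
    have hle : 2 * m ≤ γ.card := by
      have := card_le_card hcyc.subset
      rwa [card_cycE hcyc, hLm] at this
    have hfm : 2 * m + m ≤ γ.card := by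
      rw [hsd, ← hLm] at hear
      omega
    have htc : 0 ≤ t (cycE b l) := H.t_cyc b l (hcyc.mono hγE)
    have hb := H.t_ind γ hγE b l hcyc hind
    rw [hLm] at hb
    have h2 := mul_le_mul_of_nonneg_left hb hpref
    have h3 := arith_ind H hfm htc
    have hterm := hcycle_term b l hcyc
    rw [hLm] at hterm
    linarith

/-- Numerical inequality for cycles. -/
lemma cycle_numeric (m : ℕ) (hm : 1 ≤ m) :
    (1 + 2 * dlt) * kap ^ (4 + 2 * (2 * m)) * qq ^ m * 3 ^ (2 * m)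
      ≤ (1 - 2 * dlt) * lam ^ (2 * (2 * m)) := by
  induction m, hm using Nat.le_induction with
  | base => norm_num [dlt, kap, qq, lam]
  | succ m _ ih =>
    have e1 : (1 + 2 * dlt) * kap ^ (4 + 2 * (2 * (m + 1))) * qq ^ (m + 1) * 3 ^ (2 * (m + 1))
        = ((1 + 2 * dlt) * kap ^ (4 + 2 * (2 * m)) * qq ^ m * 3 ^ (2 * m))
          * (kap ^ 4 * qq * 3 ^ 2) := by ring
    have e2 : (1 - 2 * dlt) * lam ^ (2 * (2 * (m + 1)))
        = ((1 - 2 * dlt) * lam ^ (2 * (2 * m))) * lam ^ 4 := by ring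
    rw [e1, e2]
    have h1 : kap ^ 4 * qq * 3 ^ 2 ≤ lam ^ 4 := by norm_num [kap, qq, lam]
    have h2 : 0 ≤ (1 + 2 * dlt) * kap ^ (4 + 2 * (2 * m)) * qq ^ m * 3 ^ (2 * m) := by
      have := dlt_pos
      have := kap_pos
      have := qq_pos
      positivity
    have h3 : 0 ≤ kap ^ 4 * qq * 3 ^ 2 := by
      have := kap_pos
      have := qq_pos
      positivity
    exact mul_le_mul ih h1 h3 (h2.trans ih)

lemma path_numeric :
    (1 + 2 * dlt) * kap ^ 4 * qq * 3 ^ 3 ≤ (1 - 2 * dlt) * lam ^ 4 := by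
  norm_num [dlt, kap, qq, lam]

/-- The assigned lower bounds sum to something nonnegative. -/
theorem psi_sum_nonneg (H : CoreHyp E t ε A Δ) : 0 ≤ ∑ γ ∈ Polys E univ, psi E t γ := by
  classical
  have hΔ := H.Δ_pos
  have hy0 := y0_pos hΔ
  have hAnn := H.A_nonneg
  have hd := dlt_pos
  have hκ := kap_pos
  have hq := qq_pos
  have hlam := lam_pos
  -- split into atoms and others
  have hsplit : ∑ γ ∈ Polys E univ, psi E t γ
      = ∑ γ ∈ atomsP E, psi E t γ + ∑ γ ∈ atomsC E, psi E t γ + ∑ γ ∈ others E, psi E t γ := by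
    have h1 : Polys E univ = (atomsP E ∪ atomsC E) ∪ others E := by
      ext γ
      simp only [mem_union, mem_atomsP, mem_atomsC, mem_others, IsAtom]
      tauto
    have hd1 : Disjoint (atomsP E) (atomsC E) := by
      rw [Finset.disjoint_left]
      intro γ h2 h3
      obtain ⟨-, h4⟩ := mem_atomsP.mp h2
      obtain ⟨-, a, l, hcyc, rfl⟩ := mem_atomsC.mp h3
      rw [card_cycE hcyc] at h4
      have := hcyc.long
      omega
    have hd2 : Disjoint (atomsP E ∪ atomsC E) (others E) := by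
      rw [Finset.disjoint_left]
      intro γ h2 h3
      obtain ⟨-, h4⟩ := mem_others.mp h3
      rcases mem_union.mp h2 with h5 | h5
      · exact h4 (Or.inl (mem_atomsP.mp h5).2)
      · exact h4 (Or.inr (mem_atomsC.mp h5).2)
    rw [h1, sum_union hd2, sum_union hd1]
  rw [hsplit]
  -- values on atoms
  have hP : ∀ γ ∈ atomsP E, psi E t γ = (1 - 2 * dlt) * lam ^ 4 * A := by
    intro γ hγ
    obtain ⟨h1, h2⟩ := mem_atomsP.mp hγ
    obtain ⟨h3, -, h5⟩ := mem_Polys_univ.mp h1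
    have hat : IsAtom E γ := Or.inl h2
    unfold psi
    rw [if_pos hat, h2]
    obtain ⟨a, b, v, h6, h7, h8, rfl⟩ := two_edges_shape H.noLoops h3 h5 h2
    rw [H.t_P2 a b v h6 h7 h8 (h3 (by simp)) (h3 (by simp))]
  have hC : ∀ γ ∈ atomsC E, psi E t γ = (1 - 2 * dlt) * lam ^ (2 * γ.card) * t γ := by
    intro γ hγ
    obtain ⟨-, h2⟩ := mem_atomsC.mp hγ
    unfold psi
    rw [if_pos (show IsAtom E γ from Or.inr h2)]
  have hO : ∀ γ ∈ others E, psi E t γ = -((1 + 2 * dlt) * kap ^ (2 * γ.card) * |t γ|) := by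
    intro γ hγ
    obtain ⟨-, h2⟩ := mem_others.mp hγ
    unfold psi
    rw [if_neg h2]
  rw [sum_congr rfl hP, sum_congr rfl hC, sum_congr rfl hO, sum_neg_distrib]
  -- the charging
  have hcharge : ∑ γ ∈ others E, (1 + 2 * dlt) * kap ^ (2 * γ.card) * |t γ|
      ≤ ∑ γ ∈ others E, (∑ P ∈ (atomsP E).filter (· ⊆ γ), aw Δ γ.card * A
          + ∑ C ∈ (atomsC E).filter (· ⊆ γ), bw Δ C.card γ.card * t C) :=
    sum_le_sum fun γ hγ => nonatom_bound H hγ
  rw [sum_add_distrib] at hcharge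
  have hswap1 : ∑ γ ∈ others E, ∑ P ∈ (atomsP E).filter (· ⊆ γ), aw Δ γ.card * A
      = ∑ P ∈ atomsP E, ∑ γ ∈ (others E).filter (P ⊆ ·), aw Δ γ.card * A := by
    apply sum_comm'
    intro x y
    simp only [mem_filter]
    tauto
  have hswap2 : ∑ γ ∈ others E, ∑ C ∈ (atomsC E).filter (· ⊆ γ), bw Δ C.card γ.card * t C
      = ∑ C ∈ atomsC E, ∑ γ ∈ (others E).filter (C ⊆ ·), bw Δ C.card γ.card * t C := by
    apply sum_comm'
    intro x y
    simp only [mem_filter]
    tauto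
  rw [hswap1, hswap2] at hcharge
  -- bounds on the inner sums
  have hinP : ∀ P ∈ atomsP E, ∑ γ ∈ (others E).filter (P ⊆ ·), aw Δ γ.card * A
      ≤ (1 - 2 * dlt) * lam ^ 4 * A := by
    intro P hPm
    obtain ⟨h1, h2⟩ := mem_atomsP.mp hPm
    obtain ⟨h3, h4, -⟩ := mem_Polys_univ.mp h1
    rw [← sum_mul]
    apply mul_le_mul_of_nonneg_right _ hAnn
    have hs := conn_sum_super E P hΔ H.deg_le h4 ((others E).filter (P ⊆ ·)) (by
      intro γ hγ
      obtain ⟨h5, h6⟩ := mem_filter.mp hγ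
      obtain ⟨h7, -⟩ := mem_others.mp h5
      obtain ⟨h8, -, h10⟩ := mem_Polys_univ.mp h7
      exact ⟨h8, h6, h10⟩)
    rw [h2] at hs
    have hv := card_verts_atomP H hPm
    have hs2 : ∑ γ ∈ (others E).filter (P ⊆ ·), y0 Δ ^ (γ.card - 2) ≤ 3 ^ 3 := by
      refine hs.trans ?_
      exact pow_le_pow_right₀ (by norm_num) hv
    unfold aw
    rw [← mul_sum]
    calc _ ≤ (1 + 2 * dlt) * kap ^ 4 * qq * 3 ^ 3 :=
          mul_le_mul_of_nonneg_left hs2 (by positivity)
      _ ≤ _ := path_numeric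
  have hinC : ∀ C ∈ atomsC E, ∑ γ ∈ (others E).filter (C ⊆ ·), bw Δ C.card γ.card * t C
      ≤ (1 - 2 * dlt) * lam ^ (2 * C.card) * t C := by
    intro C hCm
    obtain ⟨h1, a, l, hcyc, rfl⟩ := mem_atomsC.mp hCm
    obtain ⟨h3, h4, -⟩ := mem_Polys_univ.mp h1
    obtain ⟨col, hcol⟩ := H.col
    obtain ⟨m, hm⟩ := hcyc.even hcol
    have hLm : l.length + 1 = 2 * m := by omega
    have hm1 : 1 ≤ m := by
      have := hcyc.long
      omega
    rw [← sum_mul]
    apply mul_le_mul_of_nonneg_right _ (H.t_cyc a l hcyc)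
    have hs := conn_sum_super E (cycE a l) hΔ H.deg_le h4
      ((others E).filter (cycE a l ⊆ ·)) (by
      intro γ hγ
      obtain ⟨h5, h6⟩ := mem_filter.mp hγ
      obtain ⟨h7, -⟩ := mem_others.mp h5
      obtain ⟨h8, -, h10⟩ := mem_Polys_univ.mp h7
      exact ⟨h8, h6, h10⟩)
    have hv : (verts (cycE a l)).card ≤ 2 * m := by
      rw [← hLm]
      exact card_verts_cycE
    have hs2 : ∑ γ ∈ (others E).filter (cycE a l ⊆ ·), y0 Δ ^ (γ.card - (cycE a l).card)
        ≤ 3 ^ (2 * m) := hs.trans (pow_le_pow_right₀ (by norm_num) hv)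
    have hcard : (cycE a l).card = 2 * m := by rw [card_cycE hcyc, hLm]
    unfold bw
    rw [hcard] at hs2 ⊢
    have h2m : 2 * m / 2 = m := by omega
    rw [h2m, ← mul_sum]
    calc _ ≤ (1 + 2 * dlt) * kap ^ (4 + 2 * (2 * m)) * qq ^ m * 3 ^ (2 * m) :=
          mul_le_mul_of_nonneg_left hs2 (by positivity)
      _ ≤ _ := cycle_numeric m hm1
  have h1 := sum_le_sum hinP
  have h2 := sum_le_sum hinC
  linarith

/-- The main result of the combinatorial core. -/
theorem core_main (H : CoreHyp E t ε A Δ) : 1 ≤ ∑ F ∈ E.powerset, t F := by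
  have h1 := log_bound H univ
  have h2 := psi_sum_nonneg H
  have h3 : Zp E t univ = ∑ F ∈ E.powerset, t F := by
    unfold Zp
    rw [sub_univ_eq]
  rw [← h3]
  calc (1:ℝ) ≤ Real.exp (∑ γ ∈ Polys E univ, psi E t γ) := Real.one_le_exp h2
    _ ≤ _ := h1

end Vale.Agent.Lib.P050
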