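import Vale.Agent.Lib.P050.Cycles

/-!
# Combinatorics of shortest cycles

Existence of cycles in graphs with few leaves, absence of chords on shortest cycles, and the bound
saying that a connected graph without leaves, different from its shortest cycle, has at least half
the length of that cycle as further edges.
-/

set_option linter.unusedSectionVars false

namespace Vale.Agent.Lib.P050

open Finset

variable {V : Type*} [Fintype V] [DecidableEq V]

/-- No loops. -/
def NoLoops (F : Finset (Sym2 V)) : Prop := ∀ x, s(x, x) ∉ F

lemma NoLoops.mono {F G : Finset (Sym2 V)} (h : NoLoops G) (hFG : F ⊆ G) : NoLoops F :=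
  fun x hx => h x (hFG hx)

lemma NoLoops.ne {F : Finset (Sym2 V)} (h : NoLoops F) {x y : V} (hxy : s(x, y) ∈ F) : x ≠ y := by
  rintro rfl
  exact h x hxy

/-- The walk exploration. -/
theorem walk_explore {D : Finset (Sym2 V)} (hloop : NoLoops D) {T : Finset V}
    (hdeg : ∀ x p, x ∉ T → s(p, x) ∈ D → ∃ w, w ≠ p ∧ s(x, w) ∈ D) :
    ∀ (n : ℕ) (r : List V) (u : V), r ≠ [] → (r ++ [u]).Nodup → (∀ x ∈ r, x ∉ T) →
      (∀ e ∈ pathEdges (r ++ [u]), e ∈ D) → Fintype.card V ≤ r.length + n →
      (∃ a t, IsCyc D a t) ∨
      (∃ w r', w ∈ T ∧ w ≠ u ∧ (w :: (r' ++ [u])).Nodup ∧ r' ≠ [] ∧ (∀ x ∈ r', x ∉ T) ∧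
        ∀ e ∈ pathEdges (w :: (r' ++ [u])), e ∈ D) := by
  intro n
  induction n with
  | zero =>
    intro r u _ hnd _ _ hcard
    exfalso
    have := hnd.length_le_card
    simp only [List.length_append, List.length_singleton] at this
    omega
  | succ n ih =>
    intro r u hne hnd hT hedges hcard
    obtain ⟨z, r₀, rfl⟩ := List.exists_cons_of_ne_nil hne
    -- the previous vertex
    obtain ⟨p, hpdef, hpedge⟩ : ∃ p, (p = u ∧ r₀ = [] ∨ ∃ r₁, r₀ = p :: r₁) ∧ s(p, z) ∈ D := by
      cases r₀ with
      | nil =>
        refine ⟨u, Or.inl ⟨rfl, rfl⟩, ?_⟩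
        have : s(z, u) ∈ D := hedges _ (by simp)
        rwa [Sym2.eq_swap]
      | cons b r₁ =>
        refine ⟨b, Or.inr ⟨r₁, rfl⟩, ?_⟩
        have : s(z, b) ∈ D := hedges _ (by simp)
        rwa [Sym2.eq_swap]
    obtain ⟨w, hwp, hwe⟩ := hdeg z p (hT z (by simp)) hpedge
    have hwz : w ≠ z := fun h => hloop.ne hwe h.symm
    by_cases hwu : w = u
    · -- closing at the start
      subst hwu
      left
      refine ⟨w, z :: r₀, ⟨?_, ?_, ?_⟩⟩
      · have hperm : (w :: z :: r₀).Perm (z :: r₀ ++ [w]) := by
          rw [List.perm_iff_count]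
          intro y
          simp only [List.cons_append, List.count_cons, List.count_append, List.count_nil]
          omega
        exact hperm.nodup_iff.mpr hnd
      · rcases hpdef with ⟨h1, h2⟩ | ⟨r₁, h2⟩
        · exact absurd h1.symm hwp
        · subst h2; simp
      · intro e he
        simp only [List.cons_append, pathEdges_cons_cons, List.mem_cons] at he
        rcases he with rfl | he
        · rwa [Sym2.eq_swap]
        · exact hedges e (by simpa using he)
    by_cases hwT : w ∈ T
    · -- reaching the stopping set
      right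
      refine ⟨w, z :: r₀, hwT, hwu, ?_, by simp, hT, ?_⟩
      · refine List.nodup_cons.mpr ⟨?_, hnd⟩
        intro hc
        simp only [List.mem_append, List.mem_singleton] at hc
        rcases hc with hc | hc
        · exact hT w hc hwT
        · exact hwu hc
      · intro e he
        simp only [List.cons_append, pathEdges_cons_cons, List.mem_cons] at he
        rcases he with rfl | he
        · rwa [Sym2.eq_swap]
        · exact hedges e (by simpa using he)
    by_cases hwr : w ∈ z :: r₀
    · -- closing a cycle on the path
      left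
      obtain ⟨r₁, r₂, hr⟩ := List.append_of_mem hwr
      cases r₁ with
      | nil =>
        simp only [List.nil_append, List.cons.injEq] at hr
        exact absurd hr.1.symm hwz
      | cons y r₃ =>
        simp only [List.cons_append, List.cons.injEq] at hr
        obtain ⟨rfl, hr₀⟩ := hr
        have hl : z :: r₀ ++ [u] = (z :: r₃) ++ w :: (r₂ ++ [u]) := by
          rw [hr₀]; simp
        refine ⟨w, z :: r₃, ⟨?_, ?_, ?_⟩⟩
        · rw [hl] at hnd
          obtain ⟨h1, -, h3⟩ := List.nodup_append.mp hnd
          refine List.nodup_cons.mpr ⟨fun hc => ?_, h1⟩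
          exact h3 w hc w (by simp) rfl
        · cases r₃ with
          | nil =>
            exfalso
            rcases hpdef with ⟨_, h2⟩ | ⟨r₁, h2⟩
            · rw [hr₀] at h2; simp at h2
            · rw [hr₀] at h2
              simp only [List.nil_append, List.cons.injEq] at h2
              exact hwp h2.1
          | cons _ _ => simp
        · intro e he
          simp only [List.cons_append, pathEdges_cons_cons, List.mem_cons] at he
          rcases he with rfl | he
          · rwa [Sym2.eq_swap]
          · apply hedges e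
            rw [hl, pathEdges_append]
            simp only [List.mem_append]
            left
            simpa using he
    · -- extend
      have hnd' : (w :: z :: r₀ ++ [u]).Nodup := by
        have h1 : w ∉ (z :: r₀) ++ [u] := by
          intro hc
          rcases List.mem_append.mp hc with hc | hc
          · exact hwr hc
          · exact hwu (List.mem_singleton.mp hc)
        exact List.nodup_cons.mpr ⟨h1, hnd⟩
      refine ih (w :: z :: r₀) u (by simp) hnd' ?_ ?_ ?_
      · intro x hx
        rcases List.mem_cons.mp hx with rfl | hx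
        · exact hwT
        · exact hT x hx
      · intro e he
        simp only [List.cons_append, pathEdges_cons_cons, List.mem_cons] at he
        rcases he with rfl | he
        · rwa [Sym2.eq_swap]
        · exact hedges e (by simpa using he)
      · simp only [List.length_cons] at hcard ⊢
        omega

/-- An edge at a vertex of degree different from one has a companion. -/
lemma other_edge {F : Finset (Sym2 V)} {x p : V} (hd : degE F x ≠ 1) (hp : s(p, x) ∈ F) :
    ∃ w, w ≠ p ∧ s(x, w) ∈ F := by
  have hmem : s(p, x) ∈ F.filter fun e => x ∈ e := mem_filter.mpr ⟨hp, by simp⟩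
  have hcard : 1 < (F.filter fun e => x ∈ e).card := by
    have hpos : 0 < (F.filter fun e => x ∈ e).card := card_pos.mpr ⟨_, hmem⟩
    unfold degE at hd
    omega
  obtain ⟨e, he, hne⟩ := exists_mem_ne hcard (s(p, x))
  obtain ⟨heF, hxe⟩ := mem_filter.mp he
  obtain ⟨w, rfl⟩ := Sym2.mem_iff_exists.mp hxe
  refine ⟨w, ?_, heF⟩
  rintro rfl
  exact hne Sym2.eq_swap

/-- A nonempty loopless edge set without leaves contains a cycle. -/
lemma exists_cyc_of_no_leaf {F : Finset (Sym2 V)} (hl : NoLoops F) (hne : F.Nonempty)
    (hd : ∀ x ∈ verts F, degE F x ≠ 1) : ∃ a t, IsCyc F a t := by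
  obtain ⟨e, he⟩ := hne
  induction e using Sym2.ind with
  | _ u z =>
    have hT : ∀ x p, x ∉ (∅ : Finset V) → s(p, x) ∈ F → ∃ w, w ≠ p ∧ s(x, w) ∈ F := by
      intro x p _ hp
      exact other_edge (hd x (mem_verts.mpr ⟨_, hp, by simp⟩)) hp
    have huz := hl.ne he
    have := walk_explore hl hT (Fintype.card V) [z] u (by simp)
      (by simpa using huz.symm) (by simp) (by
        intro e' he'
        simp only [List.cons_append, List.nil_append, pathEdges_cons_cons, pathEdges_single,
          List.mem_singleton] at he'
        rw [he', Sym2.eq_swap]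
        exact he) (by simp)
    rcases this with h | ⟨w, r', hw, -⟩
    · exact h
    · simp at hw

/-- A loopless edge set with exactly one leaf contains a cycle. -/
lemma exists_cyc_of_one_leaf {F : Finset (Sym2 V)} (hl : NoLoops F) {a : V} (ha : a ∈ verts F)
    (hd : ∀ x ∈ verts F, x ≠ a → degE F x ≠ 1) : ∃ a' t, IsCyc F a' t := by
  obtain ⟨e, he, hae⟩ := mem_verts.mp ha
  obtain ⟨z, rfl⟩ := Sym2.mem_iff_exists.mp hae
  have hT : ∀ x p, x ∉ ({a} : Finset V) → s(p, x) ∈ F → ∃ w, w ≠ p ∧ s(x, w) ∈ F := by
    intro x p hx hp
    exact other_edge (hd x (mem_verts.mpr ⟨_, hp, by simp⟩) (by simpa using hx)) hp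
  have haz := hl.ne he
  have := walk_explore hl hT (Fintype.card V) [z] a (by simp)
    (by simpa using haz.symm) (by simpa using haz.symm) (by
      intro e' he'
      simp only [List.cons_append, List.nil_append, pathEdges_cons_cons, pathEdges_single,
        List.mem_singleton] at he'
      rw [he', Sym2.eq_swap]
      exact he) (by simp)
  rcases this with h | ⟨w, r', hw, hwa, -⟩
  · exact h
  · exact absurd (by simpa using hw) hwa

/-- A shortest cycle exists as soon as a cycle exists. -/
lemma exists_min_cyc {F : Finset (Sym2 V)} (h : ∃ a t, IsCyc F a t) :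
    ∃ a t, IsCyc F a t ∧ ∀ a' t', IsCyc F a' t' → t.length ≤ t'.length := by
  classical
  have hex : ∃ n, ∃ a t, IsCyc F a t ∧ t.length = n := by
    obtain ⟨a, t, ht⟩ := h
    exact ⟨_, a, t, ht, rfl⟩
  obtain ⟨a, t, ht, hn⟩ := Nat.find_spec hex
  refine ⟨a, t, ht, fun a' t' h' => ?_⟩
  rw [hn]
  exact Nat.find_min' hex ⟨a', t', h', rfl⟩

/-- An ear between two vertices of a shortest cycle is long. -/
theorem ear_bound {F : Finset (Sym2 V)} {a : V} {t : List V} (hC : IsCyc F a t)
    (hmin : ∀ a' t', IsCyc F a' t' → t.length ≤ t'.length) {u w : V} (hu : u ∈ a :: t)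
    (hw : w ∈ a :: t) (huw : u ≠ w) {q : List V} (hnd : (w :: (q ++ [u])).Nodup)
    (hq : ∀ x ∈ q, x ∉ a :: t) (hedges : ∀ e ∈ pathEdges (w :: (q ++ [u])), e ∈ F)
    (hq0 : q = [] → s(w, u) ∉ cycE a t) : t.length + 1 ≤ 2 * q.length + 2 := by
  obtain ⟨t', hC', hlen, hE⟩ := hC.rotate hu
  have hmem : ∀ x, x ∈ u :: t' → x ∈ a :: t := by
    intro x hx
    obtain ⟨t'', hC'', hlen', hE'⟩ := hC'.rotate hx
    -- membership via the vertex sets of the edge sets
    have h1 : x ∈ verts (cycE u t') := mem_verts_cycE hC' hx
    rw [hE] at h1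
    exact List.mem_toFinset.mp (verts_cycE_subset h1)
  have hw' : w ∈ t' := by
    have h1 : w ∈ verts (cycE a t) := mem_verts_cycE hC hw
    rw [← hE] at h1
    have h2 := List.mem_toFinset.mp (verts_cycE_subset h1)
    rcases List.mem_cons.mp h2 with h3 | h3
    · exact absurd h3.symm huw
    · exact h3
  obtain ⟨t₁, t₂, rfl⟩ := List.append_of_mem hw'
  have hqC : ∀ x ∈ q, x ∉ u :: (t₁ ++ w :: t₂) := fun x hx hc => hq x hx (hmem x hc)
  have hqnd : q.Nodup := by
    have h1 := (List.nodup_cons.mp hnd).2
    exact (List.nodup_append.mp h1).1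
  have hsplit : pathEdges (u :: (t₁ ++ w :: t₂ ++ [u]))
      = pathEdges (u :: t₁ ++ [w]) ++ pathEdges (w :: (t₂ ++ [u])) := by
    have := pathEdges_append (u :: t₁) w (t₂ ++ [u])
    simpa using this
  have hcF := hC'.edges
  rw [hsplit] at hcF
  have hnd0 := hC'.nodup
  have hnd1 : (u :: (t₁ ++ w :: t₂)).Nodup := hnd0
  -- first new cycle
  have c1 : IsCyc F u (t₁ ++ w :: q) := by
    refine ⟨?_, ?_, ?_⟩
    · have hsub : (u :: t₁ ++ [w]).Nodup := by
        have : (u :: t₁ ++ [w]).Sublist (u :: (t₁ ++ w :: t₂)) := by
          simp only [List.cons_append]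
          refine List.Sublist.cons_cons _ ?_
          exact List.Sublist.append_left (by simp) _
        exact this.nodup hnd1
      have : (u :: (t₁ ++ w :: q)) = (u :: t₁ ++ [w]) ++ q := by simp
      rw [this, List.nodup_append]
      refine ⟨hsub, hqnd, ?_⟩
      intro x hx y hy hxy
      subst hxy
      apply hqC x hy
      simp only [List.mem_append, List.mem_cons, List.not_mem_nil, or_false] at hx ⊢
      tauto
    · simp only [List.length_append, List.length_cons]
      by_contra hlt
      have hq0' : q = [] := by
        apply List.eq_nil_of_length_eq_zero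
        omega
      have ht0 : t₁ = [] := by
        apply List.eq_nil_of_length_eq_zero
        omega
      apply hq0 hq0'
      rw [← hE, mem_cycE, hsplit, ht0]
      simp [Sym2.eq_swap]
    · intro e he
      have : pathEdges (u :: ((t₁ ++ w :: q) ++ [u]))
          = pathEdges (u :: t₁ ++ [w]) ++ pathEdges (w :: (q ++ [u])) := by
        have := pathEdges_append (u :: t₁) w (q ++ [u])
        simpa using this
      rw [this, List.mem_append] at he
      rcases he with he | he
      · exact hcF e (List.mem_append_left _ he)
      · exact hedges e he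
  -- second new cycle
  have c2 : IsCyc F w (t₂ ++ u :: q.reverse) := by
    refine ⟨?_, ?_, ?_⟩
    · have hsub : (w :: t₂ ++ [u]).Nodup := by
        have hperm : (w :: t₂ ++ [u]).Perm (u :: w :: t₂) := by
          rw [List.perm_iff_count]
          intro z
          simp only [List.cons_append, List.count_cons, List.count_append, List.count_nil]
          omega
        refine hperm.nodup_iff.mpr ?_
        have : (u :: w :: t₂).Sublist (u :: (t₁ ++ w :: t₂)) :=
          List.Sublist.cons_cons _ (List.sublist_append_right _ _)
        exact this.nodup hnd1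
      have : (w :: (t₂ ++ u :: q.reverse)) = (w :: t₂ ++ [u]) ++ q.reverse := by simp
      rw [this, List.nodup_append]
      refine ⟨hsub, List.nodup_reverse.mpr hqnd, ?_⟩
      intro x hx y hy hxy
      subst hxy
      apply hqC x (List.mem_reverse.mp hy)
      simp only [List.mem_append, List.mem_cons, List.not_mem_nil, or_false] at hx ⊢
      tauto
    · simp only [List.length_append, List.length_cons, List.length_reverse]
      by_contra hlt
      have hq0' : q = [] := by
        apply List.eq_nil_of_length_eq_zero
        omega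
      have ht0 : t₂ = [] := by
        apply List.eq_nil_of_length_eq_zero
        omega
      apply hq0 hq0'
      rw [← hE, mem_cycE, hsplit, ht0]
      simp
    · intro e he
      have : pathEdges (w :: ((t₂ ++ u :: q.reverse) ++ [w]))
          = pathEdges (w :: t₂ ++ [u]) ++ pathEdges (u :: (q.reverse ++ [w])) := by
        have := pathEdges_append (w :: t₂) u (q.reverse ++ [w])
        simpa using this
      rw [this, List.mem_append] at he
      rcases he with he | he
      · exact hcF e (List.mem_append_right _ he)
      · apply hedges e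
        apply pathEdges_reverse_mem
        simpa using he
  have h1 := hmin _ _ c1
  have h2 := hmin _ _ c2
  simp only [List.length_append, List.length_cons, List.length_reverse] at h1 h2 hlen
  omega

/-- A shortest cycle has no chord. -/
theorem no_chord {F : Finset (Sym2 V)} (hl : NoLoops F) {a : V} {t : List V} (hC : IsCyc F a t)
    (hmin : ∀ a' t', IsCyc F a' t' → t.length ≤ t'.length) {e : Sym2 V} (he : e ∈ F)
    (hin : ∀ w ∈ e, w ∈ a :: t) : e ∈ cycE a t := by
  induction e using Sym2.ind with
  | _ x y =>
    by_contra hne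
    have hxy := hl.ne he
    have := ear_bound hC hmin (u := y) (w := x) (q := []) (hin y (by simp)) (hin x (by simp))
      hxy.symm (by simpa using hxy) (by simp) (by
        intro e' he'
        simp only [List.nil_append, pathEdges_cons_cons, pathEdges_single,
          List.mem_singleton] at he'
        rw [he']; exact he) (fun _ => hne)
    have hlong := hC.long
    simp only [List.length_nil] at this
    omega

lemma reach_exit {F C : Finset (Sym2 V)} {L : List V} (hC : ∀ e ∈ C, ∀ x ∈ e, x ∈ L) {a b : V}
    (ha : a ∈ L) (hr : Reach F a b) :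
    b ∈ L ∨ ∃ u z, u ∈ L ∧ s(u, z) ∈ F ∧ s(u, z) ∉ C := by
  induction hr with
  | refl => exact Or.inl ha
  | @tail x y _ h2 ih =>
    rcases ih with h | h
    · by_cases hxy : s(x, y) ∈ C
      · exact Or.inl (hC _ hxy y (by simp))
      · exact Or.inr ⟨x, y, h, h2, hxy⟩
    · exact Or.inr h

/-- A connected leafless edge set different from its shortest cycle has many further edges. -/
theorem ear_lemma {F : Finset (Sym2 V)} (hl : NoLoops F) (hconn : Conn F)
    (hd : ∀ x ∈ verts F, degE F x ≠ 1) {a : V} {t : List V} (hC : IsCyc F a t)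
    (hmin : ∀ a' t', IsCyc F a' t' → t.length ≤ t'.length) (hne : F ≠ cycE a t) :
    t.length + 1 ≤ 2 * (F \ cycE a t).card := by
  classical
  have hsub := hC.subset
  -- an edge of F outside the cycle at a vertex of the cycle
  obtain ⟨e₀, he₀⟩ : (F \ cycE a t).Nonempty := by
    rw [sdiff_nonempty]
    intro h
    exact hne (subset_antisymm h hsub)
  obtain ⟨he₀F, he₀C⟩ := mem_sdiff.mp he₀
  obtain ⟨u, z, huL, huz, huzC⟩ : ∃ u z, u ∈ a :: t ∧ s(u, z) ∈ F ∧ s(u, z) ∉ cycE a t := by
    induction e₀ using Sym2.ind with
    | _ b b' =>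
      have haF : a ∈ verts F := by
        have := mem_verts_cycE hC (x := a) (by simp)
        obtain ⟨f, hf, hf'⟩ := mem_verts.mp this
        exact mem_verts.mpr ⟨f, hsub hf, hf'⟩
      have hr := hconn a haF b (mem_verts.mpr ⟨_, he₀F, by simp⟩)
      rcases reach_exit (C := cycE a t) (L := a :: t) (fun e he x hx => cycE_verts he hx)
        (by simp) hr with h | h
      · exact ⟨b, b', h, he₀F, he₀C⟩
      · exact h
  have hzL : z ∉ a :: t := by
    intro hz
    apply huzC
    apply no_chord hl hC hmin huz
    intro w hw
    simp only [Sym2.mem_iff] at hw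
    rcases hw with rfl | rfl <;> assumption
  set D := F \ cycE a t with hD
  have hDF : D ⊆ F := sdiff_subset
  have hlD : NoLoops D := hl.mono hDF
  set T : Finset V := (a :: t).toFinset with hT
  have hTmem : ∀ x, x ∈ T ↔ x ∈ a :: t := fun x => List.mem_toFinset
  have hdeg : ∀ x p, x ∉ T → s(p, x) ∈ D → ∃ w, w ≠ p ∧ s(x, w) ∈ D := by
    intro x p hx hp
    have hpF := hDF hp
    obtain ⟨w, hw, hwe⟩ := other_edge (hd x (mem_verts.mpr ⟨_, hpF, by simp⟩)) hpF
    refine ⟨w, hw, mem_sdiff.mpr ⟨hwe, fun hc => hx ?_⟩⟩
    exact (hTmem x).mpr (cycE_verts hc (by simp))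
  have huz' : u ≠ z := hl.ne huz
  have := walk_explore hlD hdeg (Fintype.card V) [z] u (by simp)
    (by simpa using huz'.symm)
    (by
      intro x hx
      rw [List.mem_singleton] at hx
      subst hx
      rw [hTmem]
      exact hzL)
    (by
      intro e' he'
      simp only [List.cons_append, List.nil_append, pathEdges_cons_cons, pathEdges_single,
        List.mem_singleton] at he'
      rw [he', Sym2.eq_swap]
      exact mem_sdiff.mpr ⟨huz, huzC⟩)
    (by simp)
  rcases this with ⟨a', t', hC'⟩ | ⟨w, r', hw, hwu, hnd, hr'ne, hr'T, hedges⟩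
  · have h1 := hmin a' t' (hC'.mono hDF)
    have h2 : (cycE a' t').card ≤ D.card := card_le_card hC'.subset
    rw [card_cycE hC'] at h2
    omega
  · have hbound := ear_bound hC hmin huL ((hTmem w).mp hw) (Ne.symm hwu) hnd
      (fun x hx => by rw [← hTmem]; exact hr'T x hx) (fun e he => hDF (hedges e he))
      (fun h0 => absurd h0 hr'ne)
    have h2 : (pathEdges (w :: (r' ++ [u]))).toFinset.card ≤ D.card :=
      card_le_card fun e he => hedges e (List.mem_toFinset.mp he)
    rw [List.toFinset_card_of_nodup (pathEdges_nodup hnd), pathEdges_length] at h2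
    simp only [List.length_cons, List.length_append] at h2
    omega

/-- Cycles in properly two-coloured edge sets have even length. -/
lemma even_path {F : Finset (Sym2 V)} {col : V → Bool}
    (hcol : ∀ x y, s(x, y) ∈ F → col x ≠ col y) (l : List V) (x y : V)
    (h : ∀ e ∈ pathEdges (x :: (l ++ [y])), e ∈ F) : col y = col x ↔ Even (l.length + 1) := by
  induction l generalizing x with
  | nil =>
    have hxy : s(x, y) ∈ F := h _ (by simp)
    have := hcol _ _ hxy
    simp only [List.length_nil, zero_add, Nat.not_even_one, iff_false]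
    exact fun hc => this hc.symm
  | cons b l' ih =>
    have hxb : s(x, b) ∈ F := h _ (by simp)
    have hc1 := hcol _ _ hxb
    have hsub : ∀ e ∈ pathEdges (b :: (l' ++ [y])), e ∈ F := by
      intro e he
      apply h e
      simp only [List.cons_append, pathEdges_cons_cons, List.mem_cons]
      right
      exact he
    have ih' := ih b hsub
    simp only [List.length_cons]
    have hev : Even (l'.length + 1 + 1) ↔ ¬ Even (l'.length + 1) := by
      rw [Nat.even_add_one]
    rw [hev, ← ih']
    cases hy : col y <;> cases hx : col x <;> cases hb : col b <;> simp_all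

lemma IsCyc.even {F : Finset (Sym2 V)} {col : V → Bool}
    (hcol : ∀ x y, s(x, y) ∈ F → col x ≠ col y) {a : V} {t : List V} (h : IsCyc F a t) :
    Even (t.length + 1) :=
  (even_path hcol t a a h.edges).mp rfl

end Vale.Agent.Lib.P050
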