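import Vale.Agent.Lib.P050.Reflect

/-!
# The cyclic Holder inequality for a symmetric kernel

For a symmetric bounded kernel `U`, an injective parametrised even cycle `c` in the index set and
weights `w` bounded by one, the weighted cycle density is at most the unweighted one in absolute
value.  Proof: reflection positivity and an extremal argument (chessboard estimate).
-/

open MeasureTheory

set_option linter.unusedSectionVars false

namespace Vale.Agent.Lib.P050

variable {Ω : Type*} [MeasurableSpace Ω]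
variable {V : Type*} [Fintype V] [DecidableEq V]
variable (μ : Measure Ω) [IsProbabilityMeasure μ]

section arith

variable (k : ℕ)

/-- Size of the cycle: `2 (k+1)`. -/
abbrev Zk := ZMod (2 * (k + 1))

instance : NeZero (2 * (k + 1)) := ⟨by omega⟩

variable {k}

/-- Natural number position. -/
def bp (k : ℕ) (j : ℕ) : Zk k := (j : ZMod (2 * (k + 1)))

lemma bp_add (a b : ℕ) : bp k (a + b) = bp k a + bp k b := by
  simp [bp]

lemma bp_succ (a : ℕ) : bp k (a + 1) = bp k a + 1 := by
  simp [bp]

lemma bp_top : bp k (2 * (k + 1)) = 0 := by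
  simp only [bp]
  exact ZMod.natCast_self _

lemma bp_zero : bp k 0 = 0 := by simp [bp]

lemma bp_inj {a b : ℕ} (ha : a < 2 * (k + 1)) (hb : b < 2 * (k + 1)) (h : bp k a = bp k b) :
    a = b := by
  have := congrArg ZMod.val h
  simp only [bp] at this
  rwa [ZMod.val_natCast_of_lt ha, ZMod.val_natCast_of_lt hb] at this

lemma val_bp {a : ℕ} (ha : a < 2 * (k + 1)) : (bp k a).val = a := by
  simp only [bp]
  exact ZMod.val_natCast_of_lt ha

lemma bp_val (z : Zk k) : bp k z.val = z := by
  simp only [bp]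
  exact ZMod.natCast_zmod_val z

lemma val_lt (z : Zk k) : z.val < 2 * (k + 1) := ZMod.val_lt z

lemma neg_bp_of_add {a b : ℕ} (h : a + b = 2 * (k + 1)) : - bp k a = bp k b := by
  have : bp k a + bp k b = 0 := by rw [← bp_add, h, bp_top]
  exact neg_eq_of_add_eq_zero_right this

lemma prod_Z {M : Type*} [CommMonoid M] (A : Zk k → M) :
    ∏ i, A i = ∏ j ∈ Finset.range (2 * (k + 1)), A (bp k j) := by
  refine Finset.prod_bij' (fun i _ => i.val) (fun j _ => bp k j) ?_ ?_ ?_ ?_ ?_
  · intro i _; simpa using val_lt i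
  · intro j _; exact Finset.mem_univ _
  · intro i _; exact bp_val i
  · intro j hj; exact val_bp (Finset.mem_range.mp hj)
  · intro i _; rw [bp_val]

lemma prod_split_half {M : Type*} [CommMonoid M] (A : Zk k → M) :
    ∏ i, A i = (∏ j ∈ Finset.range (k + 1), A (bp k j))
      * ∏ j ∈ Finset.range (k + 1), A (bp k (k + 1 + j)) := by
  rw [prod_Z, two_mul, Finset.prod_range_add]

lemma prod_split {M : Type*} [CommMonoid M] (A : Zk k → M) :
    ∏ i, A i = A (bp k 0) * (∏ j ∈ Finset.range k, A (bp k (j + 1))) * A (bp k (k + 1))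
      * ∏ j ∈ Finset.range k, A (bp k (k + 1 + (j + 1))) := by
  rw [prod_split_half, Finset.prod_range_succ', Finset.prod_range_succ']
  simp only [add_zero]
  ac_rfl

lemma sum_split (A : Zk k → ℕ) :
    ∑ i, A i = A (bp k 0) + (∑ j ∈ Finset.range k, A (bp k (j + 1))) + A (bp k (k + 1))
      + ∑ j ∈ Finset.range k, A (bp k (k + 1 + (j + 1))) := by
  have e : ∑ i, A i = ∑ j ∈ Finset.range (2 * (k + 1)), A (bp k j) :=
    Finset.sum_bij' (fun i _ => i.val) (fun j _ => bp k j)
      (fun i _ => by simpa using val_lt i) (fun j _ => Finset.mem_univ _)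
      (fun i _ => bp_val i) (fun j hj => val_bp (Finset.mem_range.mp hj))
      (fun i _ => by rw [bp_val])
  rw [e, two_mul, Finset.sum_range_add, Finset.sum_range_succ', Finset.sum_range_succ']
  simp only [add_zero]
  ac_rfl

/-- Reflection of the first open arc onto the second. -/
lemma neg_arc1 {j : ℕ} (hj : j < k) : - bp k (j + 1) = bp k (k + 1 + ((k - 1 - j) + 1)) := by
  apply neg_bp_of_add; omega

lemma neg_arc2 {j : ℕ} (hj : j < k) : - bp k (k + 1 + (j + 1)) = bp k ((k - 1 - j) + 1) := by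
  apply neg_bp_of_add; omega

end arith

section cycle

variable {k : ℕ}

/-- The weight product and edge product along the cycle. -/
noncomputable def cycT (U : Ω → Ω → ℝ) (c : Zk k → V) (w : Zk k → Ω → ℝ) : ℝ :=
  ∫ x, (∏ i, w i (x (c i))) * (∏ i, U (x (c i)) (x (c (i + 1)))) ∂(piM μ V)

/-- Standing assumptions on a kernel. -/
structure GoodKernel (U : Ω → Ω → ℝ) : Prop where
  meas : Measurable (Function.uncurry U)
  bdd : ∃ C, ∀ a b, |U a b| ≤ C
  symm : ∀ a b, U a b = U b a

lemma GoodKernel.bm {U : Ω → Ω → ℝ} (hU : GoodKernel U) (u v : V) :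
    BM (fun x : V → Ω => U (x u) (x v)) := by
  obtain ⟨C, hC⟩ := hU.bdd
  refine ⟨?_, C, fun x => hC _ _⟩
  have : Measurable (fun x : V → Ω => Function.uncurry U (x u, x v)) :=
    hU.meas.comp ((measurable_pi_apply u).prodMk (measurable_pi_apply v))
  exact this

/-- Weights bounded by one. -/
def GoodW (w : Ω → ℝ) : Prop := Measurable w ∧ ∀ r, |w r| ≤ 1

lemma GoodW.bm {w : Ω → ℝ} (hw : GoodW w) (u : V) : BM (fun x : V → Ω => w (x u)) :=
  ⟨hw.1.comp (measurable_pi_apply u), 1, fun _ => hw.2 _⟩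

lemma GoodW.one : GoodW (fun _ : Ω => (1 : ℝ)) := ⟨measurable_const, fun _ => by simp⟩

/-- The reflected weight families. -/
def refl1 (w : Zk k → Ω → ℝ) : Zk k → Ω → ℝ := fun i =>
  if i.val = 0 ∨ i.val = k + 1 then fun _ => 1 else if i.val < k + 1 then w i else w (-i)

def refl2 (w : Zk k → Ω → ℝ) : Zk k → Ω → ℝ := fun i =>
  if i.val = 0 ∨ i.val = k + 1 then fun _ => 1 else if i.val < k + 1 then w (-i) else w i

lemma refl1_good {w : Zk k → Ω → ℝ} (hw : ∀ i, GoodW (w i)) (i : Zk k) : GoodW (refl1 w i) := by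
  unfold refl1
  split_ifs
  · exact GoodW.one
  · exact hw _
  · exact hw _

lemma refl2_good {w : Zk k → Ω → ℝ} (hw : ∀ i, GoodW (w i)) (i : Zk k) : GoodW (refl2 w i) := by
  unfold refl2
  split_ifs
  · exact GoodW.one
  · exact hw _
  · exact hw _

/-- The involution of the index set induced by `i ↦ -i`. -/
noncomputable def tauFun (c : Zk k → V) (v : V) : V :=
  by
    classical
    exact if h : ∃ i, c i = v then c (- h.choose) else v

lemma tauFun_c {c : Zk k → V} (hc : Function.Injective c) (i : Zk k) :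
    tauFun c (c i) = c (-i) := by
  classical
  have h : ∃ j, c j = c i := ⟨i, rfl⟩
  have hs : h.choose = i := hc h.choose_spec
  simp only [tauFun]
  rw [dif_pos h, hs]

lemma tauFun_not {c : Zk k → V} {v : V} (h : ¬ ∃ i, c i = v) : tauFun c v = v := by
  classical
  simp only [tauFun]
  rw [dif_neg h]

lemma tauFun_invol {c : Zk k → V} (hc : Function.Injective c) :
    Function.Involutive (tauFun c) := by
  intro v
  by_cases h : ∃ i, c i = v
  · obtain ⟨i, rfl⟩ := h
    rw [tauFun_c hc, tauFun_c hc, neg_neg]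
  · rw [tauFun_not h, tauFun_not h]

noncomputable def tauPerm {c : Zk k → V} (hc : Function.Injective c) : Equiv.Perm V :=
  (tauFun_invol hc).toPerm

lemma tauPerm_apply {c : Zk k → V} (hc : Function.Injective c) (v : V) :
    tauPerm hc v = tauFun c v := rfl

/-- Interior vertices of the two arcs. -/
def arc1 (c : Zk k → V) : Finset V := (Finset.range k).image fun j => c (bp k (j + 1))
def arc2 (c : Zk k → V) : Finset V := (Finset.range k).image fun j => c (bp k (k + 1 + (j + 1)))

lemma not_mem_arc2 {c : Zk k → V} (hc : Function.Injective c) {m : ℕ} (hm : m ≤ k + 1) :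
    c (bp k m) ∉ arc2 c := by
  simp only [arc2, Finset.mem_image, Finset.mem_range, not_exists, not_and]
  intro j hj h
  have := bp_inj (by omega) (by omega) (hc h)
  omega

lemma not_mem_arc1 {c : Zk k → V} (hc : Function.Injective c) {m : ℕ} (hm : k + 1 ≤ m)
    (hm2 : m ≤ 2 * (k + 1)) : c (bp k m) ∉ arc1 c := by
  simp only [arc1, Finset.mem_image, Finset.mem_range, not_exists, not_and]
  intro j hj h
  rcases Nat.lt_or_ge m (2 * (k + 1)) with hlt | hge
  · have := bp_inj (by omega) hlt (hc h)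
    omega
  · have hm3 : m = 2 * (k + 1) := by omega
    rw [hm3, bp_top, ← bp_zero] at h
    have := bp_inj (by omega) (by omega) (hc h)
    omega

lemma arcs_disjoint {c : Zk k → V} (hc : Function.Injective c) : Disjoint (arc1 c) (arc2 c) := by
  rw [Finset.disjoint_left]
  intro v hv
  simp only [arc1, Finset.mem_image, Finset.mem_range] at hv
  obtain ⟨j, hj, rfl⟩ := hv
  exact not_mem_arc2 hc (by omega)

lemma tau_arc1 {c : Zk k → V} (hc : Function.Injective c) :
    ∀ v ∈ arc1 c, tauPerm hc v ∈ arc2 c := by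
  intro v hv
  simp only [arc1, Finset.mem_image, Finset.mem_range] at hv
  obtain ⟨j, hj, rfl⟩ := hv
  rw [tauPerm_apply, tauFun_c hc, neg_arc1 hj]
  simp only [arc2, Finset.mem_image, Finset.mem_range]
  exact ⟨k - 1 - j, by omega, rfl⟩

lemma tau_arc2 {c : Zk k → V} (hc : Function.Injective c) :
    ∀ v ∈ arc2 c, tauPerm hc v ∈ arc1 c := by
  intro v hv
  simp only [arc2, Finset.mem_image, Finset.mem_range] at hv
  obtain ⟨j, hj, rfl⟩ := hv
  rw [tauPerm_apply, tauFun_c hc, neg_arc2 hj]
  simp only [arc1, Finset.mem_image, Finset.mem_range]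
  exact ⟨k - 1 - j, by omega, rfl⟩

lemma tau_fix {c : Zk k → V} (hc : Function.Injective c) :
    ∀ v, v ∉ arc1 c → v ∉ arc2 c → tauPerm hc v = v := by
  intro v h1 h2
  rw [tauPerm_apply]
  by_cases h : ∃ i, c i = v
  · obtain ⟨i, rfl⟩ := h
    rw [tauFun_c hc]
    have hi := val_lt i
    by_cases h0 : i.val = 0
    · have : i = 0 := by rw [← bp_val i, h0, bp_zero]
      simp [this]
    by_cases hk1 : i.val = k + 1
    · have : i = bp k (k + 1) := by rw [← hk1, bp_val]
      rw [this, neg_bp_of_add (a := k + 1) (b := k + 1) (by omega)]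
    by_cases hlt : i.val < k + 1
    · exfalso
      apply h1
      simp only [arc1, Finset.mem_image, Finset.mem_range]
      refine ⟨i.val - 1, by omega, ?_⟩
      have : i.val - 1 + 1 = i.val := by omega
      rw [this, bp_val]
    · exfalso
      apply h2
      simp only [arc2, Finset.mem_image, Finset.mem_range]
      refine ⟨i.val - (k + 2), by omega, ?_⟩
      have : k + 1 + (i.val - (k + 2) + 1) = i.val := by omega
      rw [this, bp_val]
  · exact tauFun_not h


/-- First half of the cycle integrand. -/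
noncomputable def fArc (U : Ω → Ω → ℝ) (c : Zk k → V) (w : Zk k → Ω → ℝ) (x : V → Ω) : ℝ :=
  (∏ j ∈ Finset.range k, w (bp k (j + 1)) (x (c (bp k (j + 1)))))
    * ∏ j ∈ Finset.range (k + 1), U (x (c (bp k j))) (x (c (bp k j + 1)))

/-- Second half of the cycle integrand. -/
noncomputable def gArc (U : Ω → Ω → ℝ) (c : Zk k → V) (w : Zk k → Ω → ℝ) (x : V → Ω) : ℝ :=
  (∏ j ∈ Finset.range k, w (bp k (k + 1 + (j + 1))) (x (c (bp k (k + 1 + (j + 1))))))
    * ∏ j ∈ Finset.range (k + 1), U (x (c (bp k (k + 1 + j)))) (x (c (bp k (k + 1 + j) + 1)))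

noncomputable def thetaArc (c : Zk k → V) (w : Zk k → Ω → ℝ) (x : V → Ω) : ℝ :=
  w (bp k 0) (x (c (bp k 0))) * w (bp k (k + 1)) (x (c (bp k (k + 1))))

lemma cyc_decomp (U : Ω → Ω → ℝ) (c : Zk k → V) (w : Zk k → Ω → ℝ) (x : V → Ω) :
    (∏ i, w i (x (c i))) * (∏ i, U (x (c i)) (x (c (i + 1))))
      = thetaArc c w x * fArc U c w x * gArc U c w x := by
  rw [prod_split (fun i => w i (x (c i))), prod_split_half (fun i => U (x (c i)) (x (c (i + 1))))]
  simp only [thetaArc, fArc, gArc]
  ring

lemma fArc_bm {U : Ω → Ω → ℝ} (hU : GoodKernel U) (c : Zk k → V) {w : Zk k → Ω → ℝ}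
    (hw : ∀ i, GoodW (w i)) : BM (fArc U c w) := by
  refine BM.mul (BM.finset_prod _ fun j _ => (hw _).bm _) (BM.finset_prod _ fun j _ => hU.bm _ _)

lemma gArc_bm {U : Ω → Ω → ℝ} (hU : GoodKernel U) (c : Zk k → V) {w : Zk k → Ω → ℝ}
    (hw : ∀ i, GoodW (w i)) : BM (gArc U c w) := by
  refine BM.mul (BM.finset_prod _ fun j _ => (hw _).bm _) (BM.finset_prod _ fun j _ => hU.bm _ _)

lemma thetaArc_bm (c : Zk k → V) {w : Zk k → Ω → ℝ} (hw : ∀ i, GoodW (w i)) :
    BM (thetaArc c w) := BM.mul ((hw _).bm _) ((hw _).bm _)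

lemma thetaArc_le (c : Zk k → V) {w : Zk k → Ω → ℝ} (hw : ∀ i, GoodW (w i)) (x : V → Ω) :
    |thetaArc c w x| ≤ 1 := by
  unfold thetaArc
  rw [abs_mul]
  exact mul_le_one₀ ((hw _).2 _) (abs_nonneg _) ((hw _).2 _)

lemma fArc_indep {U : Ω → Ω → ℝ} {c : Zk k → V} (hc : Function.Injective c) (w : Zk k → Ω → ℝ) :
    Indep (arc2 c) (fArc U c w) := by
  intro x y
  unfold fArc
  congr 1
  · refine Finset.prod_congr rfl fun j hj => ?_
    rw [merge_of_not_mem (not_mem_arc2 hc (by have := Finset.mem_range.mp hj; omega))]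
  · refine Finset.prod_congr rfl fun j hj => ?_
    have hj' := Finset.mem_range.mp hj
    rw [merge_of_not_mem (not_mem_arc2 hc (by omega)), ← bp_succ,
      merge_of_not_mem (not_mem_arc2 hc (by omega))]

lemma gArc_indep {U : Ω → Ω → ℝ} {c : Zk k → V} (hc : Function.Injective c) (w : Zk k → Ω → ℝ) :
    Indep (arc1 c) (gArc U c w) := by
  intro x y
  unfold gArc
  congr 1
  · refine Finset.prod_congr rfl fun j hj => ?_
    have hj' := Finset.mem_range.mp hj
    rw [merge_of_not_mem (not_mem_arc1 hc (by omega) (by omega))]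
  · refine Finset.prod_congr rfl fun j hj => ?_
    have hj' := Finset.mem_range.mp hj
    rw [merge_of_not_mem (not_mem_arc1 hc (by omega) (by omega)), ← bp_succ,
      merge_of_not_mem (not_mem_arc1 hc (by omega) (by omega))]

lemma zero_not_mem_arc1 {c : Zk k → V} (hc : Function.Injective c) : c (bp k 0) ∉ arc1 c := by
  rw [bp_zero, ← bp_top]
  exact not_mem_arc1 hc (by omega) le_rfl

lemma thetaArc_indep1 {c : Zk k → V} (hc : Function.Injective c) (w : Zk k → Ω → ℝ) :
    Indep (arc1 c) (thetaArc c w) := by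
  intro x y
  unfold thetaArc
  rw [merge_of_not_mem (zero_not_mem_arc1 hc),
    merge_of_not_mem (not_mem_arc1 hc le_rfl (by omega))]

lemma thetaArc_indep2 {c : Zk k → V} (hc : Function.Injective c) (w : Zk k → Ω → ℝ) :
    Indep (arc2 c) (thetaArc c w) := by
  intro x y
  unfold thetaArc
  rw [merge_of_not_mem (not_mem_arc2 hc (by omega)),
    merge_of_not_mem (not_mem_arc2 hc le_rfl)]

lemma comp_tau {c : Zk k → V} (hc : Function.Injective c) (x : V → Ω) (i : Zk k) :
    (x ∘ tauPerm hc) (c i) = x (c (-i)) := by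
  simp only [Function.comp, tauPerm_apply, tauFun_c hc]

lemma fArc_reflect {U : Ω → Ω → ℝ} (hU : GoodKernel U) {c : Zk k → V}
    (hc : Function.Injective c) (w : Zk k → Ω → ℝ) (x : V → Ω) :
    fArc U c w (x ∘ tauPerm hc)
      = (∏ j ∈ Finset.range k, w (- bp k (k + 1 + (j + 1))) (x (c (bp k (k + 1 + (j + 1))))))
        * ∏ j ∈ Finset.range (k + 1), U (x (c (bp k (k + 1 + j)))) (x (c (bp k (k + 1 + j) + 1))) := by
  unfold fArc
  simp only [comp_tau hc]
  congr 1
  · rw [← Finset.prod_range_reflect (fun j => w (- bp k (k + 1 + (j + 1))) (x (c (bp k (k + 1 + (j + 1))))))]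
    refine Finset.prod_congr rfl fun j hj => ?_
    have hj' := Finset.mem_range.mp hj
    have h1 := neg_arc1 hj'
    rw [← h1, neg_neg]
  · rw [← Finset.prod_range_reflect (fun j => U (x (c (bp k (k + 1 + j)))) (x (c (bp k (k + 1 + j) + 1))))]
    refine Finset.prod_congr rfl fun j hj => ?_
    have hj' := Finset.mem_range.mp hj
    have h1 : bp k (k + 1 + (k + 1 - 1 - j)) = - bp k (j + 1) := by
      symm; apply neg_bp_of_add; omega
    have h2 : bp k (k + 1 + (k + 1 - 1 - j)) + 1 = - bp k j := by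
      rw [← bp_succ]
      symm; apply neg_bp_of_add; omega
    rw [h2, h1, ← bp_succ, hU.symm]

lemma gArc_reflect {U : Ω → Ω → ℝ} (hU : GoodKernel U) {c : Zk k → V}
    (hc : Function.Injective c) (w : Zk k → Ω → ℝ) (x : V → Ω) :
    gArc U c w (x ∘ tauPerm hc)
      = (∏ j ∈ Finset.range k, w (- bp k (j + 1)) (x (c (bp k (j + 1)))))
        * ∏ j ∈ Finset.range (k + 1), U (x (c (bp k j))) (x (c (bp k j + 1))) := by
  unfold gArc
  simp only [comp_tau hc]
  congr 1
  · rw [← Finset.prod_range_reflect (fun j => w (- bp k (j + 1)) (x (c (bp k (j + 1)))))]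
    refine Finset.prod_congr rfl fun j hj => ?_
    have hj' := Finset.mem_range.mp hj
    have h1 := neg_arc2 hj'
    rw [← h1, neg_neg]
  · rw [← Finset.prod_range_reflect (fun j => U (x (c (bp k j))) (x (c (bp k j + 1))))]
    refine Finset.prod_congr rfl fun j hj => ?_
    have hj' := Finset.mem_range.mp hj
    have h1 : bp k (k + 1 - 1 - j) = - bp k (k + 1 + j + 1) := by
      symm; apply neg_bp_of_add; omega
    have h2 : bp k (k + 1 - 1 - j) + 1 = - bp k (k + 1 + j) := by
      rw [← bp_succ]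
      symm; apply neg_bp_of_add; omega
    rw [h2, h1, ← bp_succ, hU.symm]

lemma val_arc1 {j : ℕ} (hj : j < k) : (bp k (j + 1)).val = j + 1 := val_bp (by omega)

lemma val_arc2 {j : ℕ} (hj : j < k) : (bp k (k + 1 + (j + 1))).val = k + 1 + (j + 1) :=
  val_bp (by omega)

lemma prod_refl1 (w : Zk k → Ω → ℝ) (x : V → Ω) (c : Zk k → V) :
    ∏ i, refl1 w i (x (c i)) =
      (∏ j ∈ Finset.range k, w (bp k (j + 1)) (x (c (bp k (j + 1)))))
        * ∏ j ∈ Finset.range k, w (- bp k (k + 1 + (j + 1))) (x (c (bp k (k + 1 + (j + 1))))) := by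
  rw [prod_split]
  have h0 : refl1 w (bp k 0) (x (c (bp k 0))) = 1 := by
    simp [refl1, bp_zero]
  have h1 : refl1 w (bp k (k + 1)) (x (c (bp k (k + 1)))) = 1 := by
    simp [refl1, val_bp (a := k + 1) (k := k) (by omega)]
  rw [h0, h1, one_mul, mul_one]
  congr 1
  · refine Finset.prod_congr rfl fun j hj => ?_
    have hj' := Finset.mem_range.mp hj
    have hv := val_arc1 hj'
    have : refl1 w (bp k (j + 1)) = w (bp k (j + 1)) := by
      unfold refl1
      rw [hv, if_neg (by omega), if_pos (by omega)]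
    rw [this]
  · refine Finset.prod_congr rfl fun j hj => ?_
    have hj' := Finset.mem_range.mp hj
    have hv := val_arc2 hj'
    have : refl1 w (bp k (k + 1 + (j + 1))) = w (- bp k (k + 1 + (j + 1))) := by
      unfold refl1
      rw [hv, if_neg (by omega), if_neg (by omega)]
    rw [this]

lemma prod_refl2 (w : Zk k → Ω → ℝ) (x : V → Ω) (c : Zk k → V) :
    ∏ i, refl2 w i (x (c i)) =
      (∏ j ∈ Finset.range k, w (bp k (k + 1 + (j + 1))) (x (c (bp k (k + 1 + (j + 1))))))
        * ∏ j ∈ Finset.range k, w (- bp k (j + 1)) (x (c (bp k (j + 1)))) := by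
  rw [prod_split]
  have h0 : refl2 w (bp k 0) (x (c (bp k 0))) = 1 := by
    simp [refl2, bp_zero]
  have h1 : refl2 w (bp k (k + 1)) (x (c (bp k (k + 1)))) = 1 := by
    simp [refl2, val_bp (a := k + 1) (k := k) (by omega)]
  rw [h0, h1, one_mul, mul_one, mul_comm]
  congr 1
  · refine Finset.prod_congr rfl fun j hj => ?_
    have hj' := Finset.mem_range.mp hj
    have hv := val_arc2 hj'
    have : refl2 w (bp k (k + 1 + (j + 1))) = w (bp k (k + 1 + (j + 1))) := by
      unfold refl2
      rw [hv, if_neg (by omega), if_neg (by omega)]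
    rw [this]
  · refine Finset.prod_congr rfl fun j hj => ?_
    have hj' := Finset.mem_range.mp hj
    have hv := val_arc1 hj'
    have : refl2 w (bp k (j + 1)) = w (- bp k (j + 1)) := by
      unfold refl2
      rw [hv, if_neg (by omega), if_pos (by omega)]
    rw [this]

lemma fArc_self_reflect {U : Ω → Ω → ℝ} (hU : GoodKernel U) {c : Zk k → V}
    (hc : Function.Injective c) (w : Zk k → Ω → ℝ) (x : V → Ω) :
    fArc U c w x * fArc U c w (x ∘ tauPerm hc)
      = (∏ i, refl1 w i (x (c i))) * ∏ i, U (x (c i)) (x (c (i + 1))) := by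
  rw [fArc_reflect hU hc, prod_refl1, prod_split_half (fun i => U (x (c i)) (x (c (i + 1))))]
  simp only [fArc]
  ring

lemma gArc_self_reflect {U : Ω → Ω → ℝ} (hU : GoodKernel U) {c : Zk k → V}
    (hc : Function.Injective c) (w : Zk k → Ω → ℝ) (x : V → Ω) :
    gArc U c w x * gArc U c w (x ∘ tauPerm hc)
      = (∏ i, refl2 w i (x (c i))) * ∏ i, U (x (c i)) (x (c (i + 1))) := by
  rw [gArc_reflect hU hc, prod_refl2, prod_split_half (fun i => U (x (c i)) (x (c (i + 1))))]
  simp only [gArc]
  ring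

/-- Reflection positivity for the cycle at position zero. -/
lemma cycle_rp0 {U : Ω → Ω → ℝ} (hU : GoodKernel U) {c : Zk k → V}
    (hc : Function.Injective c) {w : Zk k → Ω → ℝ} (hw : ∀ i, GoodW (w i)) :
    (cycT μ U c w) ^ 2 ≤ cycT μ U c (refl1 w) * cycT μ U c (refl2 w)
      ∧ 0 ≤ cycT μ U c (refl1 w) ∧ 0 ≤ cycT μ U c (refl2 w) := by
  have hd := arcs_disjoint hc
  have h1 : cycT μ U c (refl1 w) = ∫ x, fArc U c w x * fArc U c w (x ∘ tauPerm hc) ∂(piM μ V) := by
    unfold cycT
    congr 1
    ext x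
    rw [fArc_self_reflect hU hc]
  have h2 : cycT μ U c (refl2 w) = ∫ x, gArc U c w x * gArc U c w (x ∘ tauPerm hc) ∂(piM μ V) := by
    unfold cycT
    congr 1
    ext x
    rw [gArc_self_reflect hU hc]
  have h3 : cycT μ U c w = ∫ x, thetaArc c w x * fArc U c w x * gArc U c w x ∂(piM μ V) := by
    unfold cycT
    congr 1
    ext x
    rw [cyc_decomp]
  have hinv : ∀ v, tauPerm hc (tauPerm hc v) = v := fun v => tauFun_invol hc v
  refine ⟨?_, ?_, ?_⟩
  · rw [h1, h2, h3]
    exact reflection μ hd (tauPerm hc) hinv (tau_arc1 hc) (tau_arc2 hc) (tau_fix hc)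
      (thetaArc_bm c hw) (fArc_bm hU c hw) (gArc_bm hU c hw) (thetaArc_indep1 hc w)
      (thetaArc_indep2 hc w) (fArc_indep hc w) (gArc_indep hc w) (thetaArc_le c hw)
  · rw [h1, integral_mul_reflect μ hd (tauPerm hc) hinv (tau_arc1 hc) (tau_arc2 hc) (tau_fix hc)
      (fArc_bm hU c hw) (fArc_indep hc w)]
    exact integral_nonneg fun x => sq_nonneg _
  · rw [h2, integral_mul_reflect μ hd.symm (tauPerm hc) hinv (tau_arc2 hc) (tau_arc1 hc)
      (fun i h1 h2 => tau_fix hc i h2 h1) (gArc_bm hU c hw) (gArc_indep hc w)]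
    exact integral_nonneg fun x => sq_nonneg _


lemma cycT_rotate (U : Ω → Ω → ℝ) (c : Zk k → V) (w : Zk k → Ω → ℝ) (p : Zk k) :
    cycT μ U c w = cycT μ U (fun i => c (i + p)) (fun i => w (i + p)) := by
  unfold cycT
  congr 1
  ext x
  congr 1
  · exact (Equiv.prod_comp (Equiv.addRight p) (fun i => w i (x (c i)))).symm
  · have := (Equiv.prod_comp (Equiv.addRight p) (fun i => U (x (c i)) (x (c (i + 1))))).symm
    refine this.trans ?_
    refine Finset.prod_congr rfl fun i _ => ?_
    simp only [Equiv.coe_addRight]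
    rw [add_right_comm]

/-- Interpretation of an assignment of weights. -/
def interp (w : Zk k → Ω → ℝ) (a : Zk k → Option (Zk k)) : Zk k → Ω → ℝ := fun i =>
  match a i with
  | none => fun _ => 1
  | some j => w j

lemma interp_good {w : Zk k → Ω → ℝ} (hw : ∀ i, GoodW (w i)) (a : Zk k → Option (Zk k))
    (i : Zk k) : GoodW (interp w a i) := by
  unfold interp
  cases a i with
  | none => exact GoodW.one
  | some j => exact hw j

def refl1a (a : Zk k → Option (Zk k)) : Zk k → Option (Zk k) := fun i =>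
  if i.val = 0 ∨ i.val = k + 1 then none else if i.val < k + 1 then a i else a (-i)

def refl2a (a : Zk k → Option (Zk k)) : Zk k → Option (Zk k) := fun i =>
  if i.val = 0 ∨ i.val = k + 1 then none else if i.val < k + 1 then a (-i) else a i

lemma interp_refl1 (w : Zk k → Ω → ℝ) (a : Zk k → Option (Zk k)) :
    interp w (refl1a a) = refl1 (interp w a) := by
  ext i r
  unfold interp refl1 refl1a
  split_ifs <;> rfl

lemma interp_refl2 (w : Zk k → Ω → ℝ) (a : Zk k → Option (Zk k)) :
    interp w (refl2a a) = refl2 (interp w a) := by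
  ext i r
  unfold interp refl2 refl2a
  split_ifs <;> rfl

/-- Number of trivial positions. -/
def nTriv (a : Zk k → Option (Zk k)) : ℕ := ∑ i, if a i = none then 1 else 0

lemma nTriv_rotate (a : Zk k → Option (Zk k)) (p : Zk k) :
    nTriv (fun i => a (i + p)) = nTriv a := by
  unfold nTriv
  exact Equiv.sum_comp (Equiv.addRight p) (fun i => if a i = none then 1 else 0)

lemma nTriv_refl (a : Zk k → Option (Zk k)) (h0 : a 0 ≠ none) :
    2 * nTriv a + 2 ≤ nTriv (refl1a a) + nTriv (refl2a a) := by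
  set n : Zk k → ℕ := fun i => if a i = none then 1 else 0 with hn
  have h0' : n (bp k 0) = 0 := by simp [hn, bp_zero, h0]
  have hk : n (bp k (k + 1)) ≤ 1 := by simp only [hn]; split_ifs <;> omega
  have e0 : nTriv a = n (bp k 0) + (∑ j ∈ Finset.range k, n (bp k (j + 1))) + n (bp k (k + 1))
      + ∑ j ∈ Finset.range k, n (bp k (k + 1 + (j + 1))) := sum_split n
  have r1 : ∑ j ∈ Finset.range k, n (- bp k (k + 1 + (j + 1)))
      = ∑ j ∈ Finset.range k, n (bp k (j + 1)) := by
    rw [← Finset.sum_range_reflect (fun j => n (- bp k (k + 1 + (j + 1))))]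
    refine Finset.sum_congr rfl fun j hj => ?_
    have hj' := Finset.mem_range.mp hj
    rw [← neg_arc1 hj', neg_neg]
  have r2 : ∑ j ∈ Finset.range k, n (- bp k (j + 1))
      = ∑ j ∈ Finset.range k, n (bp k (k + 1 + (j + 1))) := by
    rw [← Finset.sum_range_reflect (fun j => n (- bp k (j + 1)))]
    refine Finset.sum_congr rfl fun j hj => ?_
    have hj' := Finset.mem_range.mp hj
    rw [← neg_arc2 hj', neg_neg]
  have e1 : nTriv (refl1a a) = 2 + (∑ j ∈ Finset.range k, n (bp k (j + 1)))
      + ∑ j ∈ Finset.range k, n (- bp k (k + 1 + (j + 1))) := by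
    unfold nTriv
    rw [sum_split]
    have a0 : refl1a a (bp k 0) = none := by simp [refl1a, bp_zero]
    have a1 : refl1a a (bp k (k + 1)) = none := by
      simp [refl1a, val_bp (a := k + 1) (k := k) (by omega)]
    have s1 : ∑ j ∈ Finset.range k, (if refl1a a (bp k (j + 1)) = none then 1 else 0)
        = ∑ j ∈ Finset.range k, n (bp k (j + 1)) := by
      refine Finset.sum_congr rfl fun j hj => ?_
      have hj' := Finset.mem_range.mp hj
      have hv := val_arc1 hj'
      have : refl1a a (bp k (j + 1)) = a (bp k (j + 1)) := by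
        unfold refl1a
        rw [hv, if_neg (by omega), if_pos (by omega)]
      rw [this]
    have s2 : ∑ j ∈ Finset.range k, (if refl1a a (bp k (k + 1 + (j + 1))) = none then 1 else 0)
        = ∑ j ∈ Finset.range k, n (- bp k (k + 1 + (j + 1))) := by
      refine Finset.sum_congr rfl fun j hj => ?_
      have hj' := Finset.mem_range.mp hj
      have hv := val_arc2 hj'
      have : refl1a a (bp k (k + 1 + (j + 1))) = a (- bp k (k + 1 + (j + 1))) := by
        unfold refl1a
        rw [hv, if_neg (by omega), if_neg (by omega)]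
      rw [this]
    rw [s1, s2, a0, a1]
    simp only [if_true]
    omega
  have e2 : nTriv (refl2a a) = 2 + (∑ j ∈ Finset.range k, n (- bp k (j + 1)))
      + ∑ j ∈ Finset.range k, n (bp k (k + 1 + (j + 1))) := by
    unfold nTriv
    rw [sum_split]
    have a0 : refl2a a (bp k 0) = none := by simp [refl2a, bp_zero]
    have a1 : refl2a a (bp k (k + 1)) = none := by
      simp [refl2a, val_bp (a := k + 1) (k := k) (by omega)]
    have s1 : ∑ j ∈ Finset.range k, (if refl2a a (bp k (j + 1)) = none then 1 else 0)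
        = ∑ j ∈ Finset.range k, n (- bp k (j + 1)) := by
      refine Finset.sum_congr rfl fun j hj => ?_
      have hj' := Finset.mem_range.mp hj
      have hv := val_arc1 hj'
      have : refl2a a (bp k (j + 1)) = a (- bp k (j + 1)) := by
        unfold refl2a
        rw [hv, if_neg (by omega), if_pos (by omega)]
      rw [this]
    have s2 : ∑ j ∈ Finset.range k, (if refl2a a (bp k (k + 1 + (j + 1))) = none then 1 else 0)
        = ∑ j ∈ Finset.range k, n (bp k (k + 1 + (j + 1))) := by
      refine Finset.sum_congr rfl fun j hj => ?_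
      have hj' := Finset.mem_range.mp hj
      have hv := val_arc2 hj'
      have : refl2a a (bp k (k + 1 + (j + 1))) = a (bp k (k + 1 + (j + 1))) := by
        unfold refl2a
        rw [hv, if_neg (by omega), if_neg (by omega)]
      rw [this]
    rw [s1, s2, a0, a1]
    simp only [if_true]
    omega
  rw [e1, e2, r1, r2, e0, h0']
  omega

/-- One step of the chessboard argument at an arbitrary position. -/
lemma chess_step {U : Ω → Ω → ℝ} (hU : GoodKernel U) {c : Zk k → V}
    (hc : Function.Injective c) {w : Zk k → Ω → ℝ} (hw : ∀ i, GoodW (w i))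
    (a : Zk k → Option (Zk k)) (p : Zk k) (hp : a p ≠ none) :
    ∃ a₁ a₂ : Zk k → Option (Zk k),
      (cycT μ U c (interp w a)) ^ 2 ≤ cycT μ U c (interp w a₁) * cycT μ U c (interp w a₂)
      ∧ 0 ≤ cycT μ U c (interp w a₁) ∧ 0 ≤ cycT μ U c (interp w a₂)
      ∧ 2 * nTriv a + 2 ≤ nTriv a₁ + nTriv a₂ := by
  set a' : Zk k → Option (Zk k) := fun i => a (i + p) with ha'
  set c' : Zk k → V := fun i => c (i + p) with hc'
  have hc'i : Function.Injective c' := hc.comp (add_left_injective p)
  have hw' : ∀ i, GoodW (interp w a' i) := interp_good hw a'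
  have key := cycle_rp0 μ hU hc'i hw'
  have hrot : ∀ b : Zk k → Option (Zk k), cycT μ U c' (interp w b)
      = cycT μ U c (interp w (fun i => b (i - p))) := by
    intro b
    rw [cycT_rotate μ U c (interp w (fun i => b (i - p))) p]
    congr 1
    ext i r
    simp [interp]
  have h0 : cycT μ U c (interp w a) = cycT μ U c' (interp w a') := by
    rw [cycT_rotate μ U c (interp w a) p]
    rfl
  refine ⟨fun i => refl1a a' (i - p), fun i => refl2a a' (i - p), ?_, ?_, ?_, ?_⟩
  · rw [h0, ← hrot, ← hrot, interp_refl1, interp_refl2]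
    exact key.1
  · rw [← hrot, interp_refl1]; exact key.2.1
  · rw [← hrot, interp_refl2]; exact key.2.2
  · have h1 : nTriv (fun i => refl1a a' (i - p)) = nTriv (refl1a a') := by
      have := nTriv_rotate (fun i => refl1a a' (i - p)) p
      simpa using this.symm
    have h2 : nTriv (fun i => refl2a a' (i - p)) = nTriv (refl2a a') := by
      have := nTriv_rotate (fun i => refl2a a' (i - p)) p
      simpa using this.symm
    have h3 : nTriv a' = nTriv a := nTriv_rotate a p
    rw [h1, h2, ← h3]
    exact nTriv_refl a' (by simpa [ha'] using hp)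

lemma cycT_one_nonneg {U : Ω → Ω → ℝ} (hU : GoodKernel U) {c : Zk k → V}
    (hc : Function.Injective c) : 0 ≤ cycT μ U c (fun _ _ => 1) := by
  have h := (cycle_rp0 μ hU hc (w := fun _ _ => 1) (fun _ => GoodW.one)).2.1
  have e : refl1 (k := k) (fun _ (_ : Ω) => (1 : ℝ)) = fun _ _ => 1 := by
    ext i r
    unfold refl1
    split_ifs <;> rfl
  rwa [e] at h

/-- The cyclic Holder inequality. -/
theorem cycle_holder {U : Ω → Ω → ℝ} (hU : GoodKernel U) {c : Zk k → V}
    (hc : Function.Injective c) {w : Zk k → Ω → ℝ} (hw : ∀ i, GoodW (w i)) :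
    |cycT μ U c w| ≤ cycT μ U c (fun _ _ => 1) := by
  classical
  have hone : ∀ a : Zk k → Option (Zk k), (∀ i, a i = none) →
      cycT μ U c (interp w a) = cycT μ U c (fun _ _ => 1) := by
    intro a ha
    congr 1
    ext i r
    simp [interp, ha i]
  have hnn := cycT_one_nonneg μ hU hc
  -- the maximal value
  obtain ⟨a₀, -, ha₀⟩ := Finset.exists_max_image (Finset.univ : Finset (Zk k → Option (Zk k)))
    (fun a => |cycT μ U c (interp w a)|) ⟨fun _ => none, Finset.mem_univ _⟩
  set M := |cycT μ U c (interp w a₀)| with hM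
  have hMle : ∀ a, |cycT μ U c (interp w a)| ≤ M := fun a => ha₀ a (Finset.mem_univ _)
  have hwa : cycT μ U c w = cycT μ U c (interp w (fun i => some i)) := by
    congr 1
  rw [hwa]
  by_cases hM0 : M = 0
  · have := hMle (fun i => some i)
    rw [hM0] at this
    linarith
  have hMpos : 0 < M := lt_of_le_of_ne (abs_nonneg _) (Ne.symm hM0)
  -- among the maximisers take one with most trivial positions
  obtain ⟨a₁, ha₁mem, ha₁⟩ := Finset.exists_max_image
    ((Finset.univ : Finset (Zk k → Option (Zk k))).filter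
      fun a => |cycT μ U c (interp w a)| = M) nTriv
    ⟨a₀, by simp [hM]⟩
  have ha₁M : |cycT μ U c (interp w a₁)| = M := (Finset.mem_filter.mp ha₁mem).2
  have hall : ∀ i, a₁ i = none := by
    by_contra hne
    push Not at hne
    obtain ⟨p, hp⟩ := hne
    obtain ⟨b₁, b₂, h1, h2, h3, h4⟩ := chess_step μ hU hc hw a₁ p hp
    have hb₁ := hMle b₁
    have hb₂ := hMle b₂
    rw [abs_of_nonneg h2] at hb₁
    rw [abs_of_nonneg h3] at hb₂
    have hsq : M ^ 2 = (cycT μ U c (interp w a₁)) ^ 2 := by rw [← ha₁M, sq_abs]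
    have hprod : M ^ 2 ≤ cycT μ U c (interp w b₁) * cycT μ U c (interp w b₂) := by
      rw [hsq]; exact h1
    have he₁ : cycT μ U c (interp w b₁) = M := by
      apply le_antisymm hb₁
      by_contra hlt
      push Not at hlt
      have : cycT μ U c (interp w b₁) * cycT μ U c (interp w b₂) < M * M :=
        calc _ ≤ cycT μ U c (interp w b₁) * M := mul_le_mul_of_nonneg_left hb₂ h2
          _ < M * M := mul_lt_mul_of_pos_right hlt hMpos
      nlinarith
    have he₂ : cycT μ U c (interp w b₂) = M := by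
      apply le_antisymm hb₂
      by_contra hlt
      push Not at hlt
      have : cycT μ U c (interp w b₁) * cycT μ U c (interp w b₂) < M * M :=
        calc _ ≤ M * cycT μ U c (interp w b₂) := mul_le_mul_of_nonneg_right hb₁ h3
          _ < M * M := mul_lt_mul_of_pos_left hlt hMpos
      nlinarith
    have hm₁ := ha₁ b₁ (by simp [he₁, abs_of_pos hMpos])
    have hm₂ := ha₁ b₂ (by simp [he₂, abs_of_pos hMpos])
    omega
  have hfinal : M = cycT μ U c (fun _ _ => 1) := by
    rw [← ha₁M, hone a₁ hall, abs_of_nonneg hnn]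
  rw [← hfinal]
  exact hMle _

/-- Scaled form of the cyclic Holder inequality. -/
theorem cycle_holder_scaled {U : Ω → Ω → ℝ} (hU : GoodKernel U) {c : Zk k → V}
    (hc : Function.Injective c) {φ : Zk k → Ω → ℝ} {m : Zk k → ℝ}
    (hm : ∀ i, 0 < m i) (hφm : ∀ i, Measurable (φ i)) (hφ : ∀ i r, |φ i r| ≤ m i) :
    |cycT μ U c φ| ≤ (∏ i, m i) * cycT μ U c (fun _ _ => 1) := by
  have hw : ∀ i, GoodW (fun r => φ i r / m i) := fun i =>
    ⟨(hφm i).div_const _, fun r => by
      rw [abs_div, abs_of_pos (hm i), div_le_one (hm i)]; exact hφ i r⟩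
  have key := cycle_holder μ hU hc hw
  have e : cycT μ U c φ = (∏ i, m i) * cycT μ U c (fun i r => φ i r / m i) := by
    unfold cycT
    rw [← integral_const_mul]
    have e1 : ∀ x : V → Ω, (∏ i, φ i (x (c i))) * (∏ i, U (x (c i)) (x (c (i + 1))))
        = (∏ i, m i) * ((∏ i, φ i (x (c i)) / m i) * (∏ i, U (x (c i)) (x (c (i + 1))))) := by
      intro x
      rw [← mul_assoc]
      congr 1
      rw [← Finset.prod_mul_distrib]
      refine Finset.prod_congr rfl fun i _ => ?_
      field_simp [(hm i).ne']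
    simp_rw [e1]
  have hprod : 0 < ∏ i, m i := Finset.prod_pos fun i _ => hm i
  rw [e, abs_mul, abs_of_pos hprod]
  exact mul_le_mul_of_nonneg_left key hprod.le

end cycle

end Vale.Agent.Lib.P050
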