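import Vale.Agent.Lib.P050.Explore

/-!
# Cycles in edge sets, given by lists of vertices
-/

set_option linter.unusedSectionVars false

namespace Vale.Agent.Lib.P050

open Finset

variable {V : Type*} [Fintype V] [DecidableEq V]

/-- The edges between consecutive elements of a list. -/
def pathEdges : List V → List (Sym2 V)
  | a :: b :: t => s(a, b) :: pathEdges (b :: t)
  | _ => []

@[simp] lemma pathEdges_nil : pathEdges ([] : List V) = [] := rfl
@[simp] lemma pathEdges_single (a : V) : pathEdges [a] = [] := rfl
@[simp] lemma pathEdges_cons_cons (a b : V) (t : List V) :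
    pathEdges (a :: b :: t) = s(a, b) :: pathEdges (b :: t) := rfl

lemma pathEdges_verts {l : List V} {e : Sym2 V} (he : e ∈ pathEdges l) {x : V} (hx : x ∈ e) :
    x ∈ l := by
  induction l with
  | nil => simp at he
  | cons a t ih =>
    cases t with
    | nil => simp at he
    | cons b t' =>
      simp only [pathEdges_cons_cons, List.mem_cons] at he
      rcases he with rfl | he
      · simp only [Sym2.mem_iff] at hx
        rcases hx with rfl | rfl <;> simp
      · exact List.mem_cons_of_mem _ (ih he)

lemma pathEdges_append (l₁ : List V) (x : V) (l₂ : List V) :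
    pathEdges (l₁ ++ x :: l₂) = pathEdges (l₁ ++ [x]) ++ pathEdges (x :: l₂) := by
  induction l₁ with
  | nil => simp
  | cons a t ih =>
    cases t with
    | nil => simp
    | cons b t' =>
      simp only [List.cons_append, pathEdges_cons_cons, List.cons_append] at ih ⊢
      rw [ih]

lemma pathEdges_reverse_mem {l : List V} {e : Sym2 V} (he : e ∈ pathEdges l.reverse) :
    e ∈ pathEdges l := by
  induction l with
  | nil => simp at he
  | cons a t ih =>
    cases t with
    | nil => simp at he
    | cons b t' =>
      have h1 : (a :: b :: t').reverse = (b :: t').reverse ++ [a] := by simp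
      have h2 : (b :: t').reverse = t'.reverse ++ [b] := by simp
      rw [h1, h2, List.append_assoc, List.singleton_append, pathEdges_append, ] at he
      simp only [pathEdges_cons_cons, pathEdges_single, List.mem_append, List.mem_cons,
        List.not_mem_nil, or_false] at he
      simp only [pathEdges_cons_cons, List.mem_cons]
      rcases he with he | he
      · right
        apply ih
        rw [h2]
        exact he
      · left
        rw [he, Sym2.eq_swap]

lemma pathEdges_nodup {l : List V} (h : l.Nodup) : (pathEdges l).Nodup := by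
  induction l with
  | nil => simp
  | cons a t ih =>
    cases t with
    | nil => simp
    | cons b t' =>
      simp only [pathEdges_cons_cons, List.nodup_cons]
      refine ⟨fun hc => ?_, ih (List.nodup_cons.mp h).2⟩
      exact (List.nodup_cons.mp h).1 (pathEdges_verts hc (by simp))

lemma pathEdges_length (l : List V) : (pathEdges l).length = l.length - 1 := by
  induction l with
  | nil => simp
  | cons a t ih =>
    cases t with
    | nil => simp
    | cons b t' =>
      simp only [pathEdges_cons_cons, List.length_cons] at ih ⊢
      rw [ih]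
      omega

/-- An edge at the head of a duplicate-free list is the first edge. -/
lemma pathEdges_head_edge {x y : V} {l : List V} (h : (x :: y :: l).Nodup) {e : Sym2 V}
    (he : e ∈ pathEdges (x :: y :: l)) (hx : x ∈ e) : e = s(x, y) := by
  simp only [pathEdges_cons_cons, List.mem_cons] at he
  rcases he with he | he
  · exact he
  · exact absurd (pathEdges_verts he hx) (List.nodup_cons.mp h).1

lemma mem_reach_of_path {F : Finset (Sym2 V)} {a : V} {l : List V}
    (h : ∀ e ∈ pathEdges (a :: l), e ∈ F) {x : V} (hx : x ∈ a :: l) : Reach F a x := by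
  induction l generalizing a with
  | nil =>
    simp only [List.mem_singleton] at hx
    subst hx
    exact Reach.refl _ _
  | cons b t ih =>
    simp only [List.mem_cons] at hx
    rcases hx with rfl | hx
    · exact Reach.refl _ _
    · have h1 : s(a, b) ∈ F := h _ (by simp)
      have h2 : ∀ e ∈ pathEdges (b :: t), e ∈ F := fun e he => h e (by simp [he])
      have h3 : Reach F b x := ih h2 (by simpa using hx)
      exact (Relation.ReflTransGen.head h1 h3)

/-- A cycle through `a`: the list `a :: t` has no repetition, at least three elements, and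
consecutive elements as well as the last and first are joined by edges of `F`. -/
structure IsCyc (F : Finset (Sym2 V)) (a : V) (t : List V) : Prop where
  nodup : (a :: t).Nodup
  long : 2 ≤ t.length
  edges : ∀ e ∈ pathEdges (a :: (t ++ [a])), e ∈ F

/-- Edge set of a cycle. -/
def cycE (a : V) (t : List V) : Finset (Sym2 V) := (pathEdges (a :: (t ++ [a]))).toFinset

lemma mem_cycE {a : V} {t : List V} {e : Sym2 V} :
    e ∈ cycE a t ↔ e ∈ pathEdges (a :: (t ++ [a])) := by
  simp [cycE]

lemma IsCyc.subset {F : Finset (Sym2 V)} {a : V} {t : List V} (h : IsCyc F a t) : cycE a t ⊆ F :=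
  fun _ he => h.edges _ (mem_cycE.mp he)

lemma IsCyc.mono {F G : Finset (Sym2 V)} {a : V} {t : List V} (h : IsCyc F a t) (hFG : F ⊆ G) :
    IsCyc G a t := ⟨h.nodup, h.long, fun e he => hFG (h.edges e he)⟩

lemma IsCyc.of_edges {a : V} {t : List V} {F : Finset (Sym2 V)} (h : IsCyc F a t) :
    IsCyc (cycE a t) a t := ⟨h.nodup, h.long, fun _ he => mem_cycE.mpr he⟩

lemma cycE_verts {a : V} {t : List V} {e : Sym2 V} (he : e ∈ cycE a t) {x : V} (hx : x ∈ e) :
    x ∈ a :: t := by
  have := pathEdges_verts (mem_cycE.mp he) hx
  simp only [List.mem_cons, List.mem_append] at this ⊢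
  simp only [List.not_mem_nil, or_false] at this
  tauto

/-- Rotation of a cycle to an arbitrary vertex. -/
lemma IsCyc.rotate {F : Finset (Sym2 V)} {a : V} {t : List V} (h : IsCyc F a t) {u : V}
    (hu : u ∈ a :: t) :
    ∃ t', IsCyc F u t' ∧ t'.length = t.length ∧ cycE u t' = cycE a t := by
  simp only [List.mem_cons] at hu
  rcases hu with rfl | hu
  · exact ⟨t, h, rfl, rfl⟩
  · obtain ⟨t₁, t₂, rfl⟩ := List.append_of_mem hu
    refine ⟨t₂ ++ a :: t₁, ?_, by simp; omega, ?_⟩
    · have hsplit1 : pathEdges (a :: (t₁ ++ u :: t₂ ++ [a]))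
          = pathEdges (a :: t₁ ++ [u]) ++ pathEdges (u :: (t₂ ++ [a])) := by
        have := pathEdges_append (a :: t₁) u (t₂ ++ [a])
        simpa using this
      have hsplit2 : pathEdges (u :: ((t₂ ++ a :: t₁) ++ [u]))
          = pathEdges (u :: t₂ ++ [a]) ++ pathEdges (a :: (t₁ ++ [u])) := by
        have := pathEdges_append (u :: t₂) a (t₁ ++ [u])
        simpa using this
      refine ⟨?_, ?_, ?_⟩
      · have hnd := h.nodup
        have hperm : (u :: (t₂ ++ a :: t₁)).Perm (a :: (t₁ ++ u :: t₂)) := by
          rw [List.perm_iff_count]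
          intro z
          simp only [List.count_cons, List.count_append]
          omega
        exact hperm.nodup_iff.mpr hnd
      · have := h.long
        simp only [List.length_append, List.length_cons] at this ⊢
        omega
      · intro e he
        rw [hsplit2] at he
        apply h.edges
        rw [hsplit1]
        simp only [List.mem_append] at he ⊢
        simp only [List.cons_append] at he ⊢
        tauto
    · ext e
      rw [mem_cycE, mem_cycE]
      have hsplit1 : pathEdges (a :: (t₁ ++ u :: t₂ ++ [a]))
          = pathEdges (a :: t₁ ++ [u]) ++ pathEdges (u :: (t₂ ++ [a])) := by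
        have := pathEdges_append (a :: t₁) u (t₂ ++ [a])
        simpa using this
      have hsplit2 : pathEdges (u :: ((t₂ ++ a :: t₁) ++ [u]))
          = pathEdges (u :: t₂ ++ [a]) ++ pathEdges (a :: (t₁ ++ [u])) := by
        have := pathEdges_append (u :: t₂) a (t₁ ++ [u])
        simpa using this
      rw [hsplit1, hsplit2]
      simp only [List.mem_append, List.cons_append]
      tauto

/-- The edges of a cycle are distinct. -/
lemma IsCyc.edges_nodup {F : Finset (Sym2 V)} {a : V} {t : List V} (h : IsCyc F a t) :
    (pathEdges (a :: (t ++ [a]))).Nodup := by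
  obtain ⟨hnd, hlong, -⟩ := h
  cases t with
  | nil => simp at hlong
  | cons b t' =>
    cases t' with
    | nil => simp at hlong
    | cons c t'' =>
      have hnd2 : (b :: c :: (t'' ++ [a])).Nodup := by
        have hperm : (b :: c :: (t'' ++ [a])).Perm (a :: b :: c :: t'') := by
          rw [List.perm_iff_count]
          intro z
          simp only [List.count_cons, List.count_append, List.count_nil]
          omega
        exact hperm.nodup_iff.mpr hnd
      have hna : a ∉ b :: c :: t'' := (List.nodup_cons.mp hnd).1
      simp only [List.cons_append, pathEdges_cons_cons]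
      rw [List.nodup_cons]
      refine ⟨?_, pathEdges_nodup hnd2⟩
      intro hc
      have hc' : s(a, b) ∈ pathEdges (b :: c :: (t'' ++ [a])) := hc
      have := pathEdges_head_edge hnd2 hc' (by simp)
      rw [Sym2.eq_iff] at this
      rcases this with ⟨h1, _⟩ | ⟨h1, _⟩
      · exact hna (by simp [h1])
      · exact hna (by simp [h1])

lemma card_cycE {F : Finset (Sym2 V)} {a : V} {t : List V} (h : IsCyc F a t) :
    (cycE a t).card = t.length + 1 := by
  unfold cycE
  rw [List.toFinset_card_of_nodup h.edges_nodup, pathEdges_length]
  simp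

lemma verts_cycE_subset {a : V} {t : List V} : verts (cycE a t) ⊆ (a :: t).toFinset := by
  intro x hx
  obtain ⟨e, he, hxe⟩ := mem_verts.mp hx
  exact List.mem_toFinset.mpr (cycE_verts he hxe)

lemma card_verts_cycE {a : V} {t : List V} :
    (verts (cycE a t)).card ≤ t.length + 1 := by
  calc _ ≤ _ := card_le_card verts_cycE_subset
    _ ≤ (a :: t).length := List.toFinset_card_le _
    _ = _ := by simp

lemma mem_verts_cycE {F : Finset (Sym2 V)} {a : V} {t : List V} (h : IsCyc F a t) {x : V}
    (hx : x ∈ a :: t) : x ∈ verts (cycE a t) := by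
  obtain ⟨t', h', -, he⟩ := h.rotate hx
  cases t' with
  | nil => have := h'.long; simp at this
  | cons b t'' =>
    rw [← he]
    refine mem_verts.mpr ⟨s(x, b), mem_cycE.mpr ?_, by simp⟩
    simp

/-- Cycles are connected. -/
lemma cycE_conn {a : V} {t : List V} : Conn (cycE a t) := by
  have key : ∀ x ∈ verts (cycE a t), Reach (cycE a t) a x := by
    intro x hx
    have hx' := List.mem_toFinset.mp (verts_cycE_subset hx)
    exact mem_reach_of_path (l := t ++ [a]) (fun e he => mem_cycE.mpr he)
      (by simp only [List.mem_cons, List.mem_append] at hx' ⊢; tauto)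
  intro u hu w hw
  exact (key u hu).symm.trans (key w hw)

/-- A vertex of a cycle lies on two different edges of it. -/
lemma IsCyc.two_edges {F : Finset (Sym2 V)} {a : V} {t : List V} (h : IsCyc F a t) {u : V}
    (hu : u ∈ a :: t) : ∃ e₁ ∈ cycE a t, ∃ e₂ ∈ cycE a t, e₁ ≠ e₂ ∧ u ∈ e₁ ∧ u ∈ e₂ := by
  obtain ⟨t', h', -, he⟩ := h.rotate hu
  rw [← he]
  have hlong := h'.long
  cases t' with
  | nil => simp at hlong
  | cons b t'' =>
    obtain ⟨t₃, z, rfl⟩ : ∃ t₃ z, t'' = t₃ ++ [z] := by
      have : t'' ≠ [] := by
        intro h0; subst h0; simp at hlong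
      exact ⟨t''.dropLast, t''.getLast this, (List.dropLast_append_getLast this).symm⟩
    refine ⟨s(u, b), mem_cycE.mpr (by simp), s(z, u), mem_cycE.mpr ?_, ?_, by simp, by simp⟩
    · have e : u :: ((b :: (t₃ ++ [z])) ++ [u]) = (u :: b :: t₃) ++ z :: [u] := by simp
      rw [e, pathEdges_append]
      simp
    · intro hc
      rw [Sym2.eq_iff] at hc
      have hnd := h'.nodup
      have hna : u ∉ b :: (t₃ ++ [z]) := (List.nodup_cons.mp hnd).1
      have hnb : b ∉ t₃ ++ [z] := (List.nodup_cons.mp (List.nodup_cons.mp hnd).2).1
      rcases hc with ⟨h1, _⟩ | ⟨_, h2⟩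
      · exact hna (by simp [h1])
      · exact hnb (by simp [h2])

end Vale.Agent.Lib.P050
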