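import Mathlib

/-!
# Definitions for the local form of Sidorenko's conjecture

The homomorphism density `t(H, W)` of a finite simple graph `H` in a symmetric kernel `W` on the
unit interval with Lebesgue measure.
-/

open MeasureTheory

namespace Vale.Agent.Lib.P050

/-- The value of the symmetric function `W` on the edge `e`, when the vertices are assigned the
points `x`: on `e = s(a, b)` it equals `W (x a) (x b)`. -/
def edgeValue {Ω V : Type*} (W : Ω → Ω → ℝ) (hW : ∀ a b, W a b = W b a) (x : V → Ω)
    (e : Sym2 V) : ℝ :=
  Sym2.lift ⟨fun a b => W (x a) (x b), fun a b => hW (x a) (x b)⟩ e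

/-- The homomorphism density `t(H, W) = ∫ ∏_{uv ∈ E(H)} W(x_u, x_v) dx` over `[0,1]^{V(H)}` with
Lebesgue measure. -/
noncomputable def homDensity {V : Type*} [Fintype V] [DecidableEq V] (H : SimpleGraph V)
    [DecidableRel H.Adj] (W : unitInterval → unitInterval → ℝ) (hW : ∀ a b, W a b = W b a) : ℝ :=
  ∫ x : V → unitInterval, ∏ e ∈ H.edgeFinset, edgeValue W hW x e

end Vale.Agent.Lib.P050
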