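import Vale.Agent.Lib.P050.CycleHolder

/-!
# Edge densities of a kernel

Definition of the density of an edge set and the analytic estimates: factorisation over disjoint
vertex sets, integrating out leaves, and the estimates against an induced even cycle.
-/

open MeasureTheory

set_option linter.unusedSectionVars false

namespace Vale.Agent.Lib.P050

variable {Ω : Type*} [MeasurableSpace Ω]
variable {V : Type*} [Fintype V] [DecidableEq V]
variable (μ : Measure Ω) [IsProbabilityMeasure μ]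

/-- Vertices touched by an edge set. -/
def verts (F : Finset (Sym2 V)) : Finset V := F.biUnion fun e => e.toFinset

lemma mem_verts {F : Finset (Sym2 V)} {v : V} : v ∈ verts F ↔ ∃ e ∈ F, v ∈ e := by
  simp [verts]

/-- Value of a symmetric kernel at an edge under the assignment `x`. -/
def evE {U : Ω → Ω → ℝ} (hU : GoodKernel U) (x : V → Ω) (e : Sym2 V) : ℝ :=
  Sym2.lift ⟨fun a b => U (x a) (x b), fun a b => hU.symm (x a) (x b)⟩ e

@[simp] lemma evE_mk {U : Ω → Ω → ℝ} (hU : GoodKernel U) (x : V → Ω) (a b : V) :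
    evE hU x s(a, b) = U (x a) (x b) := rfl

lemma evE_bm {U : Ω → Ω → ℝ} (hU : GoodKernel U) (e : Sym2 V) :
    BM (fun x : V → Ω => evE hU x e) := by
  induction e using Sym2.ind with
  | _ a b => simpa using hU.bm a b

lemma prodE_bm {U : Ω → Ω → ℝ} (hU : GoodKernel U) (F : Finset (Sym2 V)) :
    BM (fun x : V → Ω => ∏ e ∈ F, evE hU x e) :=
  BM.finset_prod F fun e _ => evE_bm hU e

lemma evE_merge_out {U : Ω → Ω → ℝ} (hU : GoodKernel U) {S : Finset V} {e : Sym2 V}
    (h : ∀ w ∈ e, w ∉ S) (x y : V → Ω) : evE hU (merge S x y) e = evE hU x e := by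
  induction e using Sym2.ind with
  | _ a b =>
    have ha : a ∉ S := h a (by simp)
    have hb : b ∉ S := h b (by simp)
    simp [ha, hb]

lemma evE_merge_in {U : Ω → Ω → ℝ} (hU : GoodKernel U) {S : Finset V} {e : Sym2 V}
    (h : ∀ w ∈ e, w ∈ S) (x y : V → Ω) : evE hU (merge S x y) e = evE hU y e := by
  induction e using Sym2.ind with
  | _ a b =>
    have ha : a ∈ S := h a (by simp)
    have hb : b ∈ S := h b (by simp)
    simp [ha, hb]

lemma evE_abs_le {U : Ω → Ω → ℝ} (hU : GoodKernel U) {ε : ℝ} (hε : ∀ a b, |U a b| ≤ ε)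
    (x : V → Ω) (e : Sym2 V) : |evE hU x e| ≤ ε := by
  induction e using Sym2.ind with
  | _ a b => simpa using hε _ _

lemma prodE_abs_le {U : Ω → Ω → ℝ} (hU : GoodKernel U) {ε : ℝ} (hε : ∀ a b, |U a b| ≤ ε)
    (x : V → Ω) (F : Finset (Sym2 V)) : |∏ e ∈ F, evE hU x e| ≤ ε ^ F.card := by
  rw [Finset.abs_prod, ← Finset.prod_const]
  exact Finset.prod_le_prod (fun _ _ => abs_nonneg _) fun e _ => evE_abs_le hU hε x e

/-- Density of an edge set. -/
noncomputable def tF {U : Ω → Ω → ℝ} (hU : GoodKernel U) (F : Finset (Sym2 V)) : ℝ :=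
  ∫ x, ∏ e ∈ F, evE hU x e ∂(piM μ V)

lemma tF_empty {U : Ω → Ω → ℝ} (hU : GoodKernel U) : tF μ hU (∅ : Finset (Sym2 V)) = 1 := by
  simp [tF]

lemma tF_abs_le {U : Ω → Ω → ℝ} (hU : GoodKernel U) {ε : ℝ} (hε : ∀ a b, |U a b| ≤ ε)
    (F : Finset (Sym2 V)) : |tF μ hU F| ≤ ε ^ F.card := by
  have := norm_integral_le_of_norm_le_const (μ := piM μ V)
    (f := fun x => ∏ e ∈ F, evE hU x e) (C := ε ^ F.card)
    (Filter.Eventually.of_forall fun x => by rw [Real.norm_eq_abs]; exact prodE_abs_le hU hε x F)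
  simpa [tF, Real.norm_eq_abs] using this

/-- Factorisation over vertex-disjoint edge sets. -/
lemma tF_union {U : Ω → Ω → ℝ} (hU : GoodKernel U) {F₁ F₂ : Finset (Sym2 V)}
    (h : Disjoint (verts F₁) (verts F₂)) : tF μ hU (F₁ ∪ F₂) = tF μ hU F₁ * tF μ hU F₂ := by
  have hdisj : Disjoint F₁ F₂ := by
    rw [Finset.disjoint_left]
    intro e he1 he2
    induction e using Sym2.ind with
    | _ a b =>
      have h1 : a ∈ verts F₁ := mem_verts.mpr ⟨_, he1, by simp⟩
      have h2 : a ∈ verts F₂ := mem_verts.mpr ⟨_, he2, by simp⟩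
      exact Finset.disjoint_left.mp h h1 h2
  unfold tF
  simp_rw [Finset.prod_union hdisj]
  rw [integral_merge μ (verts F₂) ((prodE_bm hU F₁).mul (prodE_bm hU F₂))]
  have e1 : ∀ x y : V → Ω, (∏ e ∈ F₁, evE hU (merge (verts F₂) x y) e)
      * (∏ e ∈ F₂, evE hU (merge (verts F₂) x y) e)
      = (∏ e ∈ F₁, evE hU x e) * (∏ e ∈ F₂, evE hU y e) := by
    intro x y
    congr 1
    · refine Finset.prod_congr rfl fun e he => evE_merge_out hU (fun w hw => ?_) x y
      exact Finset.disjoint_left.mp h (mem_verts.mpr ⟨e, he, hw⟩)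
    · refine Finset.prod_congr rfl fun e he => evE_merge_in hU (fun w hw => ?_) x y
      exact mem_verts.mpr ⟨e, he, hw⟩
  simp_rw [e1, integral_const_mul]
  rw [integral_mul_const]

section marginal

variable {U : Ω → Ω → ℝ}

/-- The degree function (marginal) of the kernel. -/
noncomputable def dK (U : Ω → Ω → ℝ) (r : Ω) : ℝ := ∫ z, U r z ∂μ

lemma section_right (hU : GoodKernel U) (z : Ω) : BM (fun r => U r z) := by
  obtain ⟨C, hC⟩ := hU.bdd
  refine ⟨?_, C, fun r => hC _ _⟩
  have : Measurable (fun r => Function.uncurry U (r, z)) :=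
    hU.meas.comp (measurable_id.prodMk measurable_const)
  exact this

lemma dK_bm (hU : GoodKernel U) : BM (dK μ U) :=
  BM.integral_right (ν := μ) (f := fun p : Ω × Ω => U p.1 p.2) (by
    obtain ⟨C, hC⟩ := hU.bdd
    exact ⟨hU.meas, C, fun p => hC _ _⟩)

lemma dK_abs_le {ε : ℝ} (hε : ∀ a b, |U a b| ≤ ε) (r : Ω) :
    |dK μ U r| ≤ ε := by
  have := norm_integral_le_of_norm_le_const (μ := μ) (f := fun z => U r z) (C := ε)
    (Filter.Eventually.of_forall fun z => by simpa [Real.norm_eq_abs] using hε r z)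
  simpa [dK, Real.norm_eq_abs] using this

/-- The squared mass of the degree function. -/
noncomputable def dA (U : Ω → Ω → ℝ) : ℝ := ∫ r, dK μ U r ^ 2 ∂μ

lemma dA_nonneg : 0 ≤ dA μ U := integral_nonneg fun _ => sq_nonneg _

/-- Integrating out a leaf coordinate. -/
lemma integral_leaf (hU : GoodKernel U) {a v : V} (hav : a ≠ v) {G : (V → Ω) → ℝ} (hG : BM G)
    (hGa : Indep {a} G) :
    ∫ x, G x * U (x a) (x v) ∂(piM μ V) = ∫ x, G x * dK μ U (x v) ∂(piM μ V) := by
  rw [integral_merge μ {a} (hG.mul (hU.bm a v))]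
  congr 1
  ext x
  have e1 : ∀ y : V → Ω, G (merge {a} x y) * U ((merge {a} x y) a) ((merge {a} x y) v)
      = G x * U (y a) (x v) := by
    intro y
    rw [hGa x y, merge_of_mem (Finset.mem_singleton_self a),
      merge_of_not_mem (by simpa using hav.symm)]
  simp_rw [e1]
  rw [integral_const_mul, integral_eval μ a (g := fun r => U r (x v)) (section_right hU _)]
  congr 1
  unfold dK
  congr 1
  ext z
  exact hU.symm _ _

lemma integral_dK_sq (hU : GoodKernel U) (v : V) :
    ∫ x : V → Ω, dK μ U (x v) ^ 2 ∂(piM μ V) = dA μ U := by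
  have h : BM (fun r => dK μ U r ^ 2) := by simpa [sq] using (dK_bm μ hU).mul (dK_bm μ hU)
  exact integral_eval μ v h

lemma integral_dK (hU : GoodKernel U) (v : V) :
    ∫ x : V → Ω, dK μ U (x v) ∂(piM μ V) = ∫ r, dK μ U r ∂μ :=
  integral_eval μ v (dK_bm μ hU)

/-- A single non-loop edge has density equal to the total mass of the kernel. -/
lemma tF_single (hU : GoodKernel U) {u v : V} (huv : u ≠ v)
    (h0 : ∫ r, dK μ U r ∂μ = 0) : tF μ hU {s(u, v)} = 0 := by
  unfold tF
  simp only [Finset.prod_singleton, evE_mk]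
  have := integral_leaf μ hU huv (BM.const (1 : ℝ)) (fun _ _ => rfl)
  simp only [one_mul] at this
  rw [this, integral_dK μ hU, h0]


/-- Splitting off two leaves. -/
lemma integral_two_leaves (hU : GoodKernel U) {a b v w : V} (hav : a ≠ v) (hbw : b ≠ w)
    (hab : a ≠ b) (haw : a ≠ w) (hbv : b ≠ v) {G : (V → Ω) → ℝ} (hG : BM G)
    (hGa : Indep {a} G) (hGb : Indep {b} G) :
    ∫ x, G x * (U (x a) (x v) * U (x b) (x w)) ∂(piM μ V)
      = ∫ x, G x * (dK μ U (x v) * dK μ U (x w)) ∂(piM μ V) := by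
  have h1 : BM (fun x : V → Ω => G x * U (x b) (x w)) := hG.mul (hU.bm b w)
  have h1a : Indep {a} (fun x : V → Ω => G x * U (x b) (x w)) := by
    intro x y
    simp only [hGa x y]
    rw [merge_of_not_mem (by simpa using hab.symm), merge_of_not_mem (by simpa using haw.symm)]
  have e1 := integral_leaf μ hU hav h1 h1a
  have e1' : ∀ x : V → Ω, G x * (U (x a) (x v) * U (x b) (x w))
      = G x * U (x b) (x w) * U (x a) (x v) := fun x => by ring
  simp_rw [e1']
  rw [e1]
  have h2 : BM (fun x : V → Ω => G x * dK μ U (x v)) :=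
    hG.mul ((dK_bm μ hU).comp (measurable_pi_apply v))
  have h2b : Indep {b} (fun x : V → Ω => G x * dK μ U (x v)) := by
    intro x y
    simp only [hGb x y]
    rw [merge_of_not_mem (by simpa using hbv.symm)]
  have e2 := integral_leaf μ hU hbw h2 h2b
  have e2' : ∀ x : V → Ω, G x * U (x b) (x w) * dK μ U (x v)
      = G x * dK μ U (x v) * U (x b) (x w) := fun x => by ring
  simp_rw [e2']
  rw [e2]
  congr 1
  ext x
  ring

/-- Edge sets not touching a vertex do not depend on that coordinate. -/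
lemma prodE_indep (hU : GoodKernel U) {S : Finset V} {F : Finset (Sym2 V)}
    (h : ∀ e ∈ F, ∀ w ∈ e, w ∉ S) : Indep S (fun x : V → Ω => ∏ e ∈ F, evE hU x e) := by
  intro x y
  exact Finset.prod_congr rfl fun e he => evE_merge_out hU (h e he) x y

/-- A connected set of two edges has density equal to the squared mass of the degree function. -/
lemma tF_P2 (hU : GoodKernel U) {a b v : V} (hav : a ≠ v) (hbv : b ≠ v) (hab : a ≠ b) :
    tF μ hU {s(a, v), s(b, v)} = dA μ U := by
  have hne : s(a, v) ≠ s(b, v) := by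
    intro h
    rw [Sym2.eq_iff] at h
    rcases h with ⟨h, _⟩ | ⟨h, _⟩
    · exact hab h
    · exact hav h
  unfold tF
  rw [← integral_dK_sq μ hU v]
  have e1 : ∀ x : V → Ω, ∏ e ∈ ({s(a, v), s(b, v)} : Finset (Sym2 V)), evE hU x e
      = 1 * (U (x a) (x v) * U (x b) (x v)) := by
    intro x
    rw [Finset.prod_pair hne, evE_mk, evE_mk, one_mul]
  simp_rw [e1]
  rw [integral_two_leaves μ hU hav hbv hab hav hbv (BM.const (1 : ℝ)) (fun _ _ => rfl)
    (fun _ _ => rfl)]
  congr 1
  ext x
  ring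

/-- The estimate for an edge set with two leaves. -/
lemma tF_two_leaves (hU : GoodKernel U) {ε : ℝ} (hε : ∀ a b, |U a b| ≤ ε) (hε0 : 0 ≤ ε)
    {F : Finset (Sym2 V)} {a b v w : V} (hav : a ≠ v) (hbw : b ≠ w) (hab : a ≠ b) (haw : a ≠ w)
    (hbv : b ≠ v) (he1 : s(a, v) ∈ F) (he2 : s(b, w) ∈ F)
    (hla : ∀ e ∈ F, a ∈ e → e = s(a, v)) (hlb : ∀ e ∈ F, b ∈ e → e = s(b, w)) :
    |tF μ hU F| ≤ ε ^ (F.card - 2) * dA μ U := by
  have hne : s(a, v) ≠ s(b, w) := by
    intro h
    rw [Sym2.eq_iff] at h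
    rcases h with ⟨h, _⟩ | ⟨h, _⟩
    · exact hab h
    · exact haw h
  set F' := (F.erase (s(a, v))).erase (s(b, w)) with hF'
  have hF'card : F'.card = F.card - 2 := by
    rw [hF', Finset.card_erase_of_mem (Finset.mem_erase.mpr ⟨hne.symm, he2⟩),
      Finset.card_erase_of_mem he1]
    omega
  have hFsplit : ∀ x : V → Ω, ∏ e ∈ F, evE hU x e
      = (∏ e ∈ F', evE hU x e) * (U (x a) (x v) * U (x b) (x w)) := by
    intro x
    rw [← Finset.mul_prod_erase F _ he1, ← Finset.mul_prod_erase (F.erase _) _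
      (Finset.mem_erase.mpr ⟨hne.symm, he2⟩), evE_mk, evE_mk]
    ring
  have hGa : Indep {a} (fun x : V → Ω => ∏ e ∈ F', evE hU x e) := by
    apply prodE_indep hU
    intro e he w' hw' hc
    rw [Finset.mem_singleton] at hc
    subst hc
    simp only [hF', Finset.mem_erase] at he
    exact he.2.1 (hla e he.2.2 hw')
  have hGb : Indep {b} (fun x : V → Ω => ∏ e ∈ F', evE hU x e) := by
    apply prodE_indep hU
    intro e he w' hw' hc
    rw [Finset.mem_singleton] at hc
    subst hc
    simp only [hF', Finset.mem_erase] at he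
    exact he.1 (hlb e he.2.2 hw')
  unfold tF
  simp_rw [hFsplit]
  rw [integral_two_leaves μ hU hav hbw hab haw hbv (prodE_bm hU F') hGa hGb]
  have hd := dK_bm μ hU
  have hdv := hd.comp (measurable_pi_apply v (X := fun _ : V => Ω))
  have hdw := hd.comp (measurable_pi_apply w (X := fun _ : V => Ω))
  have hb1 : BM (fun x : V → Ω => (∏ e ∈ F', evE hU x e) * (dK μ U (x v) * dK μ U (x w))) :=
    (prodE_bm hU F').mul (hdv.mul hdw)
  have hsqv : BM (fun x : V → Ω => dK μ U (x v) ^ 2) := by simpa [sq] using hdv.mul hdv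
  have hsqw : BM (fun x : V → Ω => dK μ U (x w) ^ 2) := by simpa [sq] using hdw.mul hdw
  have hbound : ∀ x : V → Ω, |(∏ e ∈ F', evE hU x e) * (dK μ U (x v) * dK μ U (x w))|
      ≤ ε ^ F'.card * ((dK μ U (x v) ^ 2 + dK μ U (x w) ^ 2) / 2) := by
    intro x
    rw [abs_mul]
    apply mul_le_mul (prodE_abs_le hU hε x F') _ (abs_nonneg _) (pow_nonneg hε0 _)
    rw [abs_mul]
    nlinarith [sq_nonneg (|dK μ U (x v)| - |dK μ U (x w)|), sq_abs (dK μ U (x v)),
      sq_abs (dK μ U (x w))]
  calc |∫ x, (∏ e ∈ F', evE hU x e) * (dK μ U (x v) * dK μ U (x w)) ∂(piM μ V)|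
      ≤ ∫ x, |(∏ e ∈ F', evE hU x e) * (dK μ U (x v) * dK μ U (x w))| ∂(piM μ V) :=
        abs_integral_le_integral_abs
    _ ≤ ∫ x, ε ^ F'.card * ((dK μ U (x v) ^ 2 + dK μ U (x w) ^ 2) / 2) ∂(piM μ V) := by
        apply integral_mono hb1.abs.integrable _ hbound
        exact (((hsqv.add hsqw).mul (BM.const (1/2))).mul (BM.const (ε ^ F'.card))).integrable.congr
          (Filter.Eventually.of_forall fun x => by simp only; ring)
    _ = ε ^ (F.card - 2) * dA μ U := by
        rw [integral_const_mul, hF'card]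
        congr 1
        have : ∀ x : V → Ω, (dK μ U (x v) ^ 2 + dK μ U (x w) ^ 2) / 2
            = (dK μ U (x v) ^ 2 + dK μ U (x w) ^ 2) * (1 / 2) := fun x => by ring
        simp_rw [this]
        rw [integral_mul_const, integral_add hsqv.integrable hsqw.integrable,
          integral_dK_sq μ hU, integral_dK_sq μ hU]
        ring

end marginal

section induced

variable {k : ℕ} {U : Ω → Ω → ℝ}

/-- Edge set of a parametrised cycle. -/
def cycEdges (c : Zk k → V) : Finset (Sym2 V) := Finset.univ.image fun i => s(c i, c (i + 1))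

lemma two_ne_zero_Zk (hk : 1 ≤ k) : (2 : Zk k) ≠ 0 := by
  intro h
  have h2 : bp k 2 = 0 := by simpa [bp] using h
  rw [← bp_zero (k := k)] at h2
  have := bp_inj (by omega) (by omega) h2
  omega

lemma cyc_edge_inj (hk : 1 ≤ k) {c : Zk k → V} (hc : Function.Injective c) :
    Function.Injective (fun i => s(c i, c (i + 1))) := by
  intro i j h
  simp only [Sym2.eq_iff] at h
  rcases h with ⟨h, _⟩ | ⟨h1, h2⟩
  · exact hc h
  · exfalso
    have e1 := hc h1
    have e2 := hc h2
    have : (2 : Zk k) = 0 := by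
      have : i + 1 + 1 = i := by rw [e2, ← e1]
      have h3 : i + 2 = i + 0 := by
        rw [add_zero]
        calc i + 2 = i + 1 + 1 := by ring
          _ = i := this
      exact add_left_cancel h3
    exact two_ne_zero_Zk hk this

lemma card_cycEdges (hk : 1 ≤ k) {c : Zk k → V} (hc : Function.Injective c) :
    (cycEdges c).card = 2 * (k + 1) := by
  unfold cycEdges
  rw [Finset.card_image_of_injective _ (cyc_edge_inj hk hc), Finset.card_univ, ZMod.card]

lemma prod_cycEdges (hU : GoodKernel U) (hk : 1 ≤ k) {c : Zk k → V} (hc : Function.Injective c)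
    (x : V → Ω) : ∏ e ∈ cycEdges c, evE hU x e = ∏ i, U (x (c i)) (x (c (i + 1))) := by
  unfold cycEdges
  rw [Finset.prod_image (fun a _ b _ h => cyc_edge_inj hk hc h)]
  rfl

lemma tF_cycEdges (hU : GoodKernel U) (hk : 1 ≤ k) {c : Zk k → V} (hc : Function.Injective c) :
    tF μ hU (cycEdges c) = cycT μ U c (fun _ _ => 1) := by
  unfold tF cycT
  congr 1
  ext x
  rw [prod_cycEdges hU hk hc]
  simp

lemma tF_cycEdges_nonneg (hU : GoodKernel U) (hk : 1 ≤ k) {c : Zk k → V}
    (hc : Function.Injective c) : 0 ≤ tF μ hU (cycEdges c) := by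
  rw [tF_cycEdges μ hU hk hc]
  exact cycT_one_nonneg μ hU hc

/-- Functions that are products of functions of the separate cycle coordinates. -/
def Sep (c : Zk k → V) (M : ℝ) (g : (V → Ω) → ℝ) : Prop :=
  ∃ (φ : Zk k → Ω → ℝ) (m : Zk k → ℝ), (∀ i, 0 < m i) ∧ (∀ i, Measurable (φ i)) ∧
    (∀ i r, |φ i r| ≤ m i) ∧ (∏ i, m i ≤ M) ∧ ∀ y, g y = ∏ i, φ i (y (c i))

lemma Sep.mul {c : Zk k → V} {M₁ M₂ : ℝ} {g₁ g₂ : (V → Ω) → ℝ} (h₁ : Sep c M₁ g₁)
    (h₂ : Sep c M₂ g₂) : Sep c (M₁ * M₂) (fun y => g₁ y * g₂ y) := by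
  obtain ⟨φ, m, hm, hφm, hφ, hM, hg⟩ := h₁
  obtain ⟨ψ, n, hn, hψm, hψ, hN, hg'⟩ := h₂
  refine ⟨fun i r => φ i r * ψ i r, fun i => m i * n i, fun i => mul_pos (hm i) (hn i),
    fun i => (hφm i).mul (hψm i), fun i r => ?_, ?_, fun y => ?_⟩
  · rw [abs_mul]
    exact mul_le_mul (hφ i r) (hψ i r) (abs_nonneg _) (hm i).le
  · rw [Finset.prod_mul_distrib]
    have hp : 0 < ∏ i, n i := Finset.prod_pos fun i _ => hn i
    have hp' : 0 < ∏ i, m i := Finset.prod_pos fun i _ => hm i
    exact mul_le_mul hM hN hp.le (hp'.le.trans hM)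
  · show g₁ y * g₂ y = _
    rw [hg, hg', Finset.prod_mul_distrib]

lemma Sep.single (c : Zk k → V) (i₀ : Zk k) {M : ℝ} (hM : 0 < M) {ρ : Ω → ℝ} (hρm : Measurable ρ)
    (hρ : ∀ r, |ρ r| ≤ M) : Sep c M (fun y => ρ (y (c i₀))) := by
  classical
  refine ⟨Function.update (fun _ _ => 1) i₀ ρ, Function.update (fun _ => 1) i₀ M, ?_, ?_, ?_, ?_, ?_⟩
  · intro i
    by_cases h : i = i₀
    · subst h; simpa using hM
    · simp [Function.update_of_ne h]
  · intro i
    by_cases h : i = i₀
    · subst h; simpa using hρm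
    · simpa [Function.update_of_ne h] using measurable_const
  · intro i r
    by_cases h : i = i₀
    · subst h; simpa using hρ r
    · simp [Function.update_of_ne h]
  · rw [Finset.prod_eq_single i₀]
    · simp
    · intro b _ hb; simp [Function.update_of_ne hb]
    · intro h; exact absurd (Finset.mem_univ _) h
  · intro y
    rw [Finset.prod_eq_single i₀]
    · simp
    · intro b _ hb; simp [Function.update_of_ne hb]
    · intro h; exact absurd (Finset.mem_univ _) h

lemma Sep.const (c : Zk k → V) {M : ℝ} (hM : 0 < M) {κ : ℝ} (hκ : |κ| ≤ M) :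
    Sep c M (fun _ : V → Ω => κ) :=
  Sep.single c 0 hM (ρ := fun _ => κ) measurable_const (fun _ => hκ)

lemma sep_bound (hU : GoodKernel U) {c : Zk k → V} (hc : Function.Injective c) {M : ℝ}
    {g : (V → Ω) → ℝ} (h : Sep c M g) :
    |∫ y, g y * ∏ i, U (y (c i)) (y (c (i + 1))) ∂(piM μ V)|
      ≤ M * cycT μ U c (fun _ _ => 1) := by
  obtain ⟨φ, m, hm, hφm, hφ, hM, hg⟩ := h
  have key := cycle_holder_scaled μ hU hc hm hφm hφ
  have e : ∫ y, g y * ∏ i, U (y (c i)) (y (c (i + 1))) ∂(piM μ V) = cycT μ U c φ := by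
    unfold cycT
    congr 1
    ext y
    rw [hg]
  rw [e]
  exact key.trans (mul_le_mul_of_nonneg_right hM (cycT_one_nonneg μ hU hc))

lemma section_left (hU : GoodKernel U) (a : Ω) : Measurable (fun r => U a r) := by
  have : Measurable (fun r => Function.uncurry U (a, r)) :=
    hU.meas.comp (measurable_const.prodMk measurable_id)
  exact this

lemma sep_edge (hU : GoodKernel U) {ε : ℝ} (hε : ∀ a b, |U a b| ≤ ε) (hε0 : 0 < ε)
    {c : Zk k → V} (x : V → Ω) {e : Sym2 V}
    (he : ¬ ∀ w ∈ e, w ∈ Finset.univ.image c) :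
    Sep c ε (fun y => evE hU (merge (Finset.univ.image c) x y) e) := by
  induction e using Sym2.ind with
  | _ a b =>
    by_cases ha : a ∈ Finset.univ.image c
    · by_cases hb : b ∈ Finset.univ.image c
      · exfalso
        apply he
        intro w hw
        simp only [Sym2.mem_iff] at hw
        rcases hw with rfl | rfl <;> assumption
      · obtain ⟨i, -, rfl⟩ := Finset.mem_image.mp ha
        have := Sep.single c (V := V) i hε0 (section_right hU (x b)).1 (fun r => hε r (x b))
        convert this using 2 with y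
        simp [hb]
    · by_cases hb : b ∈ Finset.univ.image c
      · obtain ⟨i, -, rfl⟩ := Finset.mem_image.mp hb
        have := Sep.single c (V := V) i hε0 (section_left hU (x a)) (fun r => hε (x a) r)
        convert this using 2 with y
        simp [ha]
      · have := Sep.const c (V := V) (Ω := Ω) hε0 (hε (x a) (x b))
        convert this using 2 with y
        simp [ha, hb]

lemma sep_prod (hU : GoodKernel U) {ε : ℝ} (hε : ∀ a b, |U a b| ≤ ε) (hε0 : 0 < ε)
    {c : Zk k → V} (x : V → Ω) (G : Finset (Sym2 V))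
    (hG : ∀ e ∈ G, ¬ ∀ w ∈ e, w ∈ Finset.univ.image c) :
    Sep c (ε ^ G.card) (fun y => ∏ e ∈ G, evE hU (merge (Finset.univ.image c) x y) e) := by
  classical
  induction G using Finset.induction_on with
  | empty =>
    simpa using Sep.const c (V := V) (Ω := Ω) (M := 1) one_pos (κ := 1) (by simp)
  | insert a G ha ih =>
    have h1 := sep_edge hU hε hε0 x (hG a (Finset.mem_insert_self a G))
    have h2 := ih (fun e he => hG e (Finset.mem_insert_of_mem he))
    have h3 := h1.mul h2
    rw [Finset.card_insert_of_notMem ha, pow_succ']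
    convert h3 using 2 with y
    rw [Finset.prod_insert ha]

/-- The estimate for an edge set containing an induced even cycle, with a bounded weight at one
vertex. -/
theorem integral_induced (hU : GoodKernel U) {ε : ℝ} (hε : ∀ a b, |U a b| ≤ ε) (hε0 : 0 < ε)
    (hk : 1 ≤ k) {c : Zk k → V} (hc : Function.Injective c) {F : Finset (Sym2 V)}
    (hCF : cycEdges c ⊆ F)
    (hind : ∀ e ∈ F, (∀ w ∈ e, w ∈ Finset.univ.image c) → e ∈ cycEdges c)
    {σ : Ω → ℝ} (hσ : GoodW σ) (v : V) :
    |∫ x, σ (x v) * ∏ e ∈ F, evE hU x e ∂(piM μ V)|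
      ≤ ε ^ (F.card - 2 * (k + 1)) * tF μ hU (cycEdges c) := by
  classical
  set S : Finset V := Finset.univ.image c with hS
  have hcS : ∀ i, c i ∈ S := fun i => Finset.mem_image_of_mem c (Finset.mem_univ i)
  have hh : BM (fun x : V → Ω => σ (x v) * ∏ e ∈ F, evE hU x e) :=
    (hσ.bm v).mul (prodE_bm hU F)
  rw [integral_merge μ S hh, tF_cycEdges μ hU hk hc]
  set G := F \ cycEdges c with hG
  have hGcard : G.card = F.card - 2 * (k + 1) := by
    rw [hG, Finset.card_sdiff_of_subset hCF, card_cycEdges hk hc]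
  have hsplit : ∀ z : V → Ω, ∏ e ∈ F, evE hU z e
      = (∏ e ∈ G, evE hU z e) * ∏ e ∈ cycEdges c, evE hU z e := by
    intro z
    rw [hG, Finset.prod_sdiff hCF]
  have hinner : ∀ x : V → Ω, |∫ y, σ ((merge S x y) v) * ∏ e ∈ F, evE hU (merge S x y) e ∂(piM μ V)|
      ≤ ε ^ (F.card - 2 * (k + 1)) * cycT μ U c (fun _ _ => 1) := by
    intro x
    have hsep1 : Sep c 1 (fun y => σ ((merge S x y) v)) := by
      by_cases hv : v ∈ S
      · obtain ⟨i, -, rfl⟩ := Finset.mem_image.mp hv
        have := Sep.single c (V := V) i one_pos hσ.1 hσ.2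
        convert this using 2 with y
        rw [merge_of_mem (hcS i)]
      · have := Sep.const c (V := V) (Ω := Ω) one_pos (hσ.2 (x v))
        convert this using 2 with y
        rw [merge_of_not_mem hv]
    have hsep2 : Sep c (ε ^ G.card) (fun y => ∏ e ∈ G, evE hU (merge S x y) e) := by
      apply sep_prod hU hε hε0 x G
      intro e he hin
      have he' := Finset.mem_sdiff.mp he
      exact he'.2 (hind e he'.1 hin)
    have hsep := hsep1.mul hsep2
    have hb := sep_bound μ hU hc hsep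
    rw [one_mul, hGcard] at hb
    refine le_of_eq_of_le ?_ hb
    congr 2
    ext y
    rw [hsplit, prod_cycEdges hU hk hc]
    have : ∏ i, U ((merge S x y) (c i)) ((merge S x y) (c (i + 1)))
        = ∏ i, U (y (c i)) (y (c (i + 1))) := by
      refine Finset.prod_congr rfl fun i _ => ?_
      rw [merge_of_mem (hcS i), merge_of_mem (hcS (i + 1))]
    rw [this]
    ring
  have := norm_integral_le_of_norm_le_const (μ := piM μ V)
    (f := fun x => ∫ y, σ ((merge S x y) v) * ∏ e ∈ F, evE hU (merge S x y) e ∂(piM μ V))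
    (C := ε ^ (F.card - 2 * (k + 1)) * cycT μ U c (fun _ _ => 1))
    (Filter.Eventually.of_forall fun x => by rw [Real.norm_eq_abs]; exact hinner x)
  simpa [Real.norm_eq_abs] using this

/-- The estimate for an edge set containing an induced even cycle. -/
theorem tF_induced (hU : GoodKernel U) {ε : ℝ} (hε : ∀ a b, |U a b| ≤ ε) (hε0 : 0 < ε)
    (hk : 1 ≤ k) {c : Zk k → V} (hc : Function.Injective c) {F : Finset (Sym2 V)}
    (hCF : cycEdges c ⊆ F)
    (hind : ∀ e ∈ F, (∀ w ∈ e, w ∈ Finset.univ.image c) → e ∈ cycEdges c) :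
    |tF μ hU F| ≤ ε ^ (F.card - 2 * (k + 1)) * tF μ hU (cycEdges c) := by
  by_cases hne : Nonempty V
  · obtain ⟨v⟩ := hne
    have := integral_induced μ hU hε hε0 hk hc hCF hind GoodW.one v
    simpa [tF] using this
  · exfalso
    exact hne ⟨c 0⟩

/-- The estimate for an edge set with one leaf and an induced even cycle off the leaf. -/
theorem tF_one_leaf (hU : GoodKernel U) {ε : ℝ} (hε : ∀ a b, |U a b| ≤ ε) (hε0 : 0 < ε)
    (hk : 1 ≤ k) {c : Zk k → V} (hc : Function.Injective c) {F : Finset (Sym2 V)} {a v : V}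
    (hav : a ≠ v) (hleaf : s(a, v) ∈ F) (hla : ∀ e ∈ F, a ∈ e → e = s(a, v))
    (hCF : cycEdges c ⊆ F.erase s(a, v))
    (hind : ∀ e ∈ F.erase s(a, v), (∀ w ∈ e, w ∈ Finset.univ.image c) → e ∈ cycEdges c)
    {β : ℝ} (hβ : 0 < β) :
    |tF μ hU F| ≤ (β * dA μ U
      + β⁻¹ * (ε ^ (2 * (F.card - 1) - 2 * (k + 1)) * tF μ hU (cycEdges c))) / 2 := by
  classical
  set F' := F.erase s(a, v) with hF'
  have hF'card : F'.card = F.card - 1 := by rw [hF', Finset.card_erase_of_mem hleaf]
  set P : (V → Ω) → ℝ := fun x => ∏ e ∈ F', evE hU x e with hP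
  have hPbm : BM P := prodE_bm hU F'
  have hPa : Indep {a} P := by
    apply prodE_indep hU
    intro e he w' hw' hc'
    rw [Finset.mem_singleton] at hc'
    subst hc'
    simp only [hF', Finset.mem_erase] at he
    exact he.1 (hla e he.2 hw')
  have hPabs : ∀ x, |P x| ≤ ε ^ F'.card := fun x => prodE_abs_le hU hε x F'
  have h1 : tF μ hU F = ∫ x, P x * dK μ U (x v) ∂(piM μ V) := by
    unfold tF
    have e : ∀ x : V → Ω, ∏ e ∈ F, evE hU x e = P x * U (x a) (x v) := by
      intro x
      rw [← Finset.mul_prod_erase F _ hleaf, evE_mk]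
      simp only [hP, hF']
      ring
    simp_rw [e]
    exact integral_leaf μ hU hav hPbm hPa
  -- conditional expectation given the coordinate `v`
  set T : Finset V := Finset.univ.erase v with hT
  set E : (V → Ω) → ℝ := condE μ T P with hE
  have hEbm : BM E := BM.condE μ hPbm
  have hdv : BM (fun x : V → Ω => dK μ U (x v)) := (dK_bm μ hU).comp (measurable_pi_apply v)
  have hvT : v ∉ T := by simp [hT]
  have hindepv : ∀ {g : Ω → ℝ}, Indep T (fun x : V → Ω => g (x v)) := by
    intro g x y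
    simp only [merge_of_not_mem hvT]
  have h2 : tF μ hU F = ∫ x, dK μ U (x v) * E x ∂(piM μ V) := by
    rw [h1]
    have := integral_mul_condE μ T hdv hPbm (hindepv (g := dK μ U))
    rw [← this]
    congr 1
    ext x
    ring
  have hEabs : ∀ x, |E x| ≤ ε ^ F'.card := by
    intro x
    have := norm_integral_le_of_norm_le_const (μ := piM μ V)
      (f := fun y => P (merge T x y)) (C := ε ^ F'.card)
      (Filter.Eventually.of_forall fun y => by rw [Real.norm_eq_abs]; exact hPabs _)
    simpa [hE, condE, Real.norm_eq_abs] using this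
  -- `E` is a function of the coordinate `v`
  set Ev : Ω → ℝ := fun r => E (fun _ => r) with hEv
  have hEfun : ∀ x, E x = Ev (x v) := by
    intro x
    simp only [hEv, hE, condE]
    congr 1
    ext y
    congr 1
    ext i
    by_cases hi : i = v
    · subst hi; simp [hT]
    · have : i ∈ T := by simp [hT, hi]
      simp [this]
  have hEvm : Measurable Ev := by
    have : Measurable (fun r : Ω => (fun _ : V => r)) := measurable_pi_lambda _ fun _ => measurable_id
    exact hEbm.1.comp this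
  set sgn : Ω → ℝ := fun r => if 0 ≤ Ev r then 1 else -1 with hsgn
  have hsgnm : GoodW sgn := by
    refine ⟨Measurable.ite (measurableSet_le measurable_const hEvm) measurable_const measurable_const,
      fun r => ?_⟩
    simp only [hsgn]
    split_ifs <;> simp
  have hsgnabs : ∀ x, |E x| = sgn (x v) * E x := by
    intro x
    rw [hEfun x]
    simp only [hsgn]
    split_ifs with h
    · rw [abs_of_nonneg h, one_mul]
    · rw [abs_of_neg (not_le.mp h)]; ring
  have h3 : ∫ x, |E x| ∂(piM μ V) ≤ ε ^ (F'.card - 2 * (k + 1)) * tF μ hU (cycEdges c) := by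
    have e1 : ∫ x, |E x| ∂(piM μ V) = ∫ x, sgn (x v) * P x ∂(piM μ V) := by
      simp_rw [hsgnabs]
      exact (integral_mul_condE μ T (hsgnm.bm v) hPbm (hindepv (g := sgn))).symm
    rw [e1]
    exact (le_abs_self _).trans (integral_induced μ hU hε hε0 hk hc hCF hind hsgnm v)
  have hEsq : BM (fun x => E x ^ 2) := by simpa [sq] using hEbm.mul hEbm
  have h4 : ∫ x, E x ^ 2 ∂(piM μ V)
      ≤ ε ^ (2 * (F.card - 1) - 2 * (k + 1)) * tF μ hU (cycEdges c) := by
    have hle : ∀ x, E x ^ 2 ≤ ε ^ F'.card * |E x| := by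
      intro x
      rw [← sq_abs, sq]
      exact mul_le_mul_of_nonneg_right (hEabs x) (abs_nonneg _)
    have hi1 : Integrable (fun x => E x ^ 2) (piM μ V) := hEsq.integrable
    have hi2 : Integrable (fun x => |E x| * ε ^ F'.card) (piM μ V) :=
      (hEbm.abs.mul (BM.const (ε ^ F'.card))).integrable
    have hi := integral_mono hi1 hi2
      (fun x => by
        show E x ^ 2 ≤ |E x| * ε ^ F'.card
        rw [mul_comm]
        exact hle x)
    rw [integral_mul_const] at hi
    refine hi.trans ?_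
    have hcard2 : 2 * (k + 1) ≤ F'.card := by
      rw [← card_cycEdges hk hc]
      exact Finset.card_le_card hCF
    have hexp : 2 * (F.card - 1) - 2 * (k + 1) = F'.card + (F'.card - 2 * (k + 1)) := by
      rw [hF'card] at hcard2 ⊢
      omega
    rw [hexp, pow_add, mul_assoc, mul_comm (∫ x, |E x| ∂(piM μ V))]
    exact mul_le_mul_of_nonneg_left h3 (pow_nonneg hε0.le _)
  -- final arithmetic
  have hdsq : BM (fun x : V → Ω => dK μ U (x v) ^ 2) := by simpa [sq] using hdv.mul hdv
  have hbound : ∀ x, |dK μ U (x v) * E x| ≤ (β * dK μ U (x v) ^ 2 + β⁻¹ * E x ^ 2) / 2 := by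
    intro x
    have hβi : β * β⁻¹ = 1 := mul_inv_cancel₀ hβ.ne'
    have hβ' : 0 < β⁻¹ := inv_pos.mpr hβ
    rw [abs_le]
    constructor
    · have : 0 ≤ β * (dK μ U (x v) + β⁻¹ * E x) ^ 2 := by positivity
      have e : β * (dK μ U (x v) + β⁻¹ * E x) ^ 2
          = β * dK μ U (x v) ^ 2 + 2 * (β * β⁻¹) * (dK μ U (x v) * E x)
            + (β * β⁻¹) * (β⁻¹ * E x ^ 2) := by ring
      rw [e, hβi] at this
      linarith
    · have : 0 ≤ β * (dK μ U (x v) - β⁻¹ * E x) ^ 2 := by positivity
      have e : β * (dK μ U (x v) - β⁻¹ * E x) ^ 2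
          = β * dK μ U (x v) ^ 2 - 2 * (β * β⁻¹) * (dK μ U (x v) * E x)
            + (β * β⁻¹) * (β⁻¹ * E x ^ 2) := by ring
      rw [e, hβi] at this
      linarith
  have hRi : Integrable (fun x => (β * dK μ U (x v) ^ 2 + β⁻¹ * E x ^ 2) / 2) (piM μ V) :=
    ((hdsq.integrable.const_mul β).add (hEsq.integrable.const_mul β⁻¹)).div_const 2
  have hLi : Integrable (fun x => |dK μ U (x v) * E x|) (piM μ V) :=
    (hdv.mul hEbm).abs.integrable
  rw [h2]
  calc |∫ x, dK μ U (x v) * E x ∂(piM μ V)|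
      ≤ ∫ x, |dK μ U (x v) * E x| ∂(piM μ V) := abs_integral_le_integral_abs
    _ ≤ ∫ x, (β * dK μ U (x v) ^ 2 + β⁻¹ * E x ^ 2) / 2 ∂(piM μ V) :=
        integral_mono hLi hRi hbound
    _ = (β * dA μ U + β⁻¹ * ∫ x, E x ^ 2 ∂(piM μ V)) / 2 := by
        rw [integral_div, integral_add (hdsq.integrable.const_mul β)
          (hEsq.integrable.const_mul β⁻¹), integral_const_mul, integral_const_mul,
          integral_dK_sq μ hU]
    _ ≤ _ := by
        have hβ' : 0 < β⁻¹ := inv_pos.mpr hβ
        have := mul_le_mul_of_nonneg_left h4 hβ'.le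
        linarith

end induced

end Vale.Agent.Lib.P050
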