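import Vale.Agent.Lib.P050.Combi

/-!
# Exploration bound for connected edge sets

In a graph of maximum degree `Δ`, the generating function of the edge sets all of whose edges are
reachable from a fixed vertex set `W`, evaluated at `1 / (3 Δ)`, is at most `3 ^ |W|`.
-/

set_option linter.unusedSectionVars false

namespace Vale.Agent.Lib.P050

open Finset

variable {V : Type*} [Fintype V] [DecidableEq V]

/-- Degree in `E`. -/
def degE (E : Finset (Sym2 V)) (v : V) : ℕ := (E.filter fun e => v ∈ e).card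

/-- Edge sets avoiding `X`, all of whose edges are reachable from `W`. -/
noncomputable def fam (E X : Finset (Sym2 V)) (W : Finset V) : Finset (Finset (Sym2 V)) := by
  classical
  exact (E \ X).powerset.filter fun γ => ∀ e ∈ γ, ∀ w ∈ e, ∃ r ∈ W, Reach γ r w

lemma mem_fam {E X : Finset (Sym2 V)} {W : Finset V} {γ : Finset (Sym2 V)} :
    γ ∈ fam E X W ↔ γ ⊆ E \ X ∧ ∀ e ∈ γ, ∀ w ∈ e, ∃ r ∈ W, Reach γ r w := by
  classical
  simp [fam]

/-- Undecided edges touching `W`. -/
def bdry (E X : Finset (Sym2 V)) (W : Finset V) : Finset (Sym2 V) :=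
  (E \ X).filter fun e => ∃ w ∈ e, w ∈ W

lemma mem_bdry {E X : Finset (Sym2 V)} {W : Finset V} {e : Sym2 V} :
    e ∈ bdry E X W ↔ e ∈ E ∧ e ∉ X ∧ ∃ w ∈ e, w ∈ W := by
  simp [bdry, and_assoc]

lemma bdry_card_le (E X : Finset (Sym2 V)) (W : Finset V) {Δ : ℕ} (hdeg : ∀ v, degE E v ≤ Δ) :
    (bdry E X W).card ≤ W.card * Δ := by
  have hsub : bdry E X W ⊆ W.biUnion fun w => E.filter fun e => w ∈ e := by
    intro e he
    obtain ⟨h1, -, w, hw, hwW⟩ := mem_bdry.mp he
    exact mem_biUnion.mpr ⟨w, hwW, mem_filter.mpr ⟨h1, hw⟩⟩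
  calc (bdry E X W).card ≤ _ := card_le_card hsub
    _ ≤ ∑ w ∈ W, (E.filter fun e => w ∈ e).card := card_biUnion_le
    _ ≤ ∑ _w ∈ W, Δ := sum_le_sum fun w _ => hdeg w
    _ = W.card * Δ := by simp

/-- Removing an edge: reachability restarts at its endpoints. -/
lemma reach_restart {γ R : Finset (Sym2 V)} {W : Finset V} {r w : V} (hr : r ∈ W)
    (hR : ∀ e ∈ R, ∀ z ∈ e, z ∈ W) (h : Reach γ r w) : ∃ r' ∈ W, Reach (γ \ R) r' w := by
  induction h with
  | refl => exact ⟨r, hr, Reach.refl _ _⟩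
  | @tail a b _ h2 ih =>
    by_cases hab : s(a, b) ∈ R
    · exact ⟨b, hR _ hab b (by simp), Reach.refl _ _⟩
    · obtain ⟨r', hr', hra⟩ := ih
      exact ⟨r', hr', hra.tail (mem_sdiff.mpr ⟨h2, hab⟩)⟩

theorem fam_sum_le (E : Finset (Sym2 V)) {Δ : ℕ} (hdeg : ∀ v, degE E v ≤ Δ) {y a : ℝ} (hy : 0 ≤ y)
    (ha : 1 ≤ a) (h : 1 + y * a ^ (Δ - 1) ≤ a) :
    ∀ n (X : Finset (Sym2 V)) (W : Finset V), (E \ X).card = n →
      ∑ γ ∈ fam E X W, y ^ γ.card ≤ a ^ (bdry E X W).card := by
  intro n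
  induction n with
  | zero =>
    intro X W hn
    have hempty : E \ X = ∅ := card_eq_zero.mp hn
    have hsub : fam E X W ⊆ {∅} := by
      intro γ hγ
      have := (mem_fam.mp hγ).1
      rw [hempty, subset_empty] at this
      simp [this]
    calc ∑ γ ∈ fam E X W, y ^ γ.card ≤ ∑ γ ∈ ({∅} : Finset (Finset (Sym2 V))), y ^ γ.card :=
          sum_le_sum_of_subset_of_nonneg hsub fun _ _ _ => pow_nonneg hy _
      _ = 1 := by simp
      _ ≤ _ := one_le_pow₀ ha
  | succ n ih =>
    intro X W hn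
    by_cases hb : bdry E X W = ∅
    · -- nothing to explore
      have hsub : fam E X W ⊆ {∅} := by
        intro γ hγ
        obtain ⟨h1, h2⟩ := mem_fam.mp hγ
        rw [mem_singleton]
        by_contra hne
        obtain ⟨e, he⟩ := nonempty_iff_ne_empty.mpr hne
        obtain ⟨w, hw⟩ : ∃ w, w ∈ e := by
          induction e using Sym2.ind with
          | _ a b => exact ⟨a, by simp⟩
        obtain ⟨r, hrW, hr⟩ := h2 e he w hw
        rcases Relation.ReflTransGen.cases_head hr with hrw | ⟨c, hc, -⟩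
        · subst hrw
          have : e ∈ bdry E X W := by
            have := mem_sdiff.mp (h1 he)
            exact mem_bdry.mpr ⟨this.1, this.2, r, hw, hrW⟩
          rw [hb] at this
          simp at this
        · have hc' : s(r, c) ∈ γ := hc
          have : s(r, c) ∈ bdry E X W := by
            have := mem_sdiff.mp (h1 hc')
            exact mem_bdry.mpr ⟨this.1, this.2, r, by simp, hrW⟩
          rw [hb] at this
          simp at this
      calc ∑ γ ∈ fam E X W, y ^ γ.card ≤ ∑ γ ∈ ({∅} : Finset (Finset (Sym2 V))), y ^ γ.card :=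
            sum_le_sum_of_subset_of_nonneg hsub fun _ _ _ => pow_nonneg hy _
        _ = 1 := by simp
        _ ≤ _ := one_le_pow₀ ha
    · obtain ⟨e, he⟩ := nonempty_iff_ne_empty.mpr hb
      obtain ⟨heE, heX, hetouch⟩ := mem_bdry.mp he
      -- orient the chosen edge
      obtain ⟨u, z, rfl, huW⟩ : ∃ u z, e = s(u, z) ∧ u ∈ W := by
        obtain ⟨w, hw, hwW⟩ := hetouch
        obtain ⟨z, hz⟩ := Sym2.mem_iff_exists.mp hw
        exact ⟨w, z, hz, hwW⟩
      set e := s(u, z) with he_def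
      have hcard : (E \ insert e X).card = n := by
        have h1 : E \ insert e X = (E \ X).erase e := by
          ext f
          simp only [mem_sdiff, mem_insert, not_or, mem_erase]
          tauto
        rw [h1, card_erase_of_mem (mem_sdiff.mpr ⟨heE, heX⟩), hn]
        rfl
      set W' := insert u (insert z W) with hW'
      have hb0 := ih (insert e X) W hcard
      have hb1 := ih (insert e X) W' hcard
      set b := (bdry E X W).card with hbdef
      have hbpos : 1 ≤ b := card_pos.mpr ⟨e, he⟩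
      have hc0 : (bdry E (insert e X) W).card ≤ b - 1 := by
        have : bdry E (insert e X) W ⊆ (bdry E X W).erase e := by
          intro f hf
          obtain ⟨h1, h2, h3⟩ := mem_bdry.mp hf
          rw [mem_insert, not_or] at h2
          exact mem_erase.mpr ⟨h2.1, mem_bdry.mpr ⟨h1, h2.2, h3⟩⟩
        calc _ ≤ _ := card_le_card this
          _ = b - 1 := card_erase_of_mem he
      have hc1 : (bdry E (insert e X) W').card ≤ (b - 1) + (Δ - 1) := by
        have : bdry E (insert e X) W' ⊆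
            (bdry E X W).erase e ∪ (E.filter fun f => z ∈ f).erase e := by
          intro f hf
          obtain ⟨h1, h2, w, hw, hwW⟩ := mem_bdry.mp hf
          rw [mem_insert, not_or] at h2
          simp only [hW', mem_insert] at hwW
          rcases hwW with rfl | rfl | hwW
          · exact mem_union_left _ (mem_erase.mpr ⟨h2.1, mem_bdry.mpr ⟨h1, h2.2, w, hw, huW⟩⟩)
          · exact mem_union_right _ (mem_erase.mpr ⟨h2.1, mem_filter.mpr ⟨h1, hw⟩⟩)
          · exact mem_union_left _ (mem_erase.mpr ⟨h2.1, mem_bdry.mpr ⟨h1, h2.2, w, hw, hwW⟩⟩)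
        have hz : e ∈ E.filter fun f => z ∈ f := mem_filter.mpr ⟨heE, by simp [he_def]⟩
        calc _ ≤ _ := card_le_card this
          _ ≤ _ := card_union_le _ _
          _ = (b - 1) + ((E.filter fun f => z ∈ f).card - 1) := by
              rw [card_erase_of_mem he, card_erase_of_mem hz]
          _ ≤ _ := by
              have := hdeg z
              unfold degE at this
              omega
      -- split the sum
      have hsplit : ∑ γ ∈ fam E X W, y ^ γ.card
          = ∑ γ ∈ (fam E X W).filter (fun γ => e ∉ γ), y ^ γ.card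
            + ∑ γ ∈ (fam E X W).filter (fun γ => ¬ e ∉ γ), y ^ γ.card :=
        (sum_filter_add_sum_filter_not _ _ _).symm
      have hA0 : ∑ γ ∈ (fam E X W).filter (fun γ => e ∉ γ), y ^ γ.card
          ≤ ∑ γ ∈ fam E (insert e X) W, y ^ γ.card := by
        apply sum_le_sum_of_subset_of_nonneg _ fun _ _ _ => pow_nonneg hy _
        intro γ hγ
        obtain ⟨h1, h2⟩ := mem_filter.mp hγ
        obtain ⟨h3, h4⟩ := mem_fam.mp h1
        refine mem_fam.mpr ⟨?_, h4⟩
        intro f hf
        have := mem_sdiff.mp (h3 hf)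
        refine mem_sdiff.mpr ⟨this.1, ?_⟩
        rw [mem_insert, not_or]
        exact ⟨fun hc => h2 (hc ▸ hf), this.2⟩
      have hA1 : ∑ γ ∈ (fam E X W).filter (fun γ => ¬ e ∉ γ), y ^ γ.card
          ≤ y * ∑ γ ∈ fam E (insert e X) W', y ^ γ.card := by
        have hinj : Set.InjOn (fun γ : Finset (Sym2 V) => γ.erase e)
            ((fam E X W).filter (fun γ => ¬ e ∉ γ) : Finset _) := by
          intro γ hγ γ' hγ' hEq
          have h1 : e ∈ γ := not_not.mp (mem_filter.mp hγ).2
          have h2 : e ∈ γ' := not_not.mp (mem_filter.mp hγ').2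
          have h3 : insert e (γ.erase e) = insert e (γ'.erase e) := by
            simp only at hEq
            rw [hEq]
          rwa [insert_erase h1, insert_erase h2] at h3
        have himg : ((fam E X W).filter (fun γ => ¬ e ∉ γ)).image (fun γ => γ.erase e)
            ⊆ fam E (insert e X) W' := by
          intro γ' hγ'
          obtain ⟨γ, hγ, rfl⟩ := mem_image.mp hγ'
          obtain ⟨h1, h2⟩ := mem_filter.mp hγ
          have h2' : e ∈ γ := not_not.mp h2
          obtain ⟨h3, h4⟩ := mem_fam.mp h1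
          refine mem_fam.mpr ⟨?_, ?_⟩
          · intro f hf
            obtain ⟨h5, h6⟩ := mem_erase.mp hf
            have := mem_sdiff.mp (h3 h6)
            refine mem_sdiff.mpr ⟨this.1, ?_⟩
            rw [mem_insert, not_or]
            exact ⟨h5, this.2⟩
          · intro f hf w hw
            obtain ⟨h5, h6⟩ := mem_erase.mp hf
            obtain ⟨r, hrW, hr⟩ := h4 f h6 w hw
            have hrW' : r ∈ W' := by simp [hW', hrW]
            have hR : ∀ e' ∈ ({e} : Finset (Sym2 V)), ∀ z' ∈ e', z' ∈ W' := by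
              intro e' he' z' hz'
              rw [mem_singleton] at he'
              subst he'
              simp only [he_def, Sym2.mem_iff] at hz'
              rcases hz' with rfl | rfl <;> simp [hW']
            obtain ⟨r', hr', hreach⟩ := reach_restart hrW' hR hr
            refine ⟨r', hr', ?_⟩
            have : γ \ {e} = γ.erase e := by
              ext g; simp [and_comm]
            rwa [this] at hreach
        calc ∑ γ ∈ (fam E X W).filter (fun γ => ¬ e ∉ γ), y ^ γ.card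
            = ∑ γ ∈ (fam E X W).filter (fun γ => ¬ e ∉ γ), y * y ^ (γ.erase e).card := by
              refine sum_congr rfl fun γ hγ => ?_
              have h2 : e ∈ γ := not_not.mp (mem_filter.mp hγ).2
              rw [card_erase_of_mem h2, ← pow_succ']
              congr 1
              have := card_pos.mpr ⟨e, h2⟩
              omega
          _ = y * ∑ γ ∈ ((fam E X W).filter (fun γ => ¬ e ∉ γ)).image (fun γ => γ.erase e),
                y ^ γ.card := by
              rw [mul_sum, sum_image hinj]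
          _ ≤ _ := by
              apply mul_le_mul_of_nonneg_left _ hy
              exact sum_le_sum_of_subset_of_nonneg himg fun _ _ _ => pow_nonneg hy _
      rw [hsplit]
      have hpow0 : a ^ (bdry E (insert e X) W).card ≤ a ^ (b - 1) := pow_le_pow_right₀ ha hc0
      have hpow1 : a ^ (bdry E (insert e X) W').card ≤ a ^ ((b - 1) + (Δ - 1)) :=
        pow_le_pow_right₀ ha hc1
      have hapos : 0 ≤ a ^ (b - 1) := pow_nonneg (by linarith) _
      calc _ ≤ a ^ (b - 1) + y * a ^ ((b - 1) + (Δ - 1)) := by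
            apply add_le_add (hA0.trans (hb0.trans hpow0))
            exact hA1.trans (mul_le_mul_of_nonneg_left (hb1.trans hpow1) hy)
        _ = a ^ (b - 1) * (1 + y * a ^ (Δ - 1)) := by rw [pow_add]; ring
        _ ≤ a ^ (b - 1) * a := mul_le_mul_of_nonneg_left h hapos
        _ = a ^ b := by
            rw [← pow_succ]
            congr 1
            omega

lemma base_pow_le {Δ : ℕ} (hΔ : 1 ≤ Δ) : (1 + 1 / (Δ : ℝ)) ^ Δ ≤ 3 := by
  have hΔ' : (0 : ℝ) < Δ := by exact_mod_cast hΔ
  have h1 : 1 + 1 / (Δ : ℝ) ≤ Real.exp (1 / Δ) := by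
    have := Real.add_one_le_exp (1 / (Δ : ℝ))
    linarith
  have h2 : (1 + 1 / (Δ : ℝ)) ^ Δ ≤ Real.exp (1 / Δ) ^ Δ :=
    pow_le_pow_left₀ (by positivity) h1 Δ
  have h3 : Real.exp (1 / Δ) ^ Δ = Real.exp 1 := by
    rw [← Real.exp_nat_mul]
    congr 1
    field_simp
  have h4 := Real.exp_one_lt_d9
  rw [h3] at h2
  linarith

/-- The exploration bound at the critical weight. -/
theorem fam_sum_le3 (E X : Finset (Sym2 V)) (W : Finset V) {Δ : ℕ} (hΔ : 1 ≤ Δ)
    (hdeg : ∀ v, degE E v ≤ Δ) :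
    ∑ γ ∈ fam E X W, (1 / (3 * (Δ : ℝ))) ^ γ.card ≤ 3 ^ W.card := by
  have hΔ' : (0 : ℝ) < Δ := by exact_mod_cast hΔ
  set a : ℝ := 1 + 1 / (Δ : ℝ) with ha
  have ha1 : 1 ≤ a := by
    have : 0 ≤ 1 / (Δ : ℝ) := by positivity
    linarith
  have hpow := base_pow_le hΔ
  rw [← ha] at hpow
  have hstep : 1 + 1 / (3 * (Δ : ℝ)) * a ^ (Δ - 1) ≤ a := by
    have h1 : a ^ (Δ - 1) ≤ 3 := (pow_le_pow_right₀ ha1 (Nat.sub_le _ _)).trans hpow
    have h2 : 1 / (3 * (Δ : ℝ)) * a ^ (Δ - 1) ≤ 1 / (3 * (Δ : ℝ)) * 3 :=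
      mul_le_mul_of_nonneg_left h1 (by positivity)
    have h3 : 1 / (3 * (Δ : ℝ)) * 3 = 1 / (Δ : ℝ) := by field_simp
    rw [ha]
    rw [← ha]
    linarith [ha]
  have key := fam_sum_le E hdeg (y := 1 / (3 * (Δ : ℝ))) (a := a) (by positivity) ha1 hstep
    _ X W rfl
  refine key.trans ?_
  calc a ^ (bdry E X W).card ≤ a ^ (W.card * Δ) :=
        pow_le_pow_right₀ ha1 (bdry_card_le E X W hdeg)
    _ = (a ^ Δ) ^ W.card := by rw [mul_comm, pow_mul]
    _ ≤ 3 ^ W.card := pow_le_pow_left₀ (pow_nonneg (by linarith) _) hpow _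

/-- Connected edge sets through a vertex. -/
theorem conn_sum_vertex (E : Finset (Sym2 V)) (v : V) {Δ : ℕ} (hΔ : 1 ≤ Δ)
    (hdeg : ∀ v, degE E v ≤ Δ) (P : Finset (Finset (Sym2 V)))
    (hP : ∀ γ ∈ P, γ ⊆ E ∧ v ∈ verts γ ∧ Conn γ) :
    ∑ γ ∈ P, (1 / (3 * (Δ : ℝ))) ^ γ.card ≤ 3 := by
  have hΔ' : (0 : ℝ) < Δ := by exact_mod_cast hΔ
  have hsub : P ⊆ fam E ∅ {v} := by
    intro γ hγ
    obtain ⟨h1, h2, h3⟩ := hP γ hγ
    refine mem_fam.mpr ⟨by simpa using h1, fun e he w hw => ⟨v, by simp, ?_⟩⟩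
    exact h3 v h2 w (mem_verts.mpr ⟨e, he, hw⟩)
  have := fam_sum_le3 E ∅ {v} hΔ hdeg
  simp only [card_singleton, pow_one] at this
  refine le_trans ?_ this
  exact sum_le_sum_of_subset_of_nonneg hsub fun _ _ _ => by positivity

/-- Connected edge sets containing a fixed nonempty edge set. -/
theorem conn_sum_super (E R : Finset (Sym2 V)) {Δ : ℕ} (hΔ : 1 ≤ Δ)
    (hdeg : ∀ v, degE E v ≤ Δ) (hRne : R.Nonempty) (P : Finset (Finset (Sym2 V)))
    (hP : ∀ γ ∈ P, γ ⊆ E ∧ R ⊆ γ ∧ Conn γ) :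
    ∑ γ ∈ P, (1 / (3 * (Δ : ℝ))) ^ (γ.card - R.card) ≤ 3 ^ (verts R).card := by
  have hΔ' : (0 : ℝ) < Δ := by exact_mod_cast hΔ
  have hinj : Set.InjOn (fun γ : Finset (Sym2 V) => γ \ R) (P : Set (Finset (Sym2 V))) := by
    intro γ hγ γ' hγ' hEq
    have h1 := (hP γ hγ).2.1
    have h2 := (hP γ' hγ').2.1
    simp only at hEq
    have h3 : γ \ R ∪ R = γ' \ R ∪ R := by rw [hEq]
    rwa [sdiff_union_of_subset h1, sdiff_union_of_subset h2] at h3
  have himg : P.image (fun γ => γ \ R) ⊆ fam E R (verts R) := by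
    intro γ' hγ'
    obtain ⟨γ, hγ, rfl⟩ := mem_image.mp hγ'
    obtain ⟨h1, h2, h3⟩ := hP γ hγ
    refine mem_fam.mpr ⟨sdiff_subset_sdiff h1 le_rfl, ?_⟩
    intro e he w hw
    obtain ⟨e0, he0⟩ := hRne
    obtain ⟨r, hr⟩ : ∃ r, r ∈ e0 := by
      induction e0 using Sym2.ind with
      | _ a b => exact ⟨a, by simp⟩
    have hrv : r ∈ verts R := mem_verts.mpr ⟨e0, he0, hr⟩
    have hrγ : r ∈ verts γ := mem_verts.mpr ⟨e0, h2 he0, hr⟩
    have hwγ : w ∈ verts γ := mem_verts.mpr ⟨e, (mem_sdiff.mp he).1, hw⟩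
    exact reach_restart hrv (fun f hf z hz => mem_verts.mpr ⟨f, hf, hz⟩) (h3 r hrγ w hwγ)
  calc ∑ γ ∈ P, (1 / (3 * (Δ : ℝ))) ^ (γ.card - R.card)
      = ∑ γ ∈ P, (1 / (3 * (Δ : ℝ))) ^ (γ \ R).card := by
        refine sum_congr rfl fun γ hγ => ?_
        rw [card_sdiff_of_subset (hP γ hγ).2.1]
    _ = ∑ γ' ∈ P.image (fun γ => γ \ R), (1 / (3 * (Δ : ℝ))) ^ γ'.card := by
        rw [sum_image hinj]
    _ ≤ ∑ γ' ∈ fam E R (verts R), (1 / (3 * (Δ : ℝ))) ^ γ'.card :=
        sum_le_sum_of_subset_of_nonneg himg fun _ _ _ => by positivity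
    _ ≤ _ := fam_sum_le3 E R (verts R) hΔ hdeg

end Vale.Agent.Lib.P050
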