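import Vale.Agent.Lib.P050.Assemble
import Vale.Agent.Lib.P050.Defs

/-!
# The local Sidorenko inequality with a maximum degree bound
-/

open MeasureTheory

set_option linter.unusedSectionVars false

namespace Vale.Agent.Lib.P050

variable {V : Type*} [Fintype V] [DecidableEq V]
variable {Ω : Type*} [MeasurableSpace Ω] (μ : Measure Ω) [IsProbabilityMeasure μ]

/-- The joint law of two different coordinates. -/
lemma map_pair {u v : V} (huv : u ≠ v) :
    (piM μ V).map (fun x => (x u, x v)) = μ.prod μ := by
  classical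
  have hm : Measurable (fun x : V → Ω => (x u, x v)) :=
    (measurable_pi_apply u).prodMk (measurable_pi_apply v)
  symm
  refine Measure.prod_eq fun A B hA hB => ?_
  rw [Measure.map_apply hm (hA.prod hB)]
  set s : V → Set Ω := fun i => if i = u then A else if i = v then B else Set.univ with hs
  have hset : (fun x : V → Ω => (x u, x v)) ⁻¹' A ×ˢ B = Set.univ.pi s := by
    ext x
    simp only [Set.mem_preimage, Set.mem_prod, Set.mem_pi, Set.mem_univ, true_implies, hs]
    constructor
    · rintro ⟨h1, h2⟩ i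
      by_cases hi : i = u
      · subst hi; simpa using h1
      · by_cases hi2 : i = v
        · subst hi2; simpa [hi] using h2
        · simp [hi, hi2]
    · intro h
      refine ⟨by simpa using h u, ?_⟩
      have := h v
      simpa [huv.symm] using this
  rw [hset, Measure.pi_pi]
  rw [Finset.prod_eq_mul u v huv]
  · simp [hs, huv.symm]
  · intro i _ hi
    simp [hs, hi.1, hi.2]
  · intro h; exact absurd (Finset.mem_univ _) h
  · intro h; exact absurd (Finset.mem_univ _) h

/-- The local Sidorenko inequality, on an arbitrary probability space. -/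
theorem local_sidorenko_prob (H : SimpleGraph V) [DecidableRel H.Adj] (hbip : H.Colorable 2)
    {Δ : ℕ} (hΔ : 1 ≤ Δ) (hdeg : ∀ v, H.degree v ≤ Δ) (W : Ω → Ω → ℝ)
    (hWm : Measurable (Function.uncurry W)) (hWs : ∀ a b, W a b = W b a)
    (hW1 : ∫ p, W p.1 p.2 ∂(μ.prod μ) = 1)
    (hWε : ∀ᵐ p ∂(μ.prod μ), |W p.1 p.2 - 1| ≤ 1 / (100 * (Δ : ℝ))) :
    1 ≤ ∫ x, ∏ e ∈ H.edgeFinset, edgeValue W hWs x e ∂(piM μ V) := by
  classical
  have hΔ' : (0 : ℝ) < Δ := by exact_mod_cast hΔ
  set ε : ℝ := 1 / (100 * (Δ : ℝ)) with hεdef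
  have hε0 : 0 < ε := by positivity
  -- the modified kernel
  set U : Ω → Ω → ℝ := fun a b => if |W a b - 1| ≤ ε then W a b - 1 else 0 with hUdef
  have hUabs : ∀ a b, |U a b| ≤ ε := by
    intro a b
    simp only [hUdef]
    split_ifs with h
    · exact h
    · simpa using hε0.le
  have hG : MeasurableSet {p : Ω × Ω | |Function.uncurry W p - 1| ≤ ε} :=
    measurableSet_le ((hWm.sub_const 1).abs) measurable_const
  have hU : GoodKernel U := by
    refine ⟨?_, ⟨ε, hUabs⟩, ?_⟩
    · have : Function.uncurry U = fun p : Ω × Ω =>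
          if |Function.uncurry W p - 1| ≤ ε then Function.uncurry W p - 1 else 0 := by
        ext ⟨a, b⟩
        rfl
      rw [this]
      exact Measurable.ite hG (hWm.sub_const 1) measurable_const
    · intro a b
      simp only [hUdef]
      rw [hWs a b]
  have hUae : ∀ᵐ p ∂(μ.prod μ), W p.1 p.2 = 1 + U p.1 p.2 := by
    filter_upwards [hWε] with p hp
    simp only [hUdef]
    rw [if_pos hp]
    ring
  -- the total mass
  have hUbm : BM (fun p : Ω × Ω => U p.1 p.2) := ⟨hU.meas, ε, fun p => hUabs _ _⟩
  have h0 : ∫ r, dK μ U r ∂μ = 0 := by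
    have h1 : ∫ p, U p.1 p.2 ∂(μ.prod μ) = ∫ r, dK μ U r ∂μ :=
      integral_prod _ hUbm.integrable
    rw [← h1]
    have h2 : ∫ p, W p.1 p.2 ∂(μ.prod μ) = ∫ p, (1 + U p.1 p.2) ∂(μ.prod μ) :=
      integral_congr_ae hUae
    rw [hW1, integral_add (integrable_const _) hUbm.integrable] at h2
    simp only [integral_const, probReal_univ, smul_eq_mul, mul_one] at h2
    linarith
  -- the graph data
  have hl : NoLoops H.edgeFinset := by
    intro x hx
    rw [SimpleGraph.mem_edgeFinset] at hx
    exact H.loopless.irrefl x hx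
  have hcol : ∃ c : V → Bool, ∀ x y, s(x, y) ∈ H.edgeFinset → c x ≠ c y := by
    obtain ⟨C⟩ := hbip
    refine ⟨fun v => decide (C v = 0), fun x y hxy => ?_⟩
    rw [SimpleGraph.mem_edgeFinset] at hxy
    have hne : C x ≠ C y := C.valid hxy
    intro hc
    apply hne
    have h1 : (C x = 0) ↔ (C y = 0) := by simpa using hc
    have hx2 : ∀ z : Fin 2, z = 0 ∨ z = 1 := by decide
    rcases hx2 (C x) with h2 | h2 <;> rcases hx2 (C y) with h3 | h3
    · rw [h2, h3]
    · exfalso
      rw [h1.mp h2] at h3
      exact absurd h3 (by decide)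
    · exfalso
      rw [h1.mpr h3] at h2
      exact absurd h2 (by decide)
    · rw [h2, h3]
  have hdegE : ∀ v, degE H.edgeFinset v ≤ Δ := by
    intro v
    refine le_trans (le_of_eq ?_) (hdeg v)
    rw [← SimpleGraph.card_incidenceFinset_eq_degree, SimpleGraph.incidenceFinset_eq_filter]
    rfl
  have hmain := local_bdd μ hU hUabs hl hcol hdegE hΔ hε0 le_rfl h0
  -- comparing the integrands
  have hae : ∀ᵐ x ∂(piM μ V), ∀ e ∈ H.edgeFinset, edgeValue W hWs x e = 1 + evE hU x e := by
    rw [Filter.eventually_all_finset]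
    intro e he
    induction e using Sym2.ind with
    | _ u v =>
      have huv := hl.ne he
      have hm : Measurable (fun x : V → Ω => (x u, x v)) :=
        (measurable_pi_apply u).prodMk (measurable_pi_apply v)
      have h2 : ∀ᵐ p ∂((piM μ V).map (fun x => (x u, x v))),
          |Function.uncurry W p - 1| ≤ ε := by
        rw [map_pair μ huv]
        exact hWε
      have h3 := (ae_map_iff hm.aemeasurable hG).mp h2
      filter_upwards [h3] with x hx
      simp only [edgeValue, Sym2.lift_mk, evE_mk, hUdef]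
      simp only [Function.uncurry] at hx
      rw [if_pos hx]
      ring
  have hint : ∫ x, ∏ e ∈ H.edgeFinset, edgeValue W hWs x e ∂(piM μ V)
      = ∫ x, ∏ e ∈ H.edgeFinset, (1 + evE hU x e) ∂(piM μ V) := by
    apply integral_congr_ae
    filter_upwards [hae] with x hx
    exact Finset.prod_congr rfl hx
  rw [hint]
  exact hmain

end Vale.Agent.Lib.P050
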