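import Mathlib

/-!
# Measure utilities for the local Sidorenko theorem

Bounded measurable functions on a product of copies of a probability space, and
the resampling identity: overwriting a set of coordinates by an independent copy
preserves the product measure.
-/

open MeasureTheory

set_option linter.unusedSectionVars false

namespace Vale.Agent.Lib.P050

section BM

variable {α : Type*} [MeasurableSpace α]

/-- Bounded and measurable real function. -/
def BM (h : α → ℝ) : Prop := Measurable h ∧ ∃ C, ∀ x, |h x| ≤ C

lemma BM.integrable {ν : Measure α} [IsFiniteMeasure ν] {h : α → ℝ} (hh : BM h) :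
    Integrable h ν := by
  obtain ⟨hm, C, hC⟩ := hh
  exact Integrable.of_bound hm.aestronglyMeasurable C
    (Filter.Eventually.of_forall fun x => by simpa [Real.norm_eq_abs] using hC x)

lemma BM.const (c : ℝ) : BM (fun _ : α => c) :=
  ⟨measurable_const, |c|, fun _ => le_rfl⟩

lemma BM.mul {f g : α → ℝ} (hf : BM f) (hg : BM g) : BM (fun x => f x * g x) := by
  obtain ⟨hfm, C, hC⟩ := hf
  obtain ⟨hgm, D, hD⟩ := hg
  refine ⟨hfm.mul hgm, C * D, fun x => ?_⟩
  rw [abs_mul]
  exact mul_le_mul (hC x) (hD x) (abs_nonneg _) ((abs_nonneg _).trans (hC x))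

lemma BM.finset_prod {ι : Type*} (s : Finset ι) {f : ι → α → ℝ} (hf : ∀ i ∈ s, BM (f i)) :
    BM (fun x => ∏ i ∈ s, f i x) := by
  classical
  induction s using Finset.induction_on with
  | empty => simpa using BM.const (α := α) 1
  | insert a s ha ih =>
    have h1 := hf a (Finset.mem_insert_self a s)
    have h2 := ih (fun i hi => hf i (Finset.mem_insert_of_mem hi))
    have h3 := h1.mul h2
    refine ⟨?_, ?_⟩
    · simpa [Finset.prod_insert ha] using h3.1
    · obtain ⟨C, hC⟩ := h3.2
      exact ⟨C, fun x => by simpa [Finset.prod_insert ha] using hC x⟩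

lemma BM.add {f g : α → ℝ} (hf : BM f) (hg : BM g) : BM (fun x => f x + g x) := by
  obtain ⟨hfm, C, hC⟩ := hf
  obtain ⟨hgm, D, hD⟩ := hg
  refine ⟨hfm.add hgm, C + D, fun x => ?_⟩
  exact (abs_add_le _ _).trans (add_le_add (hC x) (hD x))

lemma BM.comp {β : Type*} [MeasurableSpace β] {f : α → ℝ} (hf : BM f) {g : β → α}
    (hg : Measurable g) : BM (fun x => f (g x)) := by
  obtain ⟨hfm, C, hC⟩ := hf
  exact ⟨hfm.comp hg, C, fun x => hC _⟩

lemma BM.abs {f : α → ℝ} (hf : BM f) : BM (fun x => |f x|) := by
  obtain ⟨hfm, C, hC⟩ := hf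
  exact ⟨hfm.abs, C, fun x => by simpa using hC x⟩

/-- The integral over a product with respect to the second variable of a jointly bounded
measurable function is bounded measurable in the first variable. -/
lemma BM.integral_right {β : Type*} [MeasurableSpace β] {ν : Measure β} [IsProbabilityMeasure ν]
    {f : α × β → ℝ} (hf : BM f) : BM (fun a => ∫ b, f (a, b) ∂ν) := by
  obtain ⟨hfm, C, hC⟩ := hf
  refine ⟨?_, C, fun a => ?_⟩
  · exact (hfm.stronglyMeasurable.integral_prod_right' (ν := ν)).measurable
  · have := norm_integral_le_of_norm_le_const (μ := ν) (f := fun b => f (a, b)) (C := C)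
      (Filter.Eventually.of_forall fun b => by simpa [Real.norm_eq_abs] using hC (a, b))
    simpa [Real.norm_eq_abs] using this

end BM

variable {Ω : Type*} [MeasurableSpace Ω]
variable {V : Type*} [Fintype V] [DecidableEq V]

/-- The product measure on `V → Ω`. -/
noncomputable abbrev piM (μ : Measure Ω) (V : Type*) [Fintype V] : Measure (V → Ω) :=
  Measure.pi fun _ : V => μ

/-- Overwrite the coordinates in `S`. -/
def merge (S : Finset V) (x y : V → Ω) : V → Ω := fun i => if i ∈ S then y i else x i

@[simp] lemma merge_of_mem {S : Finset V} {x y : V → Ω} {i : V} (h : i ∈ S) :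
    merge S x y i = y i := by simp [merge, h]

@[simp] lemma merge_of_not_mem {S : Finset V} {x y : V → Ω} {i : V} (h : i ∉ S) :
    merge S x y i = x i := by simp [merge, h]

lemma measurable_merge (S : Finset V) :
    Measurable (fun p : (V → Ω) × (V → Ω) => merge S p.1 p.2) := by
  refine measurable_pi_lambda _ fun i => ?_
  by_cases h : i ∈ S
  · simp only [merge, h, if_true]
    exact (measurable_pi_apply i).comp measurable_snd
  · simp only [merge, h, if_false]
    exact (measurable_pi_apply i).comp measurable_fst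

section prob

variable (μ : Measure Ω) [IsProbabilityMeasure μ]

lemma map_merge (S : Finset V) :
    ((piM μ V).prod (piM μ V)).map (fun p => merge S p.1 p.2) = piM μ V := by
  symm
  apply Measure.pi_eq
  intro s hs
  rw [Measure.map_apply (measurable_merge S) (MeasurableSet.univ_pi hs)]
  have hset : (fun p : (V → Ω) × (V → Ω) => merge S p.1 p.2) ⁻¹' Set.univ.pi s
      = (Set.univ.pi fun i => if i ∈ S then Set.univ else s i) ×ˢ
        (Set.univ.pi fun i => if i ∈ S then s i else Set.univ) := by
    ext ⟨x, y⟩
    simp only [Set.mem_preimage, Set.mem_pi, Set.mem_univ, true_implies, Set.mem_prod]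
    constructor
    · intro h
      refine ⟨fun i => ?_, fun i => ?_⟩
      · by_cases hi : i ∈ S
        · simp [hi]
        · simpa [hi] using h i
      · by_cases hi : i ∈ S
        · simpa [hi] using h i
        · simp [hi]
    · rintro ⟨h1, h2⟩ i
      by_cases hi : i ∈ S
      · simpa [hi] using h2 i
      · simpa [hi] using h1 i
  rw [hset, Measure.prod_prod, Measure.pi_pi, Measure.pi_pi, ← Finset.prod_mul_distrib]
  refine Finset.prod_congr rfl fun i _ => ?_
  by_cases hi : i ∈ S <;> simp [hi]

/-- Resampling identity. -/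
lemma integral_merge (S : Finset V) {h : (V → Ω) → ℝ} (hh : BM h) :
    ∫ x, h x ∂(piM μ V) = ∫ x, ∫ y, h (merge S x y) ∂(piM μ V) ∂(piM μ V) := by
  conv_lhs => rw [← map_merge μ S]
  rw [integral_map (measurable_merge S).aemeasurable hh.1.aestronglyMeasurable]
  have hint : Integrable (fun p : (V → Ω) × (V → Ω) => h (merge S p.1 p.2))
      ((piM μ V).prod (piM μ V)) := (hh.comp (measurable_merge S)).integrable
  exact integral_prod _ hint

lemma BM.integral_merge_right (S : Finset V) {h : (V → Ω) → ℝ} (hh : BM h) :
    BM (fun x => ∫ y, h (merge S x y) ∂(piM μ V)) :=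
  BM.integral_right (ν := piM μ V) (f := fun p : (V → Ω) × (V → Ω) => h (merge S p.1 p.2))
    (hh.comp (measurable_merge S))

/-- The product measure is invariant under permutations of the index set. -/
lemma integral_comp_perm (σ : Equiv.Perm V) {h : (V → Ω) → ℝ} (hh : BM h) :
    ∫ x, h (x ∘ σ) ∂(piM μ V) = ∫ x, h x ∂(piM μ V) := by
  have hmeas : Measurable (fun x : V → Ω => x ∘ σ) :=
    measurable_pi_lambda _ fun i => measurable_pi_apply (σ i)
  have hmap : (piM μ V).map (fun x : V → Ω => x ∘ σ) = piM μ V := by
    symm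
    apply Measure.pi_eq
    intro s hs
    rw [Measure.map_apply hmeas (MeasurableSet.univ_pi hs)]
    have hset : (fun x : V → Ω => x ∘ σ) ⁻¹' Set.univ.pi s
        = Set.univ.pi fun i => s (σ.symm i) := by
      ext x
      simp only [Set.mem_preimage, Set.mem_pi, Set.mem_univ, true_implies, Function.comp]
      constructor
      · intro h i
        simpa using h (σ.symm i)
      · intro h i
        have := h (σ i)
        rwa [Equiv.symm_apply_apply] at this
    rw [hset, Measure.pi_pi]
    exact Equiv.prod_comp σ.symm (fun i => μ (s i))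
  conv_rhs => rw [← hmap]
  rw [integral_map hmeas.aemeasurable hh.1.aestronglyMeasurable]

/-- Integrating out a single coordinate: the marginal of coordinate `v` is `μ`. -/
lemma integral_eval (v : V) {g : Ω → ℝ} (hg : BM g) :
    ∫ x : V → Ω, g (x v) ∂(piM μ V) = ∫ r, g r ∂μ := by
  have : (piM μ V).map (fun x : V → Ω => x v) = μ :=
    (measurePreserving_eval (fun _ : V => μ) v).map_eq
  conv_rhs => rw [← this]
  rw [integral_map (measurable_pi_apply v).aemeasurable hg.1.aestronglyMeasurable]

/-- Cauchy-Schwarz in the form of a discriminant. -/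
lemma integral_mul_sq_le {α : Type*} [MeasurableSpace α] (ν : Measure α) [IsFiniteMeasure ν]
    {u v : α → ℝ} (hu : BM u) (hv : BM v) :
    (∫ x, u x * v x ∂ν) ^ 2 ≤ (∫ x, u x ^ 2 ∂ν) * (∫ x, v x ^ 2 ∂ν) := by
  have huu : BM (fun x => u x ^ 2) := by simpa [sq] using hu.mul hu
  have hvv : BM (fun x => v x ^ 2) := by simpa [sq] using hv.mul hv
  have huv : BM (fun x => u x * v x) := hu.mul hv
  have key : ∀ t : ℝ, 0 ≤ (∫ x, u x ^ 2 ∂ν) * (t * t) + (2 * ∫ x, u x * v x ∂ν) * t
      + ∫ x, v x ^ 2 ∂ν := by
    intro t
    have h0 : 0 ≤ ∫ x, (t * u x + v x) ^ 2 ∂ν := integral_nonneg fun x => sq_nonneg _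
    have h1 : ∫ x, (t * u x + v x) ^ 2 ∂ν = (∫ x, u x ^ 2 ∂ν) * (t * t)
        + (2 * ∫ x, u x * v x ∂ν) * t + ∫ x, v x ^ 2 ∂ν := by
      have e : ∀ x, (t * u x + v x) ^ 2 = (t * t) * u x ^ 2 + (2 * t) * (u x * v x) + v x ^ 2 := by
        intro x; ring
      simp_rw [e]
      have i1 : Integrable (fun x => (t * t) * u x ^ 2) ν := (huu.integrable).const_mul _
      have i2 : Integrable (fun x => (2 * t) * (u x * v x)) ν := (huv.integrable).const_mul _
      have i3 : Integrable (fun x => (t * t) * u x ^ 2 + (2 * t) * (u x * v x)) ν := i1.add i2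
      rw [integral_add i3 hvv.integrable, integral_add i1 i2,
        integral_const_mul, integral_const_mul]
      ring
    rw [← h1]; exact h0
  have := discrim_le_zero key
  unfold discrim at this
  nlinarith [this]

end prob

end Vale.Agent.Lib.P050
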