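import Vale.Agent.Lib.P050.Measure

/-!
# Reflection positivity on a product space
-/

open MeasureTheory

set_option linter.unusedSectionVars false

namespace Vale.Agent.Lib.P050

variable {Ω : Type*} [MeasurableSpace Ω]
variable {V : Type*} [Fintype V] [DecidableEq V]
variable (μ : Measure Ω) [IsProbabilityMeasure μ]

/-- `f` does not depend on the coordinates in `S`. -/
def Indep (S : Finset V) (f : (V → Ω) → ℝ) : Prop := ∀ x y, f (merge S x y) = f x

lemma merge_merge_same (S : Finset V) (x y z : V → Ω) :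
    merge S (merge S x y) z = merge S x z := by
  ext i; by_cases h : i ∈ S <;> simp [h]

lemma merge_comm_disj {S T : Finset V} (h : Disjoint S T) (x y z : V → Ω) :
    merge S (merge T x z) y = merge T (merge S x y) z := by
  ext i
  by_cases h1 : i ∈ S
  · have h2 : i ∉ T := Finset.disjoint_left.mp h h1
    simp [h1, h2]
  · by_cases h2 : i ∈ T <;> simp [h1, h2]

/-- Conditional expectation: integrate out the coordinates in `S`. -/
noncomputable def condE (S : Finset V) (f : (V → Ω) → ℝ) (x : V → Ω) : ℝ :=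
  ∫ y, f (merge S x y) ∂(piM μ V)

lemma BM.condE {S : Finset V} {f : (V → Ω) → ℝ} (hf : BM f) : BM (condE μ S f) :=
  BM.integral_merge_right μ S hf

lemma condE_indep_self (S : Finset V) (f : (V → Ω) → ℝ) : Indep S (condE μ S f) := by
  intro x y
  simp only [condE, merge_merge_same]

lemma condE_indep_other {S T : Finset V} (h : Disjoint S T) {f : (V → Ω) → ℝ} (hf : Indep T f) :
    Indep T (condE μ S f) := by
  intro x y
  simp only [condE]
  congr 1
  ext z
  rw [merge_comm_disj h, hf]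

/-- Integrating out `S`, where the factor `a` does not depend on `S`. -/
lemma integral_mul_condE (S : Finset V) {a f : (V → Ω) → ℝ} (ha : BM a) (hf : BM f)
    (hia : Indep S a) :
    ∫ x, a x * f x ∂(piM μ V) = ∫ x, a x * condE μ S f x ∂(piM μ V) := by
  rw [integral_merge μ S (ha.mul hf)]
  congr 1
  ext x
  simp only [hia x, condE]
  rw [integral_const_mul]

/-- Splitting along two disjoint sets of coordinates. -/
lemma integral_split {S T : Finset V} (hST : Disjoint S T) {θ f g : (V → Ω) → ℝ}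
    (hθ : BM θ) (hf : BM f) (hg : BM g)
    (hθS : Indep S θ) (hθT : Indep T θ) (hfT : Indep T f) (hgS : Indep S g) :
    ∫ x, θ x * f x * g x ∂(piM μ V)
      = ∫ x, θ x * condE μ S f x * condE μ T g x ∂(piM μ V) := by
  have h1 : Indep T (fun x => θ x * f x) := by
    intro x y; simp only [hθT x y, hfT x y]
  rw [integral_mul_condE μ T (hθ.mul hf) hg h1]
  have h2 : ∀ x, θ x * f x * condE μ T g x = (θ x * condE μ T g x) * f x := fun x => by ring
  simp_rw [h2]
  have h3 : Indep S (fun x => θ x * condE μ T g x) := by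
    intro x y
    simp only [hθS x y, condE_indep_other μ hST.symm hgS x y]
  rw [integral_mul_condE μ S (hθ.mul (BM.condE μ hg)) hf h3]
  congr 1
  ext x
  ring

lemma merge_comp_perm {S T : Finset V} (σ : Equiv.Perm V)
    (hσS : ∀ i ∈ S, σ i ∈ T) (hσT : ∀ i ∈ T, σ i ∈ S) (hσσ : ∀ i, σ (σ i) = i)
    (x y : V → Ω) : (merge T x y) ∘ σ = merge S (x ∘ σ) (y ∘ σ) := by
  ext i
  by_cases h : i ∈ S
  · simp [h, hσS i h]
  · have h' : σ i ∉ T := fun hc => h (by simpa [hσσ] using hσT _ hc)
    simp [h, h']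

lemma integral_mul_reflect {S T : Finset V} (hST : Disjoint S T) (σ : Equiv.Perm V)
    (hσσ : ∀ i, σ (σ i) = i) (hσS : ∀ i ∈ S, σ i ∈ T) (hσT : ∀ i ∈ T, σ i ∈ S)
    (hσfix : ∀ i, i ∉ S → i ∉ T → σ i = i)
    {f : (V → Ω) → ℝ} (hf : BM f) (hfT : Indep T f) :
    ∫ x, f x * f (x ∘ σ) ∂(piM μ V) = ∫ x, (condE μ S f x) ^ 2 ∂(piM μ V) := by
  have hσm : Measurable (fun x : V → Ω => x ∘ σ) :=
    measurable_pi_lambda _ fun i => measurable_pi_apply (σ i)
  have hf' : BM (fun x : V → Ω => f (x ∘ σ)) := hf.comp hσm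
  have hf'S : Indep S (fun x : V → Ω => f (x ∘ σ)) := by
    intro x y
    show f ((merge S x y) ∘ σ) = f (x ∘ σ)
    rw [merge_comp_perm (S := T) (T := S) σ hσT hσS hσσ, hfT]
  have key := integral_split μ hST (BM.const (1 : ℝ)) hf hf' (fun _ _ => rfl) (fun _ _ => rfl)
    hfT hf'S
  simp only [one_mul] at key
  rw [key]
  congr 1
  ext x
  have h1 : condE μ T (fun x : V → Ω => f (x ∘ σ)) x = condE μ S f x := by
    have hh : condE μ T (fun x : V → Ω => f (x ∘ σ)) x = condE μ S f (x ∘ σ) := by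
      simp only [condE]
      have e : ∀ y : V → Ω, f ((merge T x y) ∘ σ) = f (merge S (x ∘ σ) (y ∘ σ)) := fun y => by
        rw [merge_comp_perm σ hσS hσT hσσ]
      simp_rw [e]
      exact integral_comp_perm μ σ (h := fun y => f (merge S (x ∘ σ) y))
        (hf.comp ((measurable_merge S).comp (measurable_const.prodMk measurable_id)))
    rw [hh]
    have hx : x ∘ σ = merge T (merge S x (x ∘ σ)) (x ∘ σ) := by
      ext i
      by_cases h1 : i ∈ T
      · simp [h1]
      · by_cases h2 : i ∈ S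
        · simp [h1, h2]
        · simp [h1, h2, hσfix i h2 h1]
    conv_lhs => rw [hx]
    rw [condE_indep_other μ hST hfT, condE_indep_self]
  rw [h1]
  ring

/-- Abstract reflection inequality. `σ` is an involution swapping `S` and `T` and fixing everything
outside. -/
lemma reflection {S T : Finset V} (hST : Disjoint S T) (σ : Equiv.Perm V)
    (hσσ : ∀ i, σ (σ i) = i) (hσS : ∀ i ∈ S, σ i ∈ T) (hσT : ∀ i ∈ T, σ i ∈ S)
    (hσfix : ∀ i, i ∉ S → i ∉ T → σ i = i)
    {θ f g : (V → Ω) → ℝ}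
    (hθ : BM θ) (hf : BM f) (hg : BM g)
    (hθS : Indep S θ) (hθT : Indep T θ) (hfT : Indep T f) (hgS : Indep S g)
    (hθ1 : ∀ x, |θ x| ≤ 1) :
    (∫ x, θ x * f x * g x ∂(piM μ V)) ^ 2
      ≤ (∫ x, f x * f (x ∘ σ) ∂(piM μ V)) * (∫ x, g x * g (x ∘ σ) ∂(piM μ V)) := by
  rw [integral_split μ hST hθ hf hg hθS hθT hfT hgS,
    integral_mul_reflect μ hST σ hσσ hσS hσT hσfix hf hfT,
    integral_mul_reflect μ hST.symm σ hσσ hσT hσS (fun i h1 h2 => hσfix i h2 h1) hg hgS]
  have hF := BM.condE (S := S) μ hf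
  have hG := BM.condE (S := T) μ hg
  have h1 := integral_mul_sq_le (piM μ V) (hθ.mul hF) hG
  refine h1.trans ?_
  apply mul_le_mul_of_nonneg_right _ (integral_nonneg fun x => sq_nonneg _)
  have hsq : BM (fun x => (θ x * condE μ S f x) ^ 2) := by
    simpa [sq] using (hθ.mul hF).mul (hθ.mul hF)
  have hsq2 : BM (fun x => (condE μ S f x) ^ 2) := by
    simpa [sq] using hF.mul hF
  apply integral_mono hsq.integrable hsq2.integrable
  intro x
  have h2 : (θ x) ^ 2 ≤ 1 := by
    have := hθ1 x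
    rw [← sq_abs]
    exact pow_le_one₀ (abs_nonneg _) this
  show (θ x * condE μ S f x) ^ 2 ≤ (condE μ S f x) ^ 2
  rw [mul_pow]
  nlinarith [sq_nonneg (condE μ S f x)]

end Vale.Agent.Lib.P050
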